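import Vale.Agent.P160.Half.Mid.MidStmt
import Vale.Agent.P160.Half.Fin.FStmt

/-! # P160, rate 1/2: `Mid.StmtMid` implies `F.MidStmt β` for `0 < β < 2` (helper438, hedge of row 30801) -/

set_option autoImplicit false
set_option linter.unusedVariables false

namespace Vale.Agent.P160.Half.Mid.Adapt438

open Finset Matrix Vale.Agent.P160 Vale.Agent.P160.Half Vale.Agent.P160.Half.A

theorem midStmt_of_mid (h : Mid.StmtMid) {β : ℝ} (hβ0 : 0 < β) (hβ : β < 2) : F.MidStmt β := by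
  classical
  intro θ δ ε hθ hδ hε
  obtain ⟨n₀, hn₀⟩ := h (min 1 (min ε (δ / 4))) (θ / 4) (2 - β)
    (lt_min one_pos (lt_min hε (by linarith))) (by linarith) (by linarith)
  set ε' : ℝ := min 1 (min ε (δ / 4)) with hε'
  have e1 : ε' ≤ 1 := min_le_left _ _
  have e2 : ε' ≤ ε := (min_le_right _ _).trans (min_le_left _ _)
  have e3 : ε' ≤ δ / 4 := (min_le_right _ _).trans (min_le_right _ _)
  refine ⟨max (max 1 n₀) (⌈4 / δ⌉₊), fun n hn => ?_⟩
  have hn1 : 1 ≤ n := (le_max_left _ _).trans ((le_max_left _ _).trans hn)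
  have hnn : n₀ ≤ n + 1 := ((le_max_right _ _).trans ((le_max_left _ _).trans hn)).trans (Nat.le_succ n)
  have hnr : (1 : ℝ) ≤ n := by exact_mod_cast hn1
  have hnδ : 4 ≤ δ * n := by
    have h1 : 4 / δ ≤ (n : ℝ) := (Nat.le_ceil _).trans (by exact_mod_cast (le_max_right _ _).trans hn)
    rw [div_le_iff₀ hδ] at h1
    linarith
  have hk := hn₀ (n + 1) hnn
  have hsub : ((univ : Finset (Bits (n + 1))).filter fun b => ((matZ b).map (Int.cast : ℤ → ℚ)).rank = n ∧
      ∃ v : Fin (n + 1) → ℤ, F.PrimKer (matZ b) v ∧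
        θ * n ≤ ((univ.filter fun j => v j ≠ 0 ∧ δ * n < ((F.midSet β (matZ b) v j).card : ℝ)).card : ℝ)) ⊆
      ((univ : Finset (Sym2 (Fin (n + 1)) → Bool)).filter fun b => ∃ v : Fin (n + 1) → ℤ,
        (∀ p : ℕ, p.Prime → ∃ j, ¬ (p : ℤ) ∣ v j) ∧ matZ b *ᵥ v = 0 ∧
        θ / 4 * ((n + 1 : ℕ) : ℝ) < ((univ.filter fun j : Fin (n + 1) =>
          ε' * ((n + 1 : ℕ) : ℝ) < (((range ((n + 1) ^ 2 + 1)).filter fun q => q.Prime ∧ n + 1 ≤ q ∧
            (q : ℝ) ≤ ((n + 1 : ℕ) : ℝ) ^ (2 - (2 - β)) ∧ (q : ℤ) ∣ v j).card : ℝ)).card : ℝ)) := by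
    intro b hb
    rw [mem_filter] at hb ⊢
    obtain ⟨_, _, v, ⟨hv0, a, ha⟩, hcard⟩ := hb
    refine ⟨mem_univ _, v, ?_, hv0, ?_⟩
    · intro p hp
      by_contra hcon
      push Not at hcon
      have : (p : ℤ) ∣ ∑ i, a i * v i := Finset.dvd_sum fun i _ => (hcon i).mul_left _
      rw [ha] at this
      have h1 := Int.isUnit_iff.1 (isUnit_of_dvd_one this)
      have h2 := hp.two_le
      omega
    · have h1 : θ / 4 * ((n + 1 : ℕ) : ℝ) < θ * n := by
        push_cast
        nlinarith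
      refine h1.trans_le (hcard.trans ?_)
      refine Nat.cast_le.2 (card_le_card ?_)
      intro j hj
      rw [mem_filter] at hj ⊢
      refine ⟨mem_univ _, ?_⟩
      obtain ⟨_, hvj, hm⟩ := hj
      have h2 : ((F.midSet β (matZ b) v j).card : ℝ) ≤
          (((range ((n + 1) ^ 2 + 1)).filter fun q => q.Prime ∧ n + 1 ≤ q ∧
            (q : ℝ) ≤ ((n + 1 : ℕ) : ℝ) ^ (2 - (2 - β)) ∧ (q : ℤ) ∣ v j).card : ℝ) + 1 := by
        have h3 : F.midSet β (matZ b) v j ⊆ insert n ((range ((n + 1) ^ 2 + 1)).filter fun q => q.Prime ∧ n + 1 ≤ q ∧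
            (q : ℝ) ≤ ((n + 1 : ℕ) : ℝ) ^ (2 - (2 - β)) ∧ (q : ℤ) ∣ v j) := by
          intro q hq
          rw [F.midSet, mem_filter, Nat.mem_primeFactors] at hq
          obtain ⟨⟨hqp, hqd, _⟩, hnq, hqβ, _⟩ := hq
          rw [mem_insert]
          by_cases hqn : q = n
          · exact Or.inl hqn
          · right
            rw [mem_filter, mem_range]
            have h4 : (q : ℝ) ≤ ((n + 1 : ℕ) : ℝ) ^ (2 - (2 - β)) := by
              rw [sub_sub_cancel]
              refine hqβ.le.trans (Real.rpow_le_rpow (by positivity) (by push_cast; linarith) hβ0.le)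
            refine ⟨?_, hqp, by omega, h4, ?_⟩
            · have h5 : (q : ℝ) ≤ (((n + 1) ^ 2 : ℕ) : ℝ) := by
                refine h4.trans ?_
                push_cast
                rw [sub_sub_cancel, ← Real.rpow_natCast]
                refine Real.rpow_le_rpow_of_exponent_le (by linarith) ?_
                push_cast
                linarith
              have h6 : q ≤ (n + 1) ^ 2 := by exact_mod_cast h5
              omega
            · exact Int.natCast_dvd.2 hqd
        have h7 := card_le_card h3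
        have h8 := card_insert_le n ((range ((n + 1) ^ 2 + 1)).filter fun q => q.Prime ∧ n + 1 ≤ q ∧
            (q : ℝ) ≤ ((n + 1 : ℕ) : ℝ) ^ (2 - (2 - β)) ∧ (q : ℤ) ∣ v j)
        exact_mod_cast h7.trans h8
      have h9 : ε' * ((n + 1 : ℕ) : ℝ) ≤ δ / 4 * ((n + 1 : ℕ) : ℝ) :=
        mul_le_mul_of_nonneg_right e3 (Nat.cast_nonneg _)
      push_cast at h9 ⊢
      have h10 : δ / 4 * ((n : ℝ) + 1) ≤ δ * n - 1 - δ * n / 4 + 0 := by nlinarith
      push_cast at h2
      nlinarith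
  refine (Nat.cast_le.2 (card_le_card hsub)).trans (hk.trans ?_)
  refine mul_le_mul_of_nonneg_right ?_ (by positivity)
  refine Real.rpow_le_rpow_of_exponent_le (by norm_num) ?_
  push_cast
  nlinarith

end Vale.Agent.P160.Half.Mid.Adapt438
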