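import Vale.Agent.P160.Half.Mid.All184
import Vale.Agent.P160.Half.Mid.Adapt438

/-! # P160, rate 1/2: the input MID of the final assembly -/

namespace Vale.Agent.P160.Half.Mid184

theorem midStmt {β : ℝ} (h0 : 0 < β) (h2 : β < 2) : F.MidStmt β :=
  Mid.Adapt438.midStmt_of_mid mid h0 h2

end Vale.Agent.P160.Half.Mid184
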