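import Vale.Agent.P160.Half.Mid.Cut490

set_option linter.unusedSectionVars false

/-! # P160, MID, step (3) of note 11260: Hoelder core for one block and one cut (helper886)

`Y` uniform in `β → α → Fin M`, `ker1 Y = {x : α → A | Y x = 0}`, `ker2 Y = {z : β → A | Yᵀ z = 0}`.
`core`: the expected number of pairs `(x, z)` in `ker1 × ker2` with `x ∈ S₁` or `z ∈ S₂` is at most
`√(|S₁| (c/|A|)^|β| Mom) + √(P(NF₁) Mom) + (same for 2)`, `Mom = E (|ker1| + |ker2|)^4`. -/

namespace Vale.Agent.P160.Half.Core886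

open Finset Vale.Agent.P160 Vale.Agent.P160.Half

section base

variable {A : Type*} [AddCommGroup A] [Fintype A] [DecidableEq A]
variable {α β : Type*} [Fintype α] [Fintype β] [DecidableEq α] [DecidableEq β] {M : ℕ}

/-- kernel vectors of `Y` -/
def ker1 (A : Type*) [AddCommGroup A] [Fintype A] [DecidableEq A] (Y : β → α → Fin M) :
    Finset (α → A) := univ.filter fun x => ∀ i, gwalk (Y i) x = 0

/-- kernel vectors of the transpose -/
def ker2 (A : Type*) [AddCommGroup A] [Fintype A] [DecidableEq A] (Y : β → α → Fin M) :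
    Finset (β → A) := univ.filter fun z => ∀ j, gwalk (fun i => Y i j) z = 0

lemma mem_ker1 {Y : β → α → Fin M} {x : α → A} : x ∈ ker1 A Y ↔ ∀ i, gwalk (Y i) x = 0 := by
  unfold ker1; simp

lemma mem_ker2 {Y : β → α → Fin M} {z : β → A} :
    z ∈ ker2 A Y ↔ ∀ j, gwalk (fun i => Y i j) z = 0 := by
  unfold ker2; simp

lemma zero_mem_ker1 (Y : β → α → Fin M) : (0 : α → A) ∈ ker1 A Y := by
  rw [mem_ker1]; intro i; unfold gwalk; simp

lemma zero_mem_ker2 (Y : β → α → Fin M) : (0 : β → A) ∈ ker2 A Y := by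
  rw [mem_ker2]; intro i; unfold gwalk; simp

lemma one_le_ker1 (Y : β → α → Fin M) : (1 : ℝ) ≤ (ker1 A Y).card := by
  exact_mod_cast card_pos.2 ⟨0, zero_mem_ker1 Y⟩

lemma one_le_ker2 (Y : β → α → Fin M) : (1 : ℝ) ≤ (ker2 A Y).card := by
  exact_mod_cast card_pos.2 ⟨0, zero_mem_ker2 Y⟩

/-- expectation over `Y` -/
noncomputable def EY (M : ℕ) (α β : Type*) [Fintype α] [Fintype β] [DecidableEq α] [DecidableEq β]
    (f : (β → α → Fin M) → ℝ) : ℝ :=
  (∑ Y : β → α → Fin M, f Y) / (M : ℝ) ^ (Fintype.card β * Fintype.card α)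

lemma EY_mono {f g : (β → α → Fin M) → ℝ} (h : ∀ Y, f Y ≤ g Y) :
    EY M α β f ≤ EY M α β g := by
  unfold EY
  exact div_le_div_of_nonneg_right (sum_le_sum fun Y _ => h Y) (by positivity)

lemma EY_add (f g : (β → α → Fin M) → ℝ) :
    EY M α β (fun Y => f Y + g Y) = EY M α β f + EY M α β g := by
  unfold EY
  rw [sum_add_distrib, add_div]

lemma EY_nonneg {f : (β → α → Fin M) → ℝ} (h : ∀ Y, 0 ≤ f Y) : 0 ≤ EY M α β f := by
  unfold EY
  exact div_nonneg (sum_nonneg fun Y _ => h Y) (by positivity)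

/-- Cauchy-Schwarz -/
lemma EY_cs {f g : (β → α → Fin M) → ℝ} (hf : ∀ Y, 0 ≤ f Y) (hg : ∀ Y, 0 ≤ g Y) :
    EY M α β (fun Y => Real.sqrt (f Y) * Real.sqrt (g Y)) ≤
      Real.sqrt (EY M α β f * EY M α β g) := by
  unfold EY
  have h := Real.sum_sqrt_mul_sqrt_le (univ : Finset (β → α → Fin M)) hf hg
  set c : ℝ := (M : ℝ) ^ (Fintype.card β * Fintype.card α) with hc
  have hc0 : 0 ≤ c := by positivity
  rw [div_mul_div_comm, ← pow_two c, Real.sqrt_div' _ (by positivity), Real.sqrt_sq hc0,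
    Real.sqrt_mul (sum_nonneg fun Y _ => hf Y)]
  exact div_le_div_of_nonneg_right h hc0

/-- exchange of the sum over pairs and the expectation -/
lemma sum_BprA (P : Finset ((α → A) × (β → A))) :
    ∑ q ∈ P, BprA M q.1 q.2 =
      EY M α β fun Y => ((P.filter fun q => q.1 ∈ ker1 A Y ∧ q.2 ∈ ker2 A Y).card : ℝ) := by
  unfold EY BprA
  rw [← sum_div]
  congr 1
  have h1 : ∀ q ∈ P, ((univ.filter (fun ω : β → α → Fin M =>
      (∀ i, gwalk (ω i) q.1 = 0) ∧ ∀ j, gwalk (fun i => ω i j) q.2 = 0)).card : ℝ) =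
      ∑ Y : β → α → Fin M, if q.1 ∈ ker1 A Y ∧ q.2 ∈ ker2 A Y then (1 : ℝ) else 0 := by
    intro q _
    rw [card_filter]
    push_cast
    refine sum_congr rfl fun Y _ => ?_
    simp only [mem_ker1, mem_ker2]
  rw [sum_congr rfl h1, sum_comm]
  refine sum_congr rfl fun Y _ => ?_
  beta_reduce
  rw [card_filter]
  push_cast
  rfl

/-- first moment of a set of flat vectors -/
lemma first_moment (hM : 1 ≤ M) (S : Finset (α → A)) (c : ℝ) (_hc : 0 ≤ c)
    (hS : ∀ x ∈ S, gpr M x 0 ≤ c / Fintype.card A) :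
    EY M α β (fun Y => ((S.filter fun x => x ∈ ker1 A Y).card : ℝ)) ≤
      S.card * (c / Fintype.card A) ^ Fintype.card β := by
  have hM0 : (0 : ℝ) < M := by exact_mod_cast hM
  unfold EY
  rw [div_le_iff₀ (by positivity)]
  have h1 : (∑ Y : β → α → Fin M, ((S.filter fun x => x ∈ ker1 A Y).card : ℝ)) =
      ∑ x ∈ S, ((univ.filter fun y : α → Fin M => gwalk y x = 0).card : ℝ) ^ Fintype.card β := by
    have h2 : ∀ Y : β → α → Fin M, ((S.filter fun x => x ∈ ker1 A Y).card : ℝ) =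
        ∑ x ∈ S, if (∀ i, gwalk (Y i) x = 0) then (1 : ℝ) else 0 := by
      intro Y
      rw [card_filter]
      push_cast
      simp only [mem_ker1]
    rw [sum_congr rfl fun Y _ => h2 Y, sum_comm]
    refine sum_congr rfl fun x _ => ?_
    have h3 : (∑ Y : β → α → Fin M, if (∀ i, gwalk (Y i) x = 0) then (1 : ℝ) else 0) =
        ((univ.filter fun Y : β → α → Fin M => ∀ i, gwalk (Y i) x = 0).card : ℝ) := by
      rw [card_filter]; push_cast; rfl
    have h4 : (univ.filter fun Y : β → α → Fin M => ∀ i, gwalk (Y i) x = 0) =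
        Fintype.piFinset fun _ : β => univ.filter fun y : α → Fin M => gwalk y x = 0 := by
      ext Y
      simp [Fintype.mem_piFinset]
    rw [h3, h4, Fintype.card_piFinset, prod_const, card_univ]
    push_cast
    rfl
  rw [h1]
  have h5 : ∀ x ∈ S, ((univ.filter fun y : α → Fin M => gwalk y x = 0).card : ℝ) ^
      Fintype.card β ≤ ((c / Fintype.card A) * (M : ℝ) ^ Fintype.card α) ^ Fintype.card β := by
    intro x hx
    have h := hS x hx
    unfold gpr at h
    rw [div_le_iff₀ (by positivity)] at h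
    exact pow_le_pow_left₀ (by positivity) h _
  refine (sum_le_sum h5).trans (le_of_eq ?_)
  rw [sum_const, nsmul_eq_mul, mul_pow, ← pow_mul, mul_comm (Fintype.card α)]
  ring

/-- the non-flat event -/
def NF1 (S : Finset (α → A)) (c : ℝ) (Y : β → α → Fin M) : Prop :=
  ∃ x ∈ S, c / Fintype.card A < gpr M x 0 ∧ x ∈ ker1 A Y

open Classical in
/-- one side -/
theorem side (hM : 1 ≤ M) (S : Finset (α → A)) (c : ℝ) (hc : 0 ≤ c) (p Mom : ℝ)
    (hp : EY M α β (fun Y => if NF1 S c Y then 1 else 0) ≤ p)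
    (hMom : EY M α β (fun Y => (((ker1 A Y).card : ℝ) + (ker2 A Y).card) ^ 4) ≤ Mom) :
    EY M α β (fun Y => ((S.filter fun x => x ∈ ker1 A Y).card : ℝ) * (ker2 A Y).card) ≤
      Real.sqrt (S.card * (c / Fintype.card A) ^ Fintype.card β * Mom) + Real.sqrt (p * Mom) := by
  set Sf : Finset (α → A) := S.filter fun x => gpr M x 0 ≤ c / Fintype.card A with hSf
  have hbound : ∀ Y : β → α → Fin M,
      ((S.filter fun x => x ∈ ker1 A Y).card : ℝ) * (ker2 A Y).card ≤
      Real.sqrt ((Sf.filter fun x => x ∈ ker1 A Y).card : ℝ) *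
        Real.sqrt ((((ker1 A Y).card : ℝ) + (ker2 A Y).card) ^ 4) +
      Real.sqrt (if NF1 S c Y then 1 else 0) *
        Real.sqrt ((((ker1 A Y).card : ℝ) + (ker2 A Y).card) ^ 4) := by
    intro Y
    have hk1 := one_le_ker1 (A := A) Y
    have hk2 := one_le_ker2 (A := A) Y
    have hk10 : (0 : ℝ) ≤ ((ker1 A Y).card : ℝ) := Nat.cast_nonneg _
    have hk20 : (0 : ℝ) ≤ ((ker2 A Y).card : ℝ) := Nat.cast_nonneg _
    have hS1' : ((S.filter fun x => x ∈ ker1 A Y).card : ℝ) ≤ ((ker1 A Y).card : ℝ) := by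
      have : (S.filter fun x => x ∈ ker1 A Y) ⊆ ker1 A Y := fun x hx => (mem_filter.1 hx).2
      exact_mod_cast card_le_card this
    have hSf1' : ((Sf.filter fun x => x ∈ ker1 A Y).card : ℝ) ≤ ((ker1 A Y).card : ℝ) := by
      have : (Sf.filter fun x => x ∈ ker1 A Y) ⊆ ker1 A Y := fun x hx => (mem_filter.1 hx).2
      exact_mod_cast card_le_card this
    generalize hk1d : ((ker1 A Y).card : ℝ) = k1 at *
    generalize hk2d : ((ker2 A Y).card : ℝ) = k2 at *
    have hs4 : Real.sqrt ((k1 + k2) ^ 4) = (k1 + k2) ^ 2 := by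
      rw [show (k1 + k2) ^ 4 = ((k1 + k2) ^ 2) ^ 2 by ring, Real.sqrt_sq (by positivity)]
    rw [hs4]
    by_cases hNF : NF1 S c Y
    · rw [if_pos hNF, Real.sqrt_one, one_mul]
      have h1 : ((S.filter fun x => x ∈ ker1 A Y).card : ℝ) * k2 ≤ (k1 + k2) ^ 2 := by
        nlinarith
      have h2 : 0 ≤ Real.sqrt ((Sf.filter fun x => x ∈ ker1 A Y).card : ℝ) * (k1 + k2) ^ 2 := by
        positivity
      linarith
    · rw [if_neg hNF, Real.sqrt_zero, zero_mul, add_zero]
      have h3 : (S.filter fun x => x ∈ ker1 A Y) ⊆ (Sf.filter fun x => x ∈ ker1 A Y) := by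
        intro x hx
        obtain ⟨hxS, hxk⟩ := mem_filter.1 hx
        refine mem_filter.2 ⟨mem_filter.2 ⟨hxS, ?_⟩, hxk⟩
        by_contra hcon
        exact hNF ⟨x, hxS, lt_of_not_ge hcon, hxk⟩
      have h4 : ((S.filter fun x => x ∈ ker1 A Y).card : ℝ) ≤
          ((Sf.filter fun x => x ∈ ker1 A Y).card : ℝ) := by exact_mod_cast card_le_card h3
      set X : ℝ := ((Sf.filter fun x => x ∈ ker1 A Y).card : ℝ)
      have hX0 : 0 ≤ X := by positivity
      have h5 : X ≤ Real.sqrt X * Real.sqrt k1 := by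
        calc X = Real.sqrt X * Real.sqrt X := (Real.mul_self_sqrt hX0).symm
          _ ≤ _ := mul_le_mul_of_nonneg_left (Real.sqrt_le_sqrt hSf1') (Real.sqrt_nonneg _)
      have h6 : Real.sqrt k1 ≤ k1 := by
        rw [Real.sqrt_le_left (by positivity)]
        nlinarith
      have h7 : Real.sqrt k1 * k2 ≤ (k1 + k2) ^ 2 := by nlinarith [Real.sqrt_nonneg k1]
      calc ((S.filter fun x => x ∈ ker1 A Y).card : ℝ) * k2 ≤ X * k2 :=
            mul_le_mul_of_nonneg_right h4 (by positivity)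
        _ ≤ (Real.sqrt X * Real.sqrt k1) * k2 := mul_le_mul_of_nonneg_right h5 (by positivity)
        _ = Real.sqrt X * (Real.sqrt k1 * k2) := by ring
        _ ≤ _ := mul_le_mul_of_nonneg_left h7 (Real.sqrt_nonneg _)
  refine (EY_mono hbound).trans ?_
  rw [EY_add]
  have hMom0 : 0 ≤ EY M α β (fun Y => (((ker1 A Y).card : ℝ) + (ker2 A Y).card) ^ 4) :=
    EY_nonneg fun Y => by positivity
  have hfm := first_moment (β := β) hM Sf c hc (fun x hx => (mem_filter.1 hx).2)
  have hfm0 : 0 ≤ EY M α β (fun Y => ((Sf.filter fun x => x ∈ ker1 A Y).card : ℝ)) :=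
    EY_nonneg fun Y => by positivity
  have hcard : (Sf.card : ℝ) ≤ S.card := by exact_mod_cast card_le_card (filter_subset _ _)
  have hcA : 0 ≤ (c / Fintype.card A) ^ Fintype.card β := by positivity
  refine add_le_add ?_ ?_
  · refine (EY_cs (fun Y => by positivity) (fun Y => by positivity)).trans ?_
    refine Real.sqrt_le_sqrt ?_
    refine mul_le_mul (hfm.trans (mul_le_mul_of_nonneg_right hcard hcA)) hMom hMom0 (by positivity)
  · refine (EY_cs (fun Y => by split_ifs <;> norm_num) (fun Y => by positivity)).trans ?_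
    refine Real.sqrt_le_sqrt ?_
    have hp0 : 0 ≤ EY M α β (fun Y => if NF1 S c Y then (1 : ℝ) else 0) :=
      EY_nonneg fun Y => by split_ifs <;> norm_num
    exact mul_le_mul hp hMom hMom0 (hp0.trans hp)

/-- transposition -/
lemma EY_swap (f : (β → α → Fin M) → ℝ) :
    EY M β α (fun Y : α → β → Fin M => f fun i j => Y j i) = EY M α β f := by
  unfold EY
  rw [mul_comm (Fintype.card α)]
  congr 1
  exact Fintype.sum_equiv (Equiv.piComm fun _ _ => Fin M) _ _ fun Y => rfl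

open Classical in
/-- **CORE** -/
theorem core (hM : 1 ≤ M) (S₁ : Finset (α → A)) (S₂ : Finset (β → A)) (c : ℝ) (hc : 0 ≤ c)
    (p₁ p₂ Mom : ℝ)
    (hp₁ : EY M α β (fun Y => if NF1 S₁ c Y then 1 else 0) ≤ p₁)
    (hp₂ : EY M β α (fun Y => if NF1 S₂ c Y then 1 else 0) ≤ p₂)
    (hMom : EY M α β (fun Y => (((ker1 A Y).card : ℝ) + (ker2 A Y).card) ^ 4) ≤ Mom)
    (P : Finset ((α → A) × (β → A))) (hP : ∀ q ∈ P, q.1 ∈ S₁ ∨ q.2 ∈ S₂) :
    ∑ q ∈ P, BprA M q.1 q.2 ≤
      (Real.sqrt (S₁.card * (c / Fintype.card A) ^ Fintype.card β * Mom) +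
        Real.sqrt (p₁ * Mom)) +
      (Real.sqrt (S₂.card * (c / Fintype.card A) ^ Fintype.card α * Mom) +
        Real.sqrt (p₂ * Mom)) := by
  rw [sum_BprA]
  have h1 := side (β := β) hM S₁ c hc p₁ Mom hp₁ hMom
  have hMom' : EY M β α (fun Y => (((ker1 A Y).card : ℝ) + (ker2 A Y).card) ^ 4) ≤ Mom := by
    refine le_trans (le_of_eq ?_) hMom
    rw [← EY_swap]
    congr 1
    funext Y
    rw [add_comm]
    rfl
  have h2 := side (β := α) hM S₂ c hc p₂ Mom hp₂ hMom'
  have h3 : EY M β α (fun Y => ((S₂.filter fun x => x ∈ ker1 A Y).card : ℝ) *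
      (ker2 A Y).card) = EY M α β (fun Y => ((S₂.filter fun x => x ∈ ker2 A Y).card : ℝ) *
      (ker1 A Y).card) := by
    rw [← EY_swap (α := α) (β := β)]
    rfl
  rw [h3] at h2
  refine le_trans ?_ (add_le_add h1 h2)
  rw [← EY_add]
  refine EY_mono fun Y => ?_
  have hsub : (P.filter fun q => q.1 ∈ ker1 A Y ∧ q.2 ∈ ker2 A Y) ⊆
      ((S₁.filter fun x => x ∈ ker1 A Y) ×ˢ ker2 A Y) ∪
      (ker1 A Y ×ˢ (S₂.filter fun x => x ∈ ker2 A Y)) := by
    intro q hq
    obtain ⟨hqP, hq1, hq2⟩ := mem_filter.1 hq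
    rw [mem_union, mem_product, mem_product, mem_filter, mem_filter]
    rcases hP q hqP with h | h
    · exact Or.inl ⟨⟨h, hq1⟩, hq2⟩
    · exact Or.inr ⟨hq1, h, hq2⟩
  have h4 := (card_le_card hsub).trans (card_union_le _ _)
  rw [card_product, card_product] at h4
  have h5 : ((P.filter fun q => q.1 ∈ ker1 A Y ∧ q.2 ∈ ker2 A Y).card : ℝ) ≤
      ((S₁.filter fun x => x ∈ ker1 A Y).card : ℝ) * (ker2 A Y).card +
      (ker1 A Y).card * ((S₂.filter fun x => x ∈ ker2 A Y).card : ℝ) := by exact_mod_cast h4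
  linarith

end base

end Vale.Agent.P160.Half.Core886
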