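import Mathlib

/-! # P160, half rate, MID (3a): vectors with many zero coordinates (helper446) -/

open Finset

namespace Vale.Agent.P160.Half.Mid446

variable {ι κ : Type*} [Fintype ι] [DecidableEq ι] [Fintype κ] [DecidableEq κ]

/-- vectors vanishing on a given set of incidences -/
theorem card_zero_on (p : ι → ℕ) [∀ i, NeZero (p i)] (B : ℕ) (hB : ∀ i, B ≤ p i) (Z : Finset (κ × ι)) :
    (univ.filter fun w : κ → (∀ i, ZMod (p i)) => ∀ z ∈ Z, w z.1 z.2 = 0).card * B ^ Z.card ≤
      (∏ i, p i) ^ Fintype.card κ := by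
  have h1 : (univ.filter fun w : κ → (∀ i, ZMod (p i)) => ∀ z ∈ Z, w z.1 z.2 = 0) =
      Fintype.piFinset fun j => Fintype.piFinset fun i => if (j, i) ∈ Z then {0} else univ := by
    ext w
    simp only [mem_filter, mem_univ, true_and, Fintype.mem_piFinset]
    constructor
    · intro h j i
      split_ifs with hz
      · exact mem_singleton.2 (h _ hz)
      · exact mem_univ _
    · rintro h ⟨j, i⟩ hz
      have := h j i
      rw [if_pos hz] at this
      exact mem_singleton.1 this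
  have h2 : B ^ Z.card = ∏ j : κ, ∏ i : ι, if (j, i) ∈ Z then B else 1 := by
    rw [← Fintype.prod_prod_type' (fun (j : κ) (i : ι) => if (j, i) ∈ Z then B else 1)]
    rw [Finset.prod_ite_mem, Finset.univ_inter, Finset.prod_const]
  have h3 : (∏ i, p i) ^ Fintype.card κ = ∏ _j : κ, ∏ i : ι, p i := by
    rw [Finset.prod_const, Finset.card_univ]
  rw [h1, h2, h3, Fintype.card_piFinset, ← Finset.prod_mul_distrib]
  refine Finset.prod_le_prod' fun j _ => ?_
  rw [Fintype.card_piFinset, ← Finset.prod_mul_distrib]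
  refine Finset.prod_le_prod' fun i _ => ?_
  split_ifs with hz
  · rw [card_singleton, one_mul]; exact hB i
  · rw [card_univ, ZMod.card, mul_one]

/-- vectors with at least `I` zero incidences -/
theorem card_pattern (p : ι → ℕ) [∀ i, NeZero (p i)] (B I : ℕ) (hB : ∀ i, B ≤ p i) :
    (univ.filter fun w : κ → (∀ i, ZMod (p i)) =>
        I ≤ (univ.filter fun z : κ × ι => w z.1 z.2 = 0).card).card * B ^ I ≤
      (Fintype.card κ * Fintype.card ι).choose I * (∏ i, p i) ^ Fintype.card κ := by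
  have hsub : (univ.filter fun w : κ → (∀ i, ZMod (p i)) =>
      I ≤ (univ.filter fun z : κ × ι => w z.1 z.2 = 0).card) ⊆
      ((univ : Finset (κ × ι)).powersetCard I).biUnion fun Z =>
        univ.filter fun w : κ → (∀ i, ZMod (p i)) => ∀ z ∈ Z, w z.1 z.2 = 0 := by
    intro w hw
    obtain ⟨Z, hZ, hZc⟩ := Finset.exists_subset_card_eq (mem_filter.1 hw).2
    rw [mem_biUnion]
    refine ⟨Z, mem_powersetCard.2 ⟨subset_univ _, hZc⟩, mem_filter.2 ⟨mem_univ _, fun z hz => ?_⟩⟩
    exact (mem_filter.1 (hZ hz)).2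
  calc _ ≤ (∑ Z ∈ (univ : Finset (κ × ι)).powersetCard I,
        (univ.filter fun w : κ → (∀ i, ZMod (p i)) => ∀ z ∈ Z, w z.1 z.2 = 0).card) * B ^ I :=
        Nat.mul_le_mul_right _ ((card_le_card hsub).trans card_biUnion_le)
    _ = ∑ Z ∈ (univ : Finset (κ × ι)).powersetCard I,
        (univ.filter fun w : κ → (∀ i, ZMod (p i)) => ∀ z ∈ Z, w z.1 z.2 = 0).card * B ^ I := Finset.sum_mul _ _ _
    _ ≤ ∑ _Z ∈ (univ : Finset (κ × ι)).powersetCard I, (∏ i, p i) ^ Fintype.card κ := by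
        refine Finset.sum_le_sum fun Z hZ => ?_
        have h := card_zero_on p B hB Z
        rwa [(mem_powersetCard.1 hZ).2] at h
    _ = _ := by
        rw [Finset.sum_const, card_powersetCard, card_univ, Fintype.card_prod, smul_eq_mul]

/-- `choose n k ≤ (e n / k)^k` -/
theorem choose_le_exp (n k : ℕ) (hk : 1 ≤ k) : ((n.choose k : ℕ) : ℝ) ≤ (Real.exp 1 * n / k) ^ k := by
  have hk0 : (0 : ℝ) < k := by exact_mod_cast hk
  have hf : (0 : ℝ) < (k.factorial : ℝ) := by exact_mod_cast k.factorial_pos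
  have h1 : ((n.choose k : ℕ) : ℝ) ≤ (n : ℝ) ^ k / k.factorial := Nat.choose_le_pow_div k n
  have h2 : (k : ℝ) ^ k / k.factorial ≤ Real.exp k := Real.pow_div_factorial_le_exp k hk0.le k
  have h3 : (1 : ℝ) / k.factorial ≤ Real.exp k / (k : ℝ) ^ k := by
    rw [le_div_iff₀ (by positivity)]
    calc (1 : ℝ) / k.factorial * (k : ℝ) ^ k = (k : ℝ) ^ k / k.factorial := by ring
      _ ≤ _ := h2
  have h4 : Real.exp k = Real.exp 1 ^ k := by rw [← Real.exp_nat_mul, mul_one]
  calc ((n.choose k : ℕ) : ℝ) ≤ (n : ℝ) ^ k * (1 / k.factorial) := by rw [mul_one_div]; exact h1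
    _ ≤ (n : ℝ) ^ k * (Real.exp k / (k : ℝ) ^ k) := mul_le_mul_of_nonneg_left h3 (by positivity)
    _ = (Real.exp 1 * n / k) ^ k := by rw [h4, div_pow, mul_pow]; ring

/-- numeric form -/
theorem card_pattern_le (p : ι → ℕ) [∀ i, NeZero (p i)] (B I : ℕ) (hB : ∀ i, B ≤ p i) (hB1 : 1 ≤ B) (hI : 1 ≤ I) :
    ((univ.filter fun w : κ → (∀ i, ZMod (p i)) =>
        I ≤ (univ.filter fun z : κ × ι => w z.1 z.2 = 0).card).card : ℝ) ≤
      (Real.exp 1 * (Fintype.card κ * Fintype.card ι) / (I * B)) ^ I * ((∏ i, p i : ℕ) : ℝ) ^ Fintype.card κ := by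
  have h := card_pattern (κ := κ) p B I hB
  have h1 : ((univ.filter fun w : κ → (∀ i, ZMod (p i)) =>
        I ≤ (univ.filter fun z : κ × ι => w z.1 z.2 = 0).card).card : ℝ) * (B : ℝ) ^ I ≤
      ((Fintype.card κ * Fintype.card ι).choose I : ℕ) * ((∏ i, p i : ℕ) : ℝ) ^ Fintype.card κ := by
    exact_mod_cast h
  have hB0 : (0 : ℝ) < (B : ℝ) ^ I := by
    have : (0 : ℝ) < B := by exact_mod_cast hB1
    positivity
  have h2 := choose_le_exp (Fintype.card κ * Fintype.card ι) I hI
  rw [← mul_le_mul_iff_left₀ hB0]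
  refine h1.trans ?_
  calc _ ≤ (Real.exp 1 * ((Fintype.card κ * Fintype.card ι : ℕ) : ℝ) / I) ^ I * ((∏ i, p i : ℕ) : ℝ) ^ Fintype.card κ :=
        mul_le_mul_of_nonneg_right h2 (by positivity)
    _ = _ := by
        push_cast
        have hBI : (B : ℝ) ≠ 0 := by
          have : (0 : ℝ) < B := by exact_mod_cast hB1
          exact this.ne'
        rw [show Real.exp 1 * ((Fintype.card κ : ℝ) * Fintype.card ι) / I =
          (Real.exp 1 * ((Fintype.card κ : ℝ) * Fintype.card ι) / (I * B)) * B by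
            rw [← div_div, div_mul_cancel₀ _ hBI], mul_pow]
        ring

end Vale.Agent.P160.Half.Mid446
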