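import Vale.Agent.P160.Half.Mid.MidStmt
import Vale.Agent.P160.Half.Mid.Core886
import Vale.Agent.P160.Half.Mid.Pat446

set_option linter.unusedSectionVars false

/-! # P160, MID: `StmtBlock` from `StmtNF` and `StmtMom` (helper886) -/

namespace Vale.Agent.P160.Half.Mid

open Finset Matrix Vale.Agent.P160 Vale.Agent.P160.Half Core886

section one

variable {k t : ℕ} (p : Fin t → ℕ) [∀ j, NeZero (p j)]

lemma gZ_eq8 {m : ℕ} {G : Type} [AddCommGroup G] [Fintype G] [DecidableEq G] (y : Fin m → G) :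
    Flat.gZ 8 y = Fintype.card G * gpr 8 y 0 := by
  rw [gpr_zero_eq (by norm_num)]
  rfl

lemma gpr4_le {m : ℕ} {G : Type} [AddCommGroup G] [Fintype G] [DecidableEq G] (y : Fin m → G) :
    gpr 4 y 0 ≤ gpr 8 y 0 :=
  gpr_le_gpr (le_refl 4) (by norm_num) id Function.injective_id y 0

open Classical in
/-- nonsparse vectors with many zeros -/
noncomputable def SS (k : ℕ) (e : ℝ) (J : ℕ) : Finset (Fin k → GG p) :=
  univ.filter fun w => NS p e w ∧ J ≤ Zr p w

open Classical in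
/-- the block estimate with explicit inputs -/
theorem block_fin (e : ℝ) (I J : ℕ) (hJ : 2 * J ≤ I + 1) (P M : ℝ)
    (hNF : (((univ : Finset (Fin k → Fin k → Fin 4)).filter fun X => ∃ w : Fin k → GG p,
      NS p e w ∧ 2 < Flat.gZ 8 w ∧ ∀ i, gwalk (X i) w = 0).card : ℝ) ≤ P * 4 ^ (k * k))
    (hM : ∑ X : Fin k → Fin k → Fin 4,
      (((univ : Finset (Fin k → GG p)).filter fun w => ∀ i, gwalk (X i) w = 0).card : ℝ) ^ 8 ≤
      M * 4 ^ (k * k)) :
    S4 k t p e I ≤ 2 * (Real.sqrt ((SS p k e J).card * (2 / Fintype.card (GG p)) ^ k * (16 * M)) +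
      Real.sqrt (P * (16 * M))) := by
  have h4 : (0 : ℝ) < 4 ^ (k * k) := by positivity
  -- the moment
  have hMom : EY 4 (Fin k) (Fin k) (fun Y => (((ker1 (GG p) Y).card : ℝ) +
      (ker2 (GG p) Y).card) ^ 4) ≤ 16 * M := by
    have h1 : ∀ Y : Fin k → Fin k → Fin 4, (((ker1 (GG p) Y).card : ℝ) +
        (ker2 (GG p) Y).card) ^ 4 ≤ 8 * ((ker1 (GG p) Y).card : ℝ) ^ 8 +
          8 * ((ker2 (GG p) Y).card : ℝ) ^ 8 := by
      intro Y
      have ha := one_le_ker1 (A := GG p) Y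
      have hb := one_le_ker2 (A := GG p) Y
      generalize ((ker1 (GG p) Y).card : ℝ) = a at *
      generalize ((ker2 (GG p) Y).card : ℝ) = b at *
      have h2 : (a + b) ^ 4 ≤ 8 * (a ^ 4 + b ^ 4) := by
        nlinarith [sq_nonneg (a - b), sq_nonneg (a + b), sq_nonneg (a ^ 2 - b ^ 2),
          mul_nonneg (sq_nonneg (a - b)) (sq_nonneg (a + b)), sq_nonneg (a * b),
          mul_nonneg (sq_nonneg (a - b)) (sq_nonneg (a - b))]
      have h3 : a ^ 4 ≤ a ^ 8 := pow_le_pow_right₀ ha (by norm_num)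
      have h4 : b ^ 4 ≤ b ^ 8 := pow_le_pow_right₀ hb (by norm_num)
      linarith
    refine (EY_mono h1).trans ?_
    rw [EY_add]
    have h5 : EY 4 (Fin k) (Fin k) (fun Y => 8 * ((ker1 (GG p) Y).card : ℝ) ^ 8) ≤ 8 * M := by
      unfold EY
      rw [Fintype.card_fin, ← mul_sum]
      push_cast
      rw [div_le_iff₀ h4]
      have : ∑ X : Fin k → Fin k → Fin 4, ((ker1 (GG p) X).card : ℝ) ^ 8 ≤ M * 4 ^ (k * k) := by
        refine le_trans (le_of_eq ?_) hM
        refine sum_congr rfl fun X _ => ?_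
        have h7 : ker1 (GG p) X = univ.filter fun w : Fin k → GG p => ∀ i, gwalk (X i) w = 0 := by
          ext w
          rw [mem_ker1, mem_filter]
          simp
        rw [h7]
      linarith
    have h6 : EY 4 (Fin k) (Fin k) (fun Y => 8 * ((ker2 (GG p) Y).card : ℝ) ^ 8) ≤ 8 * M := by
      refine le_trans (le_of_eq ?_) h5
      rw [← EY_swap]
      rfl
    linarith
  -- the non-flat event
  have hp : EY 4 (Fin k) (Fin k) (fun Y => if NF1 (SS p k e J) 2 Y then (1 : ℝ) else 0) ≤ P := by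
    unfold EY
    rw [Fintype.card_fin]
    push_cast
    rw [div_le_iff₀ h4]
    refine le_trans ?_ hNF
    rw [card_filter]
    push_cast
    refine sum_le_sum fun Y _ => ?_
    split_ifs with h1 h2
    · exact le_rfl
    · exfalso
      apply h2
      obtain ⟨x, hx, h3, h4⟩ := h1
      refine ⟨x, ?_, ?_, mem_ker1.1 h4⟩
      · unfold SS at hx
        exact (mem_filter.1 hx).2.1
      · rw [gZ_eq8]
        have h5 : (0 : ℝ) < Fintype.card (GG p) := by exact_mod_cast Fintype.card_pos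
        rw [div_lt_iff₀ h5] at h3
        have h6 := gpr4_le x
        nlinarith
    · exact zero_le_one
    · exact le_rfl
  have hcore := core (A := GG p) (α := Fin k) (β := Fin k) (M := 4) (by norm_num) (SS p k e J)
    (SS p k e J) 2 (by norm_num) P P (16 * M) hp hp hMom
    (univ.filter fun z : (Fin k → GG p) × (Fin k → GG p) =>
      NS p e z.1 ∧ NS p e z.2 ∧ I ≤ Zr p z.1 + Zr p z.2) (by
      intro q hq
      obtain ⟨_, h1, h2, h3⟩ := mem_filter.1 hq
      unfold SS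
      rcases le_total J (Zr p q.1) with h | h
      · exact Or.inl (mem_filter.2 ⟨mem_univ _, h1, h⟩)
      · by_cases h5 : J ≤ Zr p q.2
        · exact Or.inr (mem_filter.2 ⟨mem_univ _, h2, h5⟩)
        · exact Or.inl (mem_filter.2 ⟨mem_univ _, h1, by omega⟩))
  have hS : S4 k t p e I = ∑ q ∈ univ.filter (fun z : (Fin k → GG p) × (Fin k → GG p) =>
      NS p e z.1 ∧ NS p e z.2 ∧ I ≤ Zr p z.1 + Zr p z.2), BprA 4 q.1 q.2 := by
    unfold S4
    rw [sum_filter]
    refine sum_congr rfl fun z _ => ?_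
    split_ifs with h
    · unfold B4 BprA
      rw [Fintype.card_fin]
      push_cast
      congr 3
      ext X
      simp only [mem_filter]
    · rfl
  rw [hS]
  refine hcore.trans (le_of_eq ?_)
  rw [Fintype.card_fin]
  ring

lemma card_GG : (Fintype.card (GG p) : ℝ) = ((∏ j, p j : ℕ) : ℝ) := by
  rw [Fintype.card_pi]
  simp only [ZMod.card]

/-- first moment of the patterns -/
lemma SS_le (g : ℝ) (hg : 0 < g) (e : ℝ) (I J : ℕ) (hk1 : 1 ≤ k) (hk6 : (6 : ℝ) ≤ (k : ℝ) ^ (g / 2))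
    (hkg : 4 / g ≤ (k : ℝ) ^ g) (hI : (k : ℝ) ^ (1 + g) ≤ I) (hIJ : I ≤ 2 * J)
    (hIp : ∀ j, (k : ℝ) ^ g * (k * t) ≤ (I : ℝ) * p j) :
    ((SS p k e J).card : ℝ) * (2 / Fintype.card (GG p)) ^ k ≤ 2 ^ k * (k : ℝ) ^ (-(k : ℝ)) := by
  classical
  have hk0 : (0 : ℝ) < k := by exact_mod_cast hk1
  have hk1' : (1 : ℝ) ≤ k := by exact_mod_cast hk1
  have hIpos : (0 : ℝ) < I := lt_of_lt_of_le (Real.rpow_pos_of_pos hk0 _) hI
  have hIpos' : 0 < I := by exact_mod_cast hIpos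
  have hJ1 : 1 ≤ J := by omega
  have hJ0 : (0 : ℝ) < J := by exact_mod_cast hJ1
  have hIJ' : (I : ℝ) ≤ 2 * J := by exact_mod_cast hIJ
  have hG : (0 : ℝ) < Fintype.card (GG p) := by exact_mod_cast Fintype.card_pos
  rcases Nat.eq_zero_or_pos t with ht | ht
  · subst ht
    have h0 : SS p k e J = ∅ := by
      refine eq_empty_of_forall_notMem fun w hw => ?_
      unfold SS at hw
      have h1 := (mem_filter.1 hw).2.2
      have h2 : Zr p w = 0 := by
        unfold Zr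
        rw [card_eq_zero]
        refine eq_empty_of_forall_notMem fun z _ => ?_
        exact z.2.elim0
      omega
    rw [h0, card_empty, Nat.cast_zero, zero_mul]
    positivity
  · haveI : Nonempty (Fin t) := ⟨⟨0, ht⟩⟩
    obtain ⟨j₀, hj₀⟩ := Finite.exists_min p
    have hB1 : 1 ≤ p j₀ := Nat.one_le_iff_ne_zero.2 (NeZero.ne _)
    have hB0 : (0 : ℝ) < p j₀ := by exact_mod_cast hB1
    have h1 := Mid446.card_pattern_le (κ := Fin k) p (p j₀) J hj₀ hB1 hJ1
    have h2 : ((SS p k e J).card : ℝ) ≤ ((univ.filter fun w : Fin k → (∀ i, ZMod (p i)) =>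
        J ≤ (univ.filter fun z : Fin k × Fin t => w z.1 z.2 = 0).card).card : ℝ) := by
      have : SS p k e J ⊆ (univ.filter fun w : Fin k → (∀ i, ZMod (p i)) =>
        J ≤ (univ.filter fun z : Fin k × Fin t => w z.1 z.2 = 0).card) := by
        intro w hw
        unfold SS at hw
        refine mem_filter.2 ⟨mem_univ _, ?_⟩
        have h3 := (mem_filter.1 hw).2.2
        unfold Zr at h3
        convert h3
      exact_mod_cast card_le_card this
    rw [Fintype.card_fin, Fintype.card_fin, ← card_GG] at h1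
    have hr0 : 0 ≤ Real.exp 1 * ((k : ℝ) * t) / (J * p j₀) := by positivity
    have hr : Real.exp 1 * ((k : ℝ) * t) / (J * p j₀) ≤ (k : ℝ) ^ (-(g / 2)) := by
      rw [div_le_iff₀ (by positivity), Real.rpow_neg hk0.le]
      have h4 := hIp j₀
      have h5 : (k : ℝ) ^ g = (k : ℝ) ^ (g / 2) * (k : ℝ) ^ (g / 2) := by
        rw [← Real.rpow_add hk0]; congr 1; ring
      have h6 : Real.exp 1 ≤ 3 := by
        have := Real.exp_one_lt_d9
        linarith
      set x : ℝ := (k : ℝ) ^ (g / 2) with hx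
      have hx0 : 0 < x := by linarith
      rw [inv_mul_eq_div, le_div_iff₀ hx0]
      have h7 : x * x * (k * t) ≤ 2 * J * p j₀ := by
        rw [← h5]
        exact h4.trans (mul_le_mul_of_nonneg_right hIJ' hB0.le)
      have h8 : 6 * x * ((k : ℝ) * t) ≤ x * x * (k * t) := by
        apply mul_le_mul_of_nonneg_right _ (by positivity)
        nlinarith
      have h9 : Real.exp 1 * ((k : ℝ) * t) * x ≤ 3 * ((k : ℝ) * t) * x := by
        apply mul_le_mul_of_nonneg_right _ hx0.le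
        exact mul_le_mul_of_nonneg_right h6 (by positivity)
      nlinarith
    have hJk : (2 / g) * k ≤ J := by
      have h3 : (k : ℝ) ^ (1 + g) = k * (k : ℝ) ^ g := by
        rw [Real.rpow_add hk0, Real.rpow_one]
      rw [h3] at hI
      have h4 : (k : ℝ) * (4 / g) ≤ k * (k : ℝ) ^ g := mul_le_mul_of_nonneg_left hkg hk0.le
      have h5 : (2 / g) * k = (k * (4 / g)) / 2 := by ring
      rw [h5]
      linarith
    have hpw : (Real.exp 1 * ((k : ℝ) * t) / (J * p j₀)) ^ J ≤ (k : ℝ) ^ (-(k : ℝ)) := by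
      calc (Real.exp 1 * ((k : ℝ) * t) / (J * p j₀)) ^ J ≤ ((k : ℝ) ^ (-(g / 2))) ^ J :=
            pow_le_pow_left₀ hr0 hr _
        _ = (k : ℝ) ^ (-(g / 2) * J) := by
            rw [← Real.rpow_natCast, ← Real.rpow_mul hk0.le]
        _ ≤ (k : ℝ) ^ (-(k : ℝ)) := by
            refine Real.rpow_le_rpow_of_exponent_le hk1' ?_
            have : (g / 2) * ((2 / g) * k) ≤ (g / 2) * J :=
              mul_le_mul_of_nonneg_left hJk (by positivity)
            have h3 : (g / 2) * ((2 / g) * k) = k := by field_simp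
            linarith
    calc ((SS p k e J).card : ℝ) * (2 / Fintype.card (GG p)) ^ k
        ≤ ((Real.exp 1 * ((k : ℝ) * t) / (J * p j₀)) ^ J * (Fintype.card (GG p) : ℝ) ^ k) *
          (2 / Fintype.card (GG p)) ^ k :=
          mul_le_mul_of_nonneg_right (h2.trans h1) (by positivity)
      _ = (Real.exp 1 * ((k : ℝ) * t) / (J * p j₀)) ^ J * 2 ^ k := by
          rw [mul_assoc, ← mul_pow, mul_div_cancel₀ _ hG.ne']
      _ ≤ (k : ℝ) ^ (-(k : ℝ)) * 2 ^ k := mul_le_mul_of_nonneg_right hpw (by positivity)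
      _ = _ := mul_comm _ _

end one

lemma numeric (k : ℕ) (hk : (2 : ℝ) ^ 48 ≤ k) :
    256 * (2 : ℝ) ^ (5 * k) * (k : ℝ) ^ (-(1 / 4 * (k : ℝ))) ≤ ((k : ℝ) ^ (-(1 / 16 * (k : ℝ)))) ^ 2 := by
  have hk0 : (0 : ℝ) < k := lt_of_lt_of_le (by positivity) hk
  have hk8 : 8 ≤ k := by
    have : (8 : ℝ) ≤ k := le_trans (by norm_num) hk
    exact_mod_cast this
  have h1 : ((k : ℝ) ^ (-(1 / 16 * (k : ℝ)))) ^ 2 = (k : ℝ) ^ (-(1 / 8 * (k : ℝ))) := by
    rw [← Real.rpow_natCast, ← Real.rpow_mul hk0.le]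
    congr 1
    push_cast
    ring
  have h2 : (k : ℝ) ^ (-(1 / 8 * (k : ℝ))) =
      (k : ℝ) ^ (1 / 8 * (k : ℝ)) * (k : ℝ) ^ (-(1 / 4 * (k : ℝ))) := by
    rw [← Real.rpow_add hk0]; congr 1; ring
  have h3 : (2 : ℝ) ^ (6 * k) ≤ (k : ℝ) ^ (1 / 8 * (k : ℝ)) := by
    calc (2 : ℝ) ^ (6 * k) = ((2 : ℝ) ^ 48) ^ (1 / 8 * (k : ℝ)) := by
          rw [← Real.rpow_natCast 2 48, ← Real.rpow_mul (by norm_num), ← Real.rpow_natCast]
          congr 1
          push_cast
          ring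
      _ ≤ _ := Real.rpow_le_rpow (by positivity) hk (by positivity)
  have h4 : 256 * (2 : ℝ) ^ (5 * k) ≤ (2 : ℝ) ^ (6 * k) := by
    have : (2 : ℝ) ^ (6 * k) = 2 ^ k * 2 ^ (5 * k) := by rw [← pow_add]; congr 1; ring
    rw [this]
    apply mul_le_mul_of_nonneg_right _ (by positivity)
    calc (256 : ℝ) = 2 ^ 8 := by norm_num
      _ ≤ 2 ^ k := pow_le_pow_right₀ (by norm_num) hk8
  rw [h1, h2]
  exact mul_le_mul_of_nonneg_right (h4.trans h3) (by positivity)

/-- **L7**: the block estimate. -/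
theorem block (hNF : StmtNF) (hMom : StmtMom) : StmtBlock := by
  intro g hg _
  obtain ⟨d, hd, k₁, hk₁⟩ := hNF g (1 / 4) hg (by norm_num) (by norm_num)
  obtain ⟨k₂, hk₂⟩ := hMom g hg
  have e1 : ∀ᶠ k : ℕ in Filter.atTop, (6 : ℝ) ≤ (k : ℝ) ^ (g / 2) :=
    ((tendsto_rpow_atTop (by positivity)).comp tendsto_natCast_atTop_atTop).eventually_ge_atTop 6
  have e2 : ∀ᶠ k : ℕ in Filter.atTop, 4 / g ≤ (k : ℝ) ^ g :=
    ((tendsto_rpow_atTop hg).comp tendsto_natCast_atTop_atTop).eventually_ge_atTop _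
  have e3 : ∀ᶠ k : ℕ in Filter.atTop, (2 : ℝ) ^ 48 ≤ (k : ℝ) :=
    tendsto_natCast_atTop_atTop.eventually_ge_atTop _
  obtain ⟨k₃, hk₃⟩ := Filter.eventually_atTop.1 (e1.and (e2.and e3))
  refine ⟨1 / 16, d, by norm_num, hd, max k₁ (max k₂ k₃), ?_⟩
  intro k hk t p hp0 hA I hI hIp
  have hkk₁ : k₁ ≤ k := (le_max_left _ _).trans hk
  have hkk₂ : k₂ ≤ k := (le_max_left _ _).trans ((le_max_right _ _).trans hk)
  have hkk₃ : k₃ ≤ k := (le_max_right _ _).trans ((le_max_right _ _).trans hk)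
  obtain ⟨f1, f2, f3⟩ := hk₃ k hkk₃
  have hk0 : (0 : ℝ) < k := lt_of_lt_of_le (by positivity) f3
  have hk1 : 1 ≤ k := by
    have : 0 < k := by exact_mod_cast hk0
    omega
  have hk1' : (1 : ℝ) ≤ k := by exact_mod_cast hk1
  have hb := block_fin p ((k : ℝ) ^ (1 - d)) I ((I + 1) / 2) (by omega)
    ((k : ℝ) ^ (-(1 / 4 * (k : ℝ)))) ((2 : ℝ) ^ (4 * k)) (hk₁ k hkk₁ t p hp0 hA)
    (hk₂ k hkk₂ t p hp0 hA)
  refine hb.trans ?_
  have hS := SS_le p g hg ((k : ℝ) ^ (1 - d)) I ((I + 1) / 2) hk1 f1 f2 hI (by omega) hIp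
  have hkk : (k : ℝ) ^ (-(k : ℝ)) ≤ (k : ℝ) ^ (-(1 / 4 * (k : ℝ))) := by
    refine Real.rpow_le_rpow_of_exponent_le hk1' ?_
    linarith
  set Q : ℝ := (k : ℝ) ^ (-(1 / 4 * (k : ℝ))) with hQ
  have hQ0 : 0 ≤ Q := by positivity
  set R : ℝ := (k : ℝ) ^ (-(1 / 16 * (k : ℝ))) with hR
  have hR0 : 0 ≤ R := by positivity
  have hnum := numeric k f3
  rw [← hQ, ← hR] at hnum
  have hA1 : ((SS p k ((k : ℝ) ^ (1 - d)) ((I + 1) / 2)).card : ℝ) *
      (2 / Fintype.card (GG p)) ^ k * (16 * (2 : ℝ) ^ (4 * k)) ≤ (R / 4) ^ 2 := by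
    have h5 : (2 : ℝ) ^ (5 * k) = 2 ^ k * 2 ^ (4 * k) := by rw [← pow_add]; congr 1; ring
    calc _ ≤ (2 ^ k * Q) * (16 * (2 : ℝ) ^ (4 * k)) :=
          mul_le_mul_of_nonneg_right (hS.trans (mul_le_mul_of_nonneg_left hkk (by positivity)))
            (by positivity)
      _ = 16 * (2 : ℝ) ^ (5 * k) * Q := by rw [h5]; ring
      _ ≤ (R / 4) ^ 2 := by nlinarith
  have hA2 : Q * (16 * (2 : ℝ) ^ (4 * k)) ≤ (R / 4) ^ 2 := by
    have h5 : (2 : ℝ) ^ (4 * k) ≤ 2 ^ (5 * k) := pow_le_pow_right₀ (by norm_num) (by omega)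
    calc _ ≤ Q * (16 * (2 : ℝ) ^ (5 * k)) :=
          mul_le_mul_of_nonneg_left (by linarith) hQ0
      _ ≤ (R / 4) ^ 2 := by nlinarith
  have h1 : Real.sqrt (((SS p k ((k : ℝ) ^ (1 - d)) ((I + 1) / 2)).card : ℝ) *
      (2 / Fintype.card (GG p)) ^ k * (16 * (2 : ℝ) ^ (4 * k))) ≤ R / 4 :=
    Real.sqrt_le_iff.2 ⟨by positivity, hA1⟩
  have h2 : Real.sqrt (Q * (16 * (2 : ℝ) ^ (4 * k))) ≤ R / 4 :=
    Real.sqrt_le_iff.2 ⟨by positivity, hA2⟩
  linarith

end Vale.Agent.P160.Half.Mid
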