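import Vale.Agent.P160.Half.HalfBal505

set_option linter.unusedSectionVars false

/-! # P160, half rate, mid primes: change of law

`BprL (2k-1) (8k) x z ≤ exp (k/2) * (#{X : Fin k → Fin k → Fin 4 | X x = 0, Xᵀ z = 0} / 4^(k*k))`. -/

open Finset Vale.Agent.P160 Vale.Agent.P160.Half

namespace Vale.Agent.P160.Half.Mid.Law871

/-- the three values -/
def vv (c : Fin 3) : ℤ := if c = 0 then 0 else if c = 1 then 1 else -1

/-- the code of a value -/
def code (z : ℤ) : Fin 3 := if z = 0 then 0 else if z = 1 then 1 else 2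

theorem code_eq_iff {z : ℤ} (hz : z = 0 ∨ z = 1 ∨ z = -1) (c : Fin 3) : code z = c ↔ z = vv c := by
  rcases hz with rfl | rfl | rfl <;> fin_cases c <;> decide

section law

variable {E : Type*} [Fintype E] [DecidableEq E]

open Classical in
theorem card_law {M : ℕ} (f : Fin M → ℤ) (hf : ∀ a, f a = 0 ∨ f a = 1 ∨ f a = -1)
    (Q : (E → ℤ) → Prop) :
    (univ.filter fun ω : E → Fin M => Q (fun e => f (ω e))).card =
      ∑ y : E → Fin 3, if Q (fun e => vv (y e)) then
        ∏ e, (univ.filter fun a : Fin M => f a = vv (y e)).card else 0 := by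
  rw [Finset.card_eq_sum_card_fiberwise (f := fun (ω : E → Fin M) (e : E) => code (f (ω e)))
    (t := univ) (fun _ _ => mem_coe.2 (mem_univ _))]
  refine Finset.sum_congr rfl fun y _ => ?_
  have hiff : ∀ ω : E → Fin M, (fun e => code (f (ω e))) = y ↔ ∀ e, f (ω e) = vv (y e) := by
    intro ω
    rw [funext_iff]
    exact forall_congr' fun e => code_eq_iff (hf _) _
  by_cases hQ : Q (fun e => vv (y e))
  · rw [if_pos hQ, ← Fintype.card_piFinset]
    congr 1
    ext ω
    rw [mem_filter, mem_filter, Fintype.mem_piFinset, hiff]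
    constructor
    · rintro ⟨_, h⟩ e
      exact mem_filter.2 ⟨mem_univ _, h e⟩
    · intro h
      have h' : ∀ e, f (ω e) = vv (y e) := fun e => (mem_filter.1 (h e)).2
      refine ⟨⟨mem_univ _, ?_⟩, h'⟩
      have : (fun e => f (ω e)) = fun e => vv (y e) := funext h'
      rw [this]; exact hQ
  · rw [if_neg hQ, Finset.card_eq_zero, Finset.filter_eq_empty_iff]
    intro ω hω h
    rw [hiff] at h
    have h1 := (mem_filter.1 hω).2
    have : (fun e => f (ω e)) = fun e => vv (y e) := funext h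
    rw [this] at h1
    exact hQ h1

open Classical in
/-- comparison of two laws -/
theorem law_le {M M' : ℕ} (f : Fin M → ℤ) (hf : ∀ a, f a = 0 ∨ f a = 1 ∨ f a = -1)
    (f' : Fin M' → ℤ) (hf' : ∀ a, f' a = 0 ∨ f' a = 1 ∨ f' a = -1) (ρ : ℝ) (hρ : 0 ≤ ρ)
    (h : ∀ c : Fin 3, ((univ.filter fun a : Fin M => f a = vv c).card : ℝ) ≤
      ρ * (univ.filter fun a : Fin M' => f' a = vv c).card)
    (Q : (E → ℤ) → Prop) :
    ((univ.filter fun ω : E → Fin M => Q (fun e => f (ω e))).card : ℝ) ≤
      ρ ^ Fintype.card E * (univ.filter fun ω : E → Fin M' => Q (fun e => f' (ω e))).card := by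
  rw [card_law f hf Q, card_law f' hf' Q]
  push_cast
  rw [Finset.mul_sum]
  apply Finset.sum_le_sum
  intro y _
  split_ifs with hQ
  · rw [← Finset.card_univ, ← Finset.prod_const, ← Finset.prod_mul_distrib]
    exact Finset.prod_le_prod (fun _ _ => by positivity) fun e _ => h (y e)
  · simp

end law

theorem stL_val (L : ℕ) {M : ℕ} (a : Fin M) : stL L a = 0 ∨ stL L a = 1 ∨ stL L a = -1 := by
  unfold stL
  split_ifs <;> simp

theorem st_val {M : ℕ} (a : Fin M) : (st a : ℤ) = 0 ∨ (st a : ℤ) = 1 ∨ (st a : ℤ) = -1 := by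
  unfold st
  split_ifs <;> simp

theorem card_stL {L M : ℕ} (hLM : 2 * L ≤ M) (z : ℤ) :
    ((univ.filter fun a : Fin M => stL L a = z).card : ℂ) =
      L * (if (1 : ℤ) = z then 1 else 0) + L * (if (-1 : ℤ) = z then 1 else 0) +
        (M - 2 * L : ℝ) * (if (0 : ℤ) = z then 1 else 0) := by
  rw [← sum_range_ite hLM, Finset.card_filter]
  push_cast
  rw [← Fin.sum_univ_eq_sum_range (fun x : ℕ => if x < L then (if (1 : ℤ) = z then (1 : ℂ) else 0)
    else if x < 2 * L then (if (-1 : ℤ) = z then 1 else 0) else (if (0 : ℤ) = z then 1 else 0)) M]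
  refine Finset.sum_congr rfl fun a _ => ?_
  unfold stL
  split_ifs <;> simp_all

theorem card_one {L M : ℕ} (hLM : 2 * L ≤ M) : (univ.filter fun a : Fin M => stL L a = 1).card = L := by
  have h := card_stL hLM 1
  norm_num at h
  exact_mod_cast h

theorem card_neg {L M : ℕ} (hLM : 2 * L ≤ M) : (univ.filter fun a : Fin M => stL L a = -1).card = L := by
  have h := card_stL hLM (-1)
  norm_num at h
  exact_mod_cast h

theorem card_zero {L M : ℕ} (hLM : 2 * L ≤ M) :
    (univ.filter fun a : Fin M => stL L a = 0).card = M - 2 * L := by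
  have h := card_stL hLM 0
  norm_num at h
  have h2 : ((univ.filter fun a : Fin M => stL L a = 0).card + 2 * L : ℂ) = M := by
    rw [h]; ring
  have h3 : (univ.filter fun a : Fin M => stL L a = 0).card + 2 * L = M := by exact_mod_cast h2
  omega

section main

variable {A : Type*} [AddCommGroup A] [Fintype A] [DecidableEq A]

open Classical in
/-- **law change** -/
theorem BprL_le {α β : Type*} [Fintype α] [Fintype β] [DecidableEq α] [DecidableEq β] {k : ℕ}
    (hk : 0 < k) (hα : Fintype.card α = k) (hβ : Fintype.card β = k) (e1 : Fin k ≃ α)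
    (e2 : Fin k ≃ β) (x : α → A) (z : β → A) :
    BprL (2 * k - 1) (8 * k) x z ≤ Real.exp (k / 2) *
      (((univ.filter fun X : Fin k → Fin k → Fin 4 =>
        (∀ i, gwalk (X i) (fun a => x (e1 a)) = 0) ∧
          ∀ j, gwalk (fun i => X i j) (fun b => z (e2 b)) = 0).card : ℝ) / 4 ^ (k * k)) := by
  set Q : (Fin k × Fin k → ℤ) → Prop := fun y => (∀ i, ∑ j, y (i, j) • x (e1 j) = 0) ∧
    ∀ j, ∑ i, y (i, j) • z (e2 i) = 0 with hQ
  -- left side
  have h1 : (univ.filter (fun ω : β → α → Fin (8 * k) =>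
      (∀ i, gwL (2 * k - 1) (ω i) x = 0) ∧ ∀ j, gwL (2 * k - 1) (fun i => ω i j) z = 0)).card ≤
      (univ.filter fun ω : Fin k × Fin k → Fin (8 * k) => Q (fun q => stL (2 * k - 1) (ω q))).card := by
    apply Finset.card_le_card_of_injOn (fun ω (q : Fin k × Fin k) => ω (e2 q.1) (e1 q.2))
    · intro ω hω
      have hω := (mem_filter.1 (mem_coe.1 hω)).2
      rw [mem_coe, mem_filter]
      refine ⟨mem_univ _, fun i => ?_, fun j => ?_⟩
      · rw [← hω.1 (e2 i)]
        unfold gwL
        exact Equiv.sum_comp e1 (fun a => stL (2 * k - 1) (ω (e2 i) a) • x a)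
      · rw [← hω.2 (e1 j)]
        unfold gwL
        exact Equiv.sum_comp e2 (fun b => stL (2 * k - 1) (ω b (e1 j)) • z b)
    · intro ω _ ω' _ h
      funext b a
      have := congrFun h (e2.symm b, e1.symm a)
      simpa using this
  have h2 : (univ.filter fun X : Fin k × Fin k → Fin 4 => Q (fun q => (st (X q) : ℤ))).card ≤
      (univ.filter fun X : Fin k → Fin k → Fin 4 =>
        (∀ i, gwalk (X i) (fun a => x (e1 a)) = 0) ∧
          ∀ j, gwalk (fun i => X i j) (fun b => z (e2 b)) = 0).card := by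
    apply Finset.card_le_card_of_injOn (fun ω i j => ω (i, j))
    · intro ω hω
      have hω := (mem_filter.1 (mem_coe.1 hω)).2
      rw [mem_coe, mem_filter]
      exact ⟨mem_univ _, hω.1, hω.2⟩
    · intro ω _ ω' _ h
      funext q
      exact congrFun (congrFun h q.1) q.2
  have h3 := law_le (E := Fin k × Fin k) (fun a : Fin (8 * k) => stL (2 * k - 1) a)
    (stL_val _) (fun a : Fin 4 => (st a : ℤ)) st_val (2 * k + 1) (by positivity) (by
      have hkr : (1 : ℝ) ≤ k := by exact_mod_cast hk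
      have hL : ((2 * k - 1 : ℕ) : ℝ) = 2 * k - 1 := by
        rw [Nat.cast_sub (by omega)]; push_cast; ring
      intro c
      fin_cases c
      · have e1 : (univ.filter fun a : Fin (8 * k) => stL (2 * k - 1) a = vv 0).card =
            8 * k - 2 * (2 * k - 1) := card_zero (by omega)
        have e2 : (univ.filter fun a : Fin 4 => (st a : ℤ) = vv 0).card = 2 := by decide
        show ((univ.filter fun a : Fin (8 * k) => stL (2 * k - 1) a = vv 0).card : ℝ) ≤
          (2 * k + 1) * ((univ.filter fun a : Fin 4 => (st a : ℤ) = vv 0).card : ℝ)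
        rw [e1, e2, Nat.cast_sub (by omega)]
        push_cast
        rw [Nat.cast_sub (by omega)]
        push_cast
        linarith
      · have e1 : (univ.filter fun a : Fin (8 * k) => stL (2 * k - 1) a = vv 1).card =
            2 * k - 1 := card_one (by omega)
        have e2 : (univ.filter fun a : Fin 4 => (st a : ℤ) = vv 1).card = 1 := by decide
        show ((univ.filter fun a : Fin (8 * k) => stL (2 * k - 1) a = vv 1).card : ℝ) ≤
          (2 * k + 1) * ((univ.filter fun a : Fin 4 => (st a : ℤ) = vv 1).card : ℝ)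
        rw [e1, e2, hL]
        push_cast
        linarith
      · have e1 : (univ.filter fun a : Fin (8 * k) => stL (2 * k - 1) a = vv 2).card =
            2 * k - 1 := card_neg (by omega)
        have e2 : (univ.filter fun a : Fin 4 => (st a : ℤ) = vv 2).card = 1 := by decide
        show ((univ.filter fun a : Fin (8 * k) => stL (2 * k - 1) a = vv 2).card : ℝ) ≤
          (2 * k + 1) * ((univ.filter fun a : Fin 4 => (st a : ℤ) = vv 2).card : ℝ)
        rw [e1, e2, hL]
        push_cast
        linarith) Q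
  have hE : Fintype.card (Fin k × Fin k) = k * k := by simp
  rw [hE] at h3
  have hkr : (0 : ℝ) < k := by exact_mod_cast hk
  have h4 : ((univ.filter (fun ω : β → α → Fin (8 * k) =>
      (∀ i, gwL (2 * k - 1) (ω i) x = 0) ∧ ∀ j, gwL (2 * k - 1) (fun i => ω i j) z = 0)).card : ℝ) ≤
      (2 * k + 1) ^ (k * k) * ((univ.filter fun X : Fin k → Fin k → Fin 4 =>
        (∀ i, gwalk (X i) (fun a => x (e1 a)) = 0) ∧
          ∀ j, gwalk (fun i => X i j) (fun b => z (e2 b)) = 0).card : ℝ) := by
    refine (Nat.cast_le.2 h1).trans (le_trans (le_of_eq (by congr!)) (h3.trans ?_))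
    refine mul_le_mul_of_nonneg_left ?_ (by positivity)
    refine le_trans (le_of_eq (by congr!)) (Nat.cast_le.2 h2)
  have h5 : (((2 * k + 1 : ℝ)) ^ (k * k)) / ((8 * k : ℕ) : ℝ) ^ (k * k) ≤
      Real.exp (k / 2) / 4 ^ (k * k) := by
    have h6 : ((2 * k + 1 : ℝ)) / ((8 * k : ℕ) : ℝ) ≤ Real.exp (1 / (2 * k)) / 4 := by
      have h7 := Real.add_one_le_exp (1 / (2 * (k : ℝ)))
      have h8 : ((2 * k + 1 : ℝ)) / ((8 * k : ℕ) : ℝ) = (1 / (2 * k) + 1) / 4 := by
        push_cast
        field_simp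
        ring
      rw [h8]
      linarith
    have h9 := pow_le_pow_left₀ (by positivity) h6 (k * k)
    rw [div_pow, div_pow, ← Real.exp_nat_mul] at h9
    refine h9.trans (le_of_eq ?_)
    congr 2
    push_cast
    field_simp
  unfold BprL
  rw [hα, hβ]
  have h10 : (0 : ℝ) < ((8 * k : ℕ) : ℝ) ^ (k * k) := by
    have : (0 : ℝ) < ((8 * k : ℕ) : ℝ) := by exact_mod_cast (by omega : 0 < 8 * k)
    positivity
  set N4 : ℝ := ((univ.filter fun X : Fin k → Fin k → Fin 4 =>
        (∀ i, gwalk (X i) (fun a => x (e1 a)) = 0) ∧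
          ∀ j, gwalk (fun i => X i j) (fun b => z (e2 b)) = 0).card : ℝ) with hN4
  have hN40 : 0 ≤ N4 := Nat.cast_nonneg _
  have h11 : ((univ.filter (fun ω : β → α → Fin (8 * k) =>
      (∀ i, gwL (2 * k - 1) (ω i) x = 0) ∧ ∀ j, gwL (2 * k - 1) (fun i => ω i j) z = 0)).card : ℝ) /
      ((8 * k : ℕ) : ℝ) ^ (k * k) ≤ Real.exp (k / 2) * (N4 / 4 ^ (k * k)) := by
    calc _ ≤ (2 * k + 1) ^ (k * k) * N4 / ((8 * k : ℕ) : ℝ) ^ (k * k) :=
          div_le_div_of_nonneg_right h4 h10.le
      _ = (((2 * k + 1 : ℝ)) ^ (k * k)) / ((8 * k : ℕ) : ℝ) ^ (k * k) * N4 := by ring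
      _ ≤ Real.exp (k / 2) / 4 ^ (k * k) * N4 := mul_le_mul_of_nonneg_right h5 hN40
      _ = _ := by ring
  exact h11

end main

end Vale.Agent.P160.Half.Mid.Law871
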