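import Vale.Agent.P160.Half.Mid.MidStmt
import Vale.Agent.P160.Half.Mid.Law871

set_option linter.unusedSectionVars false

/-! # P160, half rate, mid primes: `StmtHalf` -/

open Finset Vale.Agent.P160 Vale.Agent.P160.Half

namespace Vale.Agent.P160.Half.Mid.Half871

section cutcount

variable {ι : Type*} [Fintype ι] [DecidableEq ι]

theorem sum_half (S : Finset ι) :
    ∑ D : Finset ι, (1 / 2 : ℝ) ^ (S ∩ D).card = 2 ^ Fintype.card ι * (3 / 4 : ℝ) ^ S.card := by
  have h := Finset.prod_one_add (f := fun i : ι => if i ∈ S then (1 / 2 : ℝ) else 1) univ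
  rw [Finset.powerset_univ] at h
  have h1 : ∀ D : Finset ι, (∏ i ∈ D, if i ∈ S then (1 / 2 : ℝ) else 1) = (1 / 2 : ℝ) ^ (S ∩ D).card := by
    intro D
    rw [Finset.prod_ite, Finset.prod_const, Finset.prod_const_one, mul_one]
    congr 2
    ext i
    rw [mem_filter, mem_inter]
    tauto
  simp_rw [h1] at h
  rw [← h]
  have h2 : ∀ i : ι, (1 + if i ∈ S then (1 / 2 : ℝ) else 1) = 2 * (if i ∈ S then (3 / 4 : ℝ) else 1) := by
    intro i
    split_ifs <;> norm_num
  simp_rw [h2]
  rw [Finset.prod_mul_distrib, Finset.prod_const, card_univ]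
  congr 1
  rw [Finset.prod_ite, Finset.prod_const, Finset.prod_const_one, mul_one]
  congr 2
  ext i
  simp

theorem card_few {k r : ℕ} (hι : Fintype.card ι = 2 * k) (S : Finset ι) (hS : 4 * r ≤ S.card) :
    ((univ.filter fun D : Finset ι => (S ∩ D).card < r).card : ℝ) ≤ 4 ^ k * (81 / 128 : ℝ) ^ r := by
  have h1 : ((univ.filter fun D : Finset ι => (S ∩ D).card < r).card : ℝ) * (1 / 2) ^ r ≤
      ∑ D : Finset ι, (1 / 2 : ℝ) ^ (S ∩ D).card := by
    rw [← nsmul_eq_mul]
    refine le_trans (Finset.card_nsmul_le_sum _ (fun D => (1 / 2 : ℝ) ^ (S ∩ D).card) _ ?_)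
      (Finset.sum_le_sum_of_subset_of_nonneg (Finset.filter_subset _ _) fun _ _ _ => by positivity)
    intro D hD
    exact pow_le_pow_of_le_one (by norm_num) (by norm_num) (mem_filter.1 hD).2.le
  rw [sum_half, hι] at h1
  have h3 : (3 / 4 : ℝ) ^ S.card ≤ (3 / 4 : ℝ) ^ (4 * r) :=
    pow_le_pow_of_le_one (by norm_num) (by norm_num) hS
  have h4 : (81 / 128 : ℝ) ^ r = (3 / 4 : ℝ) ^ (4 * r) * 2 ^ r := by
    rw [pow_mul, ← mul_pow]
    norm_num
  have h5 : (1 / 2 : ℝ) ^ r * 2 ^ r = 1 := by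
    rw [← mul_pow]; norm_num
  have h6 : (2 : ℝ) ^ (2 * k) = 4 ^ k := by rw [pow_mul]; norm_num
  rw [h6] at h1
  calc ((univ.filter fun D : Finset ι => (S ∩ D).card < r).card : ℝ)
      = ((univ.filter fun D : Finset ι => (S ∩ D).card < r).card : ℝ) * (1 / 2) ^ r *
        2 ^ r := by rw [mul_assoc, h5, mul_one]
    _ ≤ 4 ^ k * (3 / 4 : ℝ) ^ S.card * 2 ^ r := mul_le_mul_of_nonneg_right h1 (by positivity)
    _ ≤ 4 ^ k * (3 / 4 : ℝ) ^ (4 * r) * 2 ^ r := by gcongr
    _ = _ := by rw [h4]; ring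

/-- the bad cuts of one set -/
theorem card_badcut {k r : ℕ} (hι : Fintype.card ι = 2 * k) (S : Finset ι) (hS : 4 * r ≤ S.card) :
    ((univ.filter fun D : Cut ι k => (S ∩ D.1).card < r ∨ (S \ D.1).card < r).card : ℝ) ≤
      2 * (4 ^ k * (81 / 128 : ℝ) ^ r) := by
  have h1 : (univ.filter fun D : Cut ι k => (S ∩ D.1).card < r).card ≤
      (univ.filter fun D : Finset ι => (S ∩ D).card < r).card := by
    apply Finset.card_le_card_of_injOn (fun D => D.1)
    · intro D hD
      exact mem_coe.2 (mem_filter.2 ⟨mem_univ _, (mem_filter.1 (mem_coe.1 hD)).2⟩)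
    · exact Subtype.val_injective.injOn
  have h2 : (univ.filter fun D : Cut ι k => (S \ D.1).card < r).card ≤
      (univ.filter fun D : Finset ι => (S ∩ D).card < r).card := by
    apply Finset.card_le_card_of_injOn (fun D => D.1ᶜ)
    · intro D hD
      refine mem_coe.2 (mem_filter.2 ⟨mem_univ _, ?_⟩)
      have := (mem_filter.1 (mem_coe.1 hD)).2
      rwa [Finset.sdiff_eq_inter_compl] at this
    · intro D _ D' _ h
      exact Subtype.ext (compl_injective h)
  have h3 : (univ.filter fun D : Cut ι k => (S ∩ D.1).card < r ∨ (S \ D.1).card < r).card ≤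
      (univ.filter fun D : Cut ι k => (S ∩ D.1).card < r).card +
        (univ.filter fun D : Cut ι k => (S \ D.1).card < r).card := by
    rw [Finset.filter_or]
    exact Finset.card_union_le _ _
  have h4 := card_few hι S hS
  have h5 : ((univ.filter fun D : Cut ι k => (S ∩ D.1).card < r ∨ (S \ D.1).card < r).card : ℝ) ≤
      ((univ.filter fun D : Finset ι => (S ∩ D).card < r).card : ℝ) +
        ((univ.filter fun D : Finset ι => (S ∩ D).card < r).card : ℝ) := by
    exact_mod_cast h3.trans (Nat.add_le_add h1 h2)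
  linarith

end cutcount

section weighted

variable {A : Type*} [AddCommGroup A] [Fintype A] [DecidableEq A]
variable {ι : Type*} [Fintype ι] [DecidableEq ι]

theorem BprL_nonneg {α β : Type*} [Fintype α] [Fintype β] [DecidableEq α] [DecidableEq β]
    (L M : ℕ) (x : α → A) (z : β → A) : 0 ≤ BprL L M x z := by
  unfold BprL; positivity

theorem BprL_le_one {α β : Type*} [Fintype α] [Fintype β] [DecidableEq α] [DecidableEq β]
    (L M : ℕ) (x : α → A) (z : β → A) : BprL L M x z ≤ 1 := by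
  unfold BprL
  apply div_le_one_of_le₀ _ (by positivity)
  have h := Finset.card_le_univ (univ.filter (fun ω : β → α → Fin M =>
    (∀ i, gwL L (ω i) x = 0) ∧ ∀ j, gwL L (fun i => ω i j) z = 0))
  rw [Fintype.card_fun, Fintype.card_fun, Fintype.card_fin, ← pow_mul, mul_comm] at h
  exact_mod_cast h

/-- **weighted balanced cuts** (same proof as `SprA_le_bal`) -/
theorem SprA_le_wt (k : ℕ) (hk : 0 < k) (hι : Fintype.card ι = 2 * k) (v w : ι → A)
    (wt : Cut ι k → ℝ) (hwt : ∀ D, 0 ≤ wt D) (hwt1 : 1 ≤ ∏ D, wt D) :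
    SprA v w ≤ (∑ D : Cut ι k, wt D * BprL (2 * k - 1) (8 * k) (fun j : {i // i ∈ D.1} => v j)
      (fun i : {i // i ∉ D.1} => v i)) / Nat.centralBinom k := by
  classical
  have hne : Nonempty (Cut ι k) := by
    have : 0 < Fintype.card (Cut ι k) := by rw [card_cut k hι]; exact Nat.centralBinom_pos k
    exact Fintype.card_pos_iff.1 this
  have hcard : (Fintype.card (Cut ι k) : ℝ) = Nat.centralBinom k := by rw [card_cut k hι]
  have hG : (0 : ℝ) < Fintype.card (ι → A) := by exact_mod_cast Fintype.card_pos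
  have hT : (0 : ℝ) < Nat.centralBinom k := by exact_mod_cast Nat.centralBinom_pos k
  have h2E : (0 : ℝ) < (2 : ℝ) ^ Fintype.card (Sym2 ι) := by positivity
  have h8 : 0 < 8 * k := by omega
  have hL2 : 2 * (2 * k - 1) ≤ 8 * k := by omega
  have hL4 : 4 * (2 * k - 1) ≤ 8 * k := by omega
  have hk' : (0 : ℝ) < k := by exact_mod_cast hk
  have hc : ((2 * k - 1 : ℕ) : ℝ) = 2 * k - 1 := by
    rw [Nat.cast_sub (by omega)]; push_cast; ring
  rw [SprA_eq_bpr]
  set c := symc v with hcdef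
  have h := card_filter_eq_sum (fun b : Sym2 ι → Bool => bwalk b c) w
  have hb : (Fintype.card (ι → A) * bpr c w : ℝ) * (2 : ℝ) ^ Fintype.card (Sym2 ι) =
      ‖(Fintype.card (ι → A) : ℂ) *
        ((univ.filter (fun b : Sym2 ι → Bool => bwalk b c = w)).card : ℂ)‖ := by
    rw [norm_mul, Complex.norm_natCast, Complex.norm_natCast]
    unfold bpr
    (clear * -; field_simp)
  -- the bound for every character
  have key : ∀ ψ : AddChar (ι → A) ℂ, ∏ e, ‖(1 + ψ (c e)) / 2‖ ≤
      (∑ D : Cut ι k, wt D * ∏ p, cfL (2 * k - 1) (8 * k) (ψ (c (offp D.1 p)))) /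
        Nat.centralBinom k := by
    intro ψ
    have hk0 : ∀ e, 0 ≤ ‖(1 + ψ (c e)) / 2‖ := fun e => norm_nonneg _
    have hk1 : ∀ e, ‖(1 + ψ (c e)) / 2‖ ≤ 1 := fun e => norm_half_le_one (norm_addChar _ _)
    have hcf : ∀ e, 0 ≤ cfL (2 * k - 1) (8 * k) (ψ (c e)) :=
      fun e => cfL_nonneg h8 hL4 (norm_addChar _ _)
    have hcfe : ∀ e, cfL (2 * k - 1) (8 * k) (ψ (c e)) =
        ((2 * k - 1 : ℕ) * ‖(1 + ψ (c e)) / 2‖ ^ 2 + 1) / (2 * k) := by
      intro e
      rw [norm_half_sq (norm_addChar _ _)]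
      unfold cfL cf
      rw [hc]
      push_cast
      field_simp
      ring
    have h3 := amgm_core (T := Cut ι k) (fun e => ‖(1 + ψ (c e)) / 2‖) hk0 wt hwt hwt1
      (fun D e => if ∃ p, offp D.1 p = e then cfL (2 * k - 1) (8 * k) (ψ (c e)) else 1)
      (fun D e => by
        split_ifs
        · exact hcf e
        · exact zero_le_one)
      (by
        intro e
        rw [card_cut k hι]
        have hprod : ∏ D : Cut ι k, (if ∃ p, offp D.1 p = e then
            cfL (2 * k - 1) (8 * k) (ψ (c e)) else 1) =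
            cfL (2 * k - 1) (8 * k) (ψ (c e)) ^
              (univ.filter fun D : Cut ι k => ∃ p, offp D.1 p = e).card := by
          rw [← Finset.prod_const, Finset.prod_filter]
        rw [hprod]
        induction e using Sym2.ind with
        | _ i j =>
        by_cases hij : i = j
        · have h0 : (univ.filter fun D : Cut ι k => ∃ p, offp D.1 p = s(i, j)) = ∅ := by
            rw [filter_eq_empty_iff]
            intro D _
            rw [sep_iff, hij]
            tauto
          rw [h0, card_empty, pow_zero]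
          exact pow_le_one₀ (hk0 _) (hk1 _)
        · rw [card_sep2 k hk hι hij]
          refine pow_card_le k hk (hk0 _) (hcf _) ?_
          rw [hcfe]
          exact am_gm_pow k hk (hk0 _))
    rw [hcard] at h3
    refine h3.trans (le_of_eq ?_)
    congr 1
    refine sum_congr rfl fun D _ => ?_
    rw [← prod_comp_eq (offp D.1) (offp_injective D.1)
      (fun e => cfL (2 * k - 1) (8 * k) (ψ (c e)))]
  refine le_of_mul_le_mul_left ?_ hG
  refine le_of_mul_le_mul_right ?_ h2E
  rw [hb, h]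
  have h4 : (Fintype.card (ι → A) : ℝ) * ((∑ D : Cut ι k, wt D * BprL (2 * k - 1) (8 * k)
      (fun j : {i // i ∈ D.1} => v j) (fun i : {i // i ∉ D.1} => v i)) / Nat.centralBinom k) =
      ∑ ψ : AddChar (ι → A) ℂ, (∑ D : Cut ι k, wt D * ∏ p,
        cfL (2 * k - 1) (8 * k) (ψ (c (offp D.1 p)))) / Nat.centralBinom k := by
    rw [← sum_div, sum_comm, mul_div_assoc', mul_sum]
    congr 1
    refine sum_congr rfl fun D _ => ?_
    rw [← mul_sum, ← prL_zero_eq h8 hL2, prL_offp]
    ring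
  rw [h4, sum_mul]
  refine (norm_sum_le _ _).trans (sum_le_sum fun ψ _ => ?_)
  rw [norm_mul, norm_addChar, one_mul, sum_addChar_bwalk, norm_prod]
  have h3 : ∏ e, ‖1 + ψ (c e)‖ =
      (∏ e, ‖(1 + ψ (c e)) / 2‖) * (2 : ℝ) ^ Fintype.card (Sym2 ι) := by
    rw [← Finset.card_univ, ← Finset.prod_const, ← Finset.prod_mul_distrib]
    refine prod_congr rfl fun e _ => ?_
    rw [norm_div]
    simp
  rw [h3]
  exact mul_le_mul_of_nonneg_right (key ψ) h2E.le

/-- good and bad cuts -/
theorem SprA_le_good (k : ℕ) (hk : 0 < k) (hι : Fintype.card ι = 2 * k) (v w : ι → A)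
    (bad : Finset (Cut ι k)) (L : ℝ) (hL : (L + 1) * bad.card ≤ Nat.centralBinom k) :
    SprA v w ≤ (∑ D ∈ univ.filter (fun D => D ∉ bad), Real.exp 1 *
      BprL (2 * k - 1) (8 * k) (fun j : {i // i ∈ D.1} => v j)
      (fun i : {i // i ∉ D.1} => v i)) / Nat.centralBinom k + Real.exp (-L) := by
  classical
  have hT : (0 : ℝ) < Nat.centralBinom k := by exact_mod_cast Nat.centralBinom_pos k
  have hcb : (bad.card : ℝ) ≤ Nat.centralBinom k := by
    have h := Finset.card_le_univ bad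
    rw [card_cut k hι] at h
    exact_mod_cast h
  have hgood : ((univ.filter (fun D : Cut ι k => D ∉ bad)).card : ℝ) =
      Nat.centralBinom k - bad.card := by
    have h := Finset.card_filter_add_card_filter_not (s := (univ : Finset (Cut ι k)))
      (fun D => D ∈ bad)
    rw [card_univ, card_cut k hι, Finset.filter_mem_eq_inter, Finset.univ_inter] at h
    have h' : ((bad.card + (univ.filter (fun D : Cut ι k => D ∉ bad)).card : ℕ) : ℝ) =
        Nat.centralBinom k := by exact_mod_cast h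
    push_cast at h'
    linarith
  have h1 := SprA_le_wt k hk hι v w (fun D => if D ∈ bad then Real.exp (-L) else Real.exp 1)
    (fun D => by split_ifs <;> positivity) (by
      rw [Finset.prod_ite, Finset.prod_const, Finset.prod_const, ← Real.exp_nat_mul,
        ← Real.exp_nat_mul, ← Real.exp_add]
      rw [Finset.filter_mem_eq_inter, Finset.univ_inter]
      apply Real.one_le_exp
      rw [hgood]
      linarith)
  refine h1.trans ?_
  rw [← Finset.sum_filter_add_sum_filter_not univ (fun D : Cut ι k => D ∉ bad), add_div]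
  apply add_le_add
  · apply div_le_div_of_nonneg_right _ hT.le
    apply le_of_eq
    refine Finset.sum_congr rfl fun D hD => ?_
    rw [if_neg (mem_filter.1 hD).2]
  · rw [div_le_iff₀ hT]
    have h2 : ∑ D ∈ univ.filter (fun D : Cut ι k => ¬ D ∉ bad),
        (if D ∈ bad then Real.exp (-L) else Real.exp 1) *
        BprL (2 * k - 1) (8 * k) (fun j : {i // i ∈ D.1} => v j) (fun i : {i // i ∉ D.1} => v i) ≤
        ∑ _D ∈ univ.filter (fun D : Cut ι k => ¬ D ∉ bad), Real.exp (-L) := by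
      refine Finset.sum_le_sum fun D hD => ?_
      rw [if_pos (not_not.1 (mem_filter.1 hD).2)]
      exact mul_le_of_le_one_right (Real.exp_pos _).le (BprL_le_one _ _ _ _)
    refine h2.trans ?_
    rw [Finset.sum_const, nsmul_eq_mul, mul_comm]
    apply mul_le_mul_of_nonneg_left _ (Real.exp_pos _).le
    have h3 : (univ.filter (fun D : Cut ι k => ¬ D ∉ bad)) ⊆ bad := by
      intro D hD
      exact not_not.1 (mem_filter.1 hD).2
    exact le_trans (by exact_mod_cast Finset.card_le_card h3) hcb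

end weighted

section sumV

variable {t k : ℕ} (p : Fin t → ℕ) [∀ j, NeZero (p j)]

open Classical in
theorem B4_nonneg (x z : Fin k → GG p) : 0 ≤ B4 p x z := by
  unfold B4; positivity

/-- restriction of the counts to a subset and its complement -/
theorem card_restrict {ι : Type} [Fintype ι] [DecidableEq ι] (D : Finset ι) (R : ι → Prop)
    [DecidablePred R] (e1 : Fin k ≃ {i // i ∈ D}) :
    (univ.filter fun a : Fin k => R (e1 a)).card = ((univ.filter R) ∩ D).card := by
  have h : (univ.filter fun a : Fin k => R (e1 a)).map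
      (e1.toEmbedding.trans (Function.Embedding.subtype _)) = (univ.filter R) ∩ D := by
    ext i
    simp only [mem_map, mem_filter, mem_univ, true_and, mem_inter,
      Function.Embedding.trans_apply, Equiv.coe_toEmbedding, Function.Embedding.coe_subtype]
    constructor
    · rintro ⟨a, h1, rfl⟩; exact ⟨h1, (e1 a).2⟩
    · rintro ⟨h1, h2⟩; exact ⟨e1.symm ⟨i, h2⟩, by simpa using h1, by simp⟩
  rw [← h, card_map]

theorem card_restrict' {ι : Type} [Fintype ι] [DecidableEq ι] (D : Finset ι) (R : ι → Prop)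
    [DecidablePred R] (e2 : Fin k ≃ {i // i ∉ D}) :
    (univ.filter fun a : Fin k => R (e2 a)).card = ((univ.filter R) \ D).card := by
  have h : (univ.filter fun a : Fin k => R (e2 a)).map
      (e2.toEmbedding.trans (Function.Embedding.subtype _)) = (univ.filter R) \ D := by
    ext i
    simp only [mem_map, mem_filter, mem_univ, true_and, mem_sdiff,
      Function.Embedding.trans_apply, Equiv.coe_toEmbedding, Function.Embedding.coe_subtype]
    constructor
    · rintro ⟨a, h1, rfl⟩; exact ⟨h1, (e2 a).2⟩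
    · rintro ⟨h1, h2⟩; exact ⟨e2.symm ⟨i, h2⟩, by simpa using h1, by simp⟩
  rw [← h, card_map]

theorem Zr_eq {α : Type} [Fintype α] (w : α → GG p) :
    Zr p w = ∑ j, (univ.filter fun c => w c j = 0).card := by
  unfold Zr
  rw [Finset.card_filter, Fintype.sum_prod_type_right]
  refine Finset.sum_congr rfl fun j _ => ?_
  rw [Finset.card_filter]

open Classical in
/-- the sum over `V` for one cut -/
theorem sum_one_cut (hk : 0 < k) (D : Cut (Fin (2 * k)) k) (e : ℝ) (r I : ℕ) (her : e ≤ r)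
    (V : Finset (Fin (2 * k) → GG p))
    (hV : ∀ v ∈ V, I ≤ Zr p v ∧ ∀ j, r ≤ ((univ.filter fun c => v c j ≠ 0) ∩ D.1).card ∧
      r ≤ ((univ.filter fun c => v c j ≠ 0) \ D.1).card) :
    ∑ v ∈ V, BprL (2 * k - 1) (8 * k) (fun j : {i // i ∈ D.1} => v j)
      (fun i : {i // i ∉ D.1} => v i) ≤ Real.exp (k / 2) * S4 k t p e I := by
  have hc1 : Fintype.card {i // i ∈ D.1} = k := by rw [Fintype.card_coe, D.2]
  have hc2 : Fintype.card {i // i ∉ D.1} = k := by
    rw [Fintype.card_subtype_compl, Fintype.card_fin, hc1]; omega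
  have e1 : Fin k ≃ {i // i ∈ D.1} := Fintype.equivOfCardEq (by rw [Fintype.card_fin, hc1])
  have e2 : Fin k ≃ {i // i ∉ D.1} := Fintype.equivOfCardEq (by rw [Fintype.card_fin, hc2])
  have h1 : ∑ v ∈ V, BprL (2 * k - 1) (8 * k) (fun j : {i // i ∈ D.1} => v j)
      (fun i : {i // i ∉ D.1} => v i) ≤
      ∑ v ∈ V, Real.exp (k / 2) * B4 p (fun a : Fin k => v (e1 a)) (fun b : Fin k => v (e2 b)) := by
    refine Finset.sum_le_sum fun v _ => ?_
    refine (Law871.BprL_le hk hc1 hc2 e1 e2 _ _).trans (le_of_eq ?_)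
    unfold B4
    congr!
  refine h1.trans ?_
  rw [← Finset.mul_sum]
  apply mul_le_mul_of_nonneg_left _ (Real.exp_pos _).le
  have hinj : Set.InjOn (fun v : Fin (2 * k) → GG p =>
      ((fun a : Fin k => v (e1 a)), (fun b : Fin k => v (e2 b)))) (V : Set (Fin (2 * k) → GG p)) := by
    intro v _ v' _ h
    have ha := congrArg Prod.fst h
    have hb := congrArg Prod.snd h
    funext i
    by_cases hi : i ∈ D.1
    · have := congrFun ha (e1.symm ⟨i, hi⟩)
      simpa using this
    · have := congrFun hb (e2.symm ⟨i, hi⟩)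
      simpa using this
  rw [← Finset.sum_image (f := fun z : (Fin k → GG p) × (Fin k → GG p) => B4 p z.1 z.2) hinj]
  unfold S4
  rw [← Finset.sum_filter]
  apply Finset.sum_le_sum_of_subset_of_nonneg
  · intro z hz
    obtain ⟨v, hv, rfl⟩ := mem_image.1 hz
    obtain ⟨hI, hS⟩ := hV v hv
    rw [mem_filter]
    refine ⟨mem_univ _, fun j => ?_, fun j => ?_, ?_⟩
    · refine her.trans ?_
      rw [card_restrict D.1 (fun c => v c j ≠ 0) e1]
      exact_mod_cast (hS j).1
    · refine her.trans ?_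
      rw [card_restrict' D.1 (fun c => v c j ≠ 0) e2]
      exact_mod_cast (hS j).2
    · refine hI.trans (le_of_eq ?_)
      rw [Zr_eq, Zr_eq, Zr_eq, ← Finset.sum_add_distrib]
      refine Finset.sum_congr rfl fun j _ => ?_
      rw [card_restrict D.1 (fun c => v c j = 0) e1, card_restrict' D.1 (fun c => v c j = 0) e2,
        Finset.card_inter_add_card_sdiff]
  · intro z _ _
    exact B4_nonneg p _ _

open Classical in
/-- the finite form of `StmtHalf` -/
theorem half_finite (hk : 0 < k) (e L : ℝ) (r I : ℕ) (her : e ≤ r)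
    (hL : (L + 1) * (t * (2 * (4 ^ k * (81 / 128 : ℝ) ^ r))) ≤ Nat.centralBinom k) (hL0 : 0 ≤ L)
    (V : Finset (Fin (2 * k) → GG p)) (y : (Fin (2 * k) → GG p) → (Fin (2 * k) → GG p))
    (hV : ∀ v ∈ V, I ≤ Zr p v ∧ ∀ j, 4 * r ≤ (univ.filter fun c => v c j ≠ 0).card) :
    ∑ v ∈ V, SprA v (y v) ≤ Real.exp 1 * (Real.exp (k / 2) * S4 k t p e I) +
      V.card * Real.exp (-L) := by
  have hT : (0 : ℝ) < Nat.centralBinom k := by exact_mod_cast Nat.centralBinom_pos k
  set bad : (Fin (2 * k) → GG p) → Finset (Cut (Fin (2 * k)) k) := fun v =>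
    univ.biUnion fun j : Fin t => univ.filter fun D : Cut (Fin (2 * k)) k =>
      ((univ.filter fun c => v c j ≠ 0) ∩ D.1).card < r ∨
        ((univ.filter fun c => v c j ≠ 0) \ D.1).card < r with hbad
  have hbc : ∀ v ∈ V, (L + 1) * ((bad v).card : ℝ) ≤ Nat.centralBinom k := by
    intro v hv
    refine le_trans (mul_le_mul_of_nonneg_left ?_ (by linarith)) hL
    have h1 : ((bad v).card : ℝ) ≤ ∑ _j : Fin t, 2 * (4 ^ k * (81 / 128 : ℝ) ^ r) := by
      refine le_trans (Nat.cast_le.2 Finset.card_biUnion_le) ?_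
      push_cast
      refine Finset.sum_le_sum fun j _ => ?_
      exact card_badcut (by simp) _ ((hV v hv).2 j)
    rw [Finset.sum_const, card_univ, Fintype.card_fin, nsmul_eq_mul] at h1
    exact h1
  have h1 : ∑ v ∈ V, SprA v (y v) ≤ ∑ v ∈ V, ((∑ D ∈ univ.filter (fun D => D ∉ bad v), Real.exp 1 *
      BprL (2 * k - 1) (8 * k) (fun j : {i // i ∈ D.1} => v j)
      (fun i : {i // i ∉ D.1} => v i)) / Nat.centralBinom k + Real.exp (-L)) := by
    refine Finset.sum_le_sum fun v hv => ?_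
    exact SprA_le_good k hk (by simp) v (y v) (bad v) L (hbc v hv)
  refine h1.trans ?_
  rw [Finset.sum_add_distrib, Finset.sum_const, nsmul_eq_mul]
  apply add_le_add_left
  rw [← Finset.sum_div, div_le_iff₀ hT]
  have h2 : ∑ v ∈ V, ∑ D ∈ univ.filter (fun D => D ∉ bad v), Real.exp 1 *
      BprL (2 * k - 1) (8 * k) (fun j : {i // i ∈ D.1} => v j) (fun i : {i // i ∉ D.1} => v i) =
      ∑ D : Cut (Fin (2 * k)) k, ∑ v ∈ V.filter (fun v => D ∉ bad v), Real.exp 1 *
      BprL (2 * k - 1) (8 * k) (fun j : {i // i ∈ D.1} => v j)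
        (fun i : {i // i ∉ D.1} => v i) := by
    simp_rw [Finset.sum_filter]
    exact Finset.sum_comm
  rw [h2]
  have h3 : ∀ D : Cut (Fin (2 * k)) k, ∑ v ∈ V.filter (fun v => D ∉ bad v), Real.exp 1 *
      BprL (2 * k - 1) (8 * k) (fun j : {i // i ∈ D.1} => v j) (fun i : {i // i ∉ D.1} => v i) ≤
      Real.exp 1 * (Real.exp (k / 2) * S4 k t p e I) := by
    intro D
    rw [← Finset.mul_sum]
    apply mul_le_mul_of_nonneg_left _ (Real.exp_pos _).le
    apply sum_one_cut p hk D e r I her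
    intro v hv
    obtain ⟨hvV, hvD⟩ := mem_filter.1 hv
    refine ⟨(hV v hvV).1, fun j => ?_⟩
    have h4 : D ∉ univ.filter fun D : Cut (Fin (2 * k)) k =>
      ((univ.filter fun c => v c j ≠ 0) ∩ D.1).card < r ∨
        ((univ.filter fun c => v c j ≠ 0) \ D.1).card < r := fun h =>
      hvD (mem_biUnion.2 ⟨j, mem_univ _, h⟩)
    rw [mem_filter, not_and, not_or, not_lt, not_lt] at h4
    exact h4 (mem_univ _)
  refine (Finset.sum_le_sum fun D _ => h3 D).trans (le_of_eq ?_)
  rw [Finset.sum_const, card_univ, card_cut k (by simp), nsmul_eq_mul]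
  ring

end sumV

section arith

open Filter Real

theorem ev_poly {a c : ℝ} (ha : 0 < a) (hc : 0 < c) :
    ∀ᶠ k : ℕ in atTop, 20 * (k : ℝ) ^ 4 ≤ Real.exp (c * (k : ℝ) ^ a) := by
  have h1 := (isLittleO_rpow_exp_pos_mul_atTop (4 / a) hc).bound (show (0 : ℝ) < 1 / 20 by norm_num)
  have h2 : Tendsto (fun k : ℕ => (k : ℝ) ^ a) atTop atTop :=
    (tendsto_rpow_atTop ha).comp tendsto_natCast_atTop_atTop
  filter_upwards [h2.eventually h1] with k hk
  have hk0 : (0 : ℝ) ≤ (k : ℝ) ^ a := by positivity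
  rw [Real.norm_of_nonneg (by positivity), Real.norm_of_nonneg (Real.exp_pos _).le,
    ← Real.rpow_mul (Nat.cast_nonneg k), mul_div_cancel₀ _ ha.ne'] at hk
  have h3 : (k : ℝ) ^ (4 : ℝ) = (k : ℝ) ^ 4 := by
    rw [← Real.rpow_natCast]; norm_num
  rw [h3] at hk
  linarith

theorem ev_ceil {d d' : ℝ} (hdd : d < d') (hd1 : d' < 1) :
    ∀ᶠ k : ℕ in atTop, 4 * (⌈(k : ℝ) ^ (1 - d')⌉₊ : ℝ) ≤ (k : ℝ) ^ (1 - d) := by
  have h2 : Tendsto (fun k : ℕ => (k : ℝ) ^ (d' - d)) atTop atTop :=
    (tendsto_rpow_atTop (by linarith)).comp tendsto_natCast_atTop_atTop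
  filter_upwards [h2.eventually_ge_atTop 8, eventually_ge_atTop 1] with k hk hk1
  have hkr : (1 : ℝ) ≤ k := by exact_mod_cast hk1
  have h3 : (1 : ℝ) ≤ (k : ℝ) ^ (1 - d') := Real.one_le_rpow hkr (by linarith)
  have h4 := (Nat.ceil_lt_add_one (show (0 : ℝ) ≤ (k : ℝ) ^ (1 - d') by positivity)).le
  have h5 : (k : ℝ) ^ (1 - d) = (k : ℝ) ^ (1 - d') * (k : ℝ) ^ (d' - d) := by
    rw [← Real.rpow_add (by linarith)]
    congr 1; ring
  rw [h5]
  nlinarith

theorem stmtHalf : StmtHalf := by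
  classical
  intro g d d' hg hd hdd hd1
  set c : ℝ := -Real.log (81 / 128) with hc
  have hc0 : 0 < c := by
    rw [hc, neg_pos]
    exact Real.log_neg (by norm_num) (by norm_num)
  obtain ⟨k₀, hk₀⟩ := eventually_atTop.1 ((ev_poly (show 0 < 1 - d' by linarith) hc0).and
    ((ev_ceil hdd hd1).and (eventually_ge_atTop 2)))
  refine ⟨k₀, fun k hk t p inst hadm V y I hV => ?_⟩
  obtain ⟨hpoly, hceil, hk2⟩ := hk₀ k hk
  have hk0 : 0 < k := by omega
  have hkr : (2 : ℝ) ≤ k := by exact_mod_cast hk2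
  have hkr0 : (0 : ℝ) < k := by linarith
  set r : ℕ := ⌈(k : ℝ) ^ (1 - d')⌉₊ with hr
  -- the product
  have hexp : (k : ℝ) ^ (1 - g) ≤ k := by
    calc (k : ℝ) ^ (1 - g) ≤ (k : ℝ) ^ (1 : ℝ) :=
          Real.rpow_le_rpow_of_exponent_le (by linarith) (by linarith)
      _ = k := Real.rpow_one _
  have hprod : ((∏ j, p j : ℕ) : ℝ) ≤ (2 : ℝ) ^ k := by
    refine hadm.prod.trans ?_
    rw [← Real.rpow_natCast]
    exact Real.rpow_le_rpow_of_exponent_le (by norm_num) hexp
  have ht : t ≤ k := by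
    have h1 : k ^ t ≤ ∏ j, p j := by
      calc k ^ t = ∏ _j : Fin t, k := by simp
        _ ≤ ∏ j, p j := Finset.prod_le_prod' fun j _ => hadm.lo j
    have h2 : (2 : ℝ) ^ t ≤ (2 : ℝ) ^ k := by
      calc (2 : ℝ) ^ t ≤ (k : ℝ) ^ t := pow_le_pow_left₀ (by norm_num) hkr t
        _ = ((k ^ t : ℕ) : ℝ) := by push_cast; ring
        _ ≤ ((∏ j, p j : ℕ) : ℝ) := by exact_mod_cast h1
        _ ≤ _ := hprod
    exact (pow_le_pow_iff_right₀ (by norm_num : (1 : ℝ) < 2)).1 h2
  have htr : (t : ℝ) ≤ k := by exact_mod_cast ht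
  -- the tail
  have hrho : (81 / 128 : ℝ) ^ r ≤ Real.exp (-(c * (k : ℝ) ^ (1 - d'))) := by
    have h1 : (81 / 128 : ℝ) ^ r = Real.exp (r * Real.log (81 / 128)) := by
      rw [Real.exp_nat_mul, Real.exp_log (by norm_num)]
    rw [h1]
    apply Real.exp_le_exp.2
    have h2 : (k : ℝ) ^ (1 - d') ≤ r := Nat.le_ceil _
    have h3 := mul_le_mul_of_nonneg_left h2 hc0.le
    have h4 : (r : ℝ) * Real.log (81 / 128) = -(c * r) := by rw [hc]; ring
    rw [h4]
    linarith
  have hsmall : 20 * (k : ℝ) ^ 4 * (81 / 128 : ℝ) ^ r ≤ 1 := by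
    calc 20 * (k : ℝ) ^ 4 * (81 / 128 : ℝ) ^ r
        ≤ Real.exp (c * (k : ℝ) ^ (1 - d')) * Real.exp (-(c * (k : ℝ) ^ (1 - d'))) :=
          mul_le_mul hpoly hrho (by positivity) (Real.exp_pos _).le
      _ = 1 := by rw [← Real.exp_add, add_neg_cancel, Real.exp_zero]
  have hcb : (4 : ℝ) ^ k ≤ 2 * k * Nat.centralBinom k := by
    have := Nat.four_pow_le_two_mul_self_mul_centralBinom k hk0
    exact_mod_cast this
  have hL : ((4 * (k : ℝ) ^ 2) + 1) * (t * (2 * (4 ^ k * (81 / 128 : ℝ) ^ r))) ≤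
      Nat.centralBinom k := by
    have hcb0 : (0 : ℝ) ≤ Nat.centralBinom k := Nat.cast_nonneg _
    have hρ0 : (0 : ℝ) ≤ (81 / 128 : ℝ) ^ r := by positivity
    calc ((4 * (k : ℝ) ^ 2) + 1) * (t * (2 * (4 ^ k * (81 / 128 : ℝ) ^ r)))
        ≤ ((4 * (k : ℝ) ^ 2) + 1) * (k * (2 * ((2 * k * Nat.centralBinom k) *
          (81 / 128 : ℝ) ^ r))) := by gcongr
      _ = ((4 * (k : ℝ) ^ 2 + 1) * (4 * (k : ℝ) ^ 2) * (81 / 128 : ℝ) ^ r) *
          Nat.centralBinom k := by ring
      _ ≤ 1 * Nat.centralBinom k := by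
          apply mul_le_mul_of_nonneg_right _ hcb0
          refine le_trans ?_ hsmall
          apply mul_le_mul_of_nonneg_right _ hρ0
          have : (1 : ℝ) ≤ (k : ℝ) ^ 2 := by nlinarith
          nlinarith
      _ = _ := one_mul _
  have hmain := half_finite p hk0 ((k : ℝ) ^ (1 - d')) (4 * (k : ℝ) ^ 2) r I (Nat.le_ceil _) hL
    (by positivity) V y (by
      intro v hv
      refine ⟨(hV v hv).2, fun j => ?_⟩
      have h1 := (hV v hv).1 j
      have h2 : (4 * (r : ℝ)) ≤ ((univ.filter fun c => v c j ≠ 0).card : ℝ) := by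
        refine hceil.trans (h1.trans (le_of_eq ?_))
        congr!
      exact_mod_cast h2)
  have hS4 : 0 ≤ S4 k t p ((k : ℝ) ^ (1 - d')) I := by
    unfold S4
    refine Finset.sum_nonneg fun z _ => ?_
    split_ifs
    · exact B4_nonneg p _ _
    · exact le_rfl
  have hfirst : Real.exp 1 * (Real.exp (k / 2) * S4 k t p ((k : ℝ) ^ (1 - d')) I) ≤
      Real.exp (2 * k) * S4 k t p ((k : ℝ) ^ (1 - d')) I := by
    rw [← mul_assoc, ← Real.exp_add]
    apply mul_le_mul_of_nonneg_right _ hS4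
    apply Real.exp_le_exp.2
    linarith
  have hcardV : (V.card : ℝ) ≤ Real.exp (2 * (k : ℝ) ^ 2) := by
    have h1 : V.card ≤ (∏ j, p j) ^ (2 * k) := by
      have h2 := Finset.card_le_univ V
      have h3 : Fintype.card (Fin (2 * k) → GG p) = (∏ j, p j) ^ (2 * k) := by
        rw [Fintype.card_fun, Fintype.card_fin, Fintype.card_pi]
        simp only [ZMod.card]
      exact h2.trans (le_of_eq h3)
    have h4 : (V.card : ℝ) ≤ ((2 : ℝ) ^ k) ^ (2 * k) := by
      calc (V.card : ℝ) ≤ (((∏ j, p j) ^ (2 * k) : ℕ) : ℝ) := by exact_mod_cast h1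
        _ = ((∏ j, p j : ℕ) : ℝ) ^ (2 * k) := by push_cast; ring
        _ ≤ _ := pow_le_pow_left₀ (Nat.cast_nonneg _) hprod _
    refine h4.trans ?_
    have h5 : (2 : ℝ) ≤ Real.exp 1 := by
      have := Real.add_one_le_exp (1 : ℝ)
      linarith
    calc ((2 : ℝ) ^ k) ^ (2 * k) ≤ ((Real.exp 1) ^ k) ^ (2 * k) := by gcongr
      _ = Real.exp (2 * (k : ℝ) ^ 2) := by
          rw [← pow_mul, ← Real.exp_nat_mul]
          congr 1
          push_cast
          ring
  have hlast : (V.card : ℝ) * Real.exp (-(4 * (k : ℝ) ^ 2)) ≤ (k : ℝ) ^ (-(k : ℝ)) := by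
    calc (V.card : ℝ) * Real.exp (-(4 * (k : ℝ) ^ 2))
        ≤ Real.exp (2 * (k : ℝ) ^ 2) * Real.exp (-(4 * (k : ℝ) ^ 2)) :=
          mul_le_mul_of_nonneg_right hcardV (Real.exp_pos _).le
      _ = Real.exp (-(2 * (k : ℝ) ^ 2)) := by rw [← Real.exp_add]; congr 1; ring
      _ ≤ Real.exp (-(k : ℝ) * Real.log k) := by
          apply Real.exp_le_exp.2
          have h6 : Real.log k ≤ k := (Real.log_le_sub_one_of_pos hkr0).trans (by linarith)
          nlinarith
      _ = (k : ℝ) ^ (-(k : ℝ)) := by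
          rw [Real.rpow_def_of_pos hkr0]
          congr 1; ring
  have hfin := hmain.trans (add_le_add hfirst hlast)
  convert hfin using 2

end arith

end Vale.Agent.P160.Half.Mid.Half871
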