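import Vale.Agent.P160.Half.Mid.Mom188b

/-! # P160, mid primes: the moment of the number of kernel vectors, end of the proof of `StmtMom` -/

set_option linter.unusedSectionVars false

namespace Vale.Agent.P160.Half.Mid.Mom188

open Finset Matrix Vale.Agent.P160 Vale.Agent.P160.Half Filter

theorem numerics {g : ℝ} (hg : 0 < g) : ∃ k₀ : ℕ, ∀ k ≥ k₀, 3 ≤ k ∧
    16 * (k : ℝ) ^ (1 - g) + 2 ≤ k / 3 ∧
    (k : ℝ) ^ (1 - g) * (((Nat.log 2 k + 1) + 49 * (Nat.log 2 k + 1) *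
      (4 * (49 * (Nat.log 2 k + 1)) + 1) : ℕ) : ℝ) ≤ k := by
  have h1 : ∀ᶠ x : ℝ in atTop, ‖Real.log x‖ ≤ (1 / 300) * ‖x ^ (g / 2)‖ :=
    (isLittleO_log_rpow_atTop (by positivity : 0 < g / 2)).bound (by norm_num)
  have h2 : ∀ᶠ x : ℝ in atTop, 96 ≤ x ^ g := (tendsto_rpow_atTop hg).eventually_ge_atTop 96
  have h3 : ∀ᶠ x : ℝ in atTop, (12 : ℝ) ≤ x := eventually_ge_atTop 12
  obtain ⟨k₀, hk₀⟩ := eventually_atTop.1
    ((tendsto_natCast_atTop_atTop (R := ℝ)).eventually (h1.and (h2.and h3)))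
  refine ⟨k₀, fun k hk => ?_⟩
  obtain ⟨ha, hb, hc⟩ := hk₀ k hk
  have hk12 : 12 ≤ k := by exact_mod_cast hc
  have hkpos : (0 : ℝ) < k := by linarith
  have hkg : (0 : ℝ) < (k : ℝ) ^ (1 - g) := Real.rpow_pos_of_pos hkpos _
  have hmul : (k : ℝ) ^ (1 - g) * (k : ℝ) ^ g = k := by
    rw [← Real.rpow_add hkpos]; norm_num
  refine ⟨by omega, ?_, ?_⟩
  · nlinarith
  · set l : ℕ := Nat.log 2 k + 1 with hl
    have hlog0 : 0 ≤ Real.log k := Real.log_nonneg (by linarith)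
    have hlog1 : 1 ≤ Real.log k := by
      rw [Real.le_log_iff_exp_le hkpos]
      have := Real.exp_one_lt_d9
      linarith
    have hlr : (l : ℝ) ≤ 3 * Real.log k := by
      have h4 : ((2 : ℝ) ^ (Nat.log 2 k)) ≤ k := by
        exact_mod_cast Nat.pow_log_le_self 2 (by omega)
      have h5 : (Nat.log 2 k : ℝ) * Real.log 2 ≤ Real.log k := by
        rw [← Real.log_pow]
        exact Real.log_le_log (by positivity) h4
      have h6 := Real.log_two_gt_d9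
      have h7 : (0 : ℝ) ≤ (Nat.log 2 k : ℝ) := Nat.cast_nonneg _
      rw [hl]
      push_cast
      nlinarith
    have hl1 : (1 : ℝ) ≤ l := by
      rw [hl]; push_cast
      have h7 : (0 : ℝ) ≤ (Nat.log 2 k : ℝ) := Nat.cast_nonneg _
      linarith
    have h8 : ((l + 49 * l * (4 * (49 * l) + 1) : ℕ) : ℝ) ≤ 10000 * (l : ℝ) ^ 2 := by
      push_cast
      nlinarith
    have h9 : (l : ℝ) ^ 2 ≤ 9 * Real.log k ^ 2 := by nlinarith
    have h10 : Real.log k ≤ (1 / 300) * (k : ℝ) ^ (g / 2) := by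
      rw [Real.norm_of_nonneg hlog0, Real.norm_of_nonneg (Real.rpow_nonneg hkpos.le _)] at ha
      exact ha
    have h11 : ((k : ℝ) ^ (g / 2)) ^ 2 = (k : ℝ) ^ g := by
      rw [sq, ← Real.rpow_add hkpos]; congr 1; ring
    have h12 : Real.log k ^ 2 ≤ (1 / 90000) * (k : ℝ) ^ g := by
      rw [← h11]
      nlinarith [Real.rpow_nonneg hkpos.le (g / 2)]
    calc (k : ℝ) ^ (1 - g) * ((l + 49 * l * (4 * (49 * l) + 1) : ℕ) : ℝ)
        ≤ (k : ℝ) ^ (1 - g) * (k : ℝ) ^ g := by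
          refine mul_le_mul_of_nonneg_left ?_ hkg.le
          linarith
      _ = k := hmul

open scoped Classical in
/-- the rational part -/
theorem rat_part {g : ℝ} {k N : ℕ} (hk : 3 ≤ k) (h1 : 16 * (k : ℝ) ^ (1 - g) + 2 ≤ k / 3)
    (hN1 : 1 ≤ N) (hN : (N : ℝ) ≤ (2 : ℝ) ^ ((k : ℝ) ^ (1 - g))) :
    ∑ X : Fin k → Fin k → Fin 4,
      ((N : ℝ) ^ (k - HadN.rQ (cm (st : Fin 4 → ℤ) X))) ^ 16 ≤
      4 ^ (k * k) * (1 + (k : ℝ) ^ 2 * 2 ^ (2 * k)) := by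
  have hmaps : ∀ X ∈ (univ : Finset (Fin k → Fin k → Fin 4)),
      k - HadN.rQ (cm (st : Fin 4 → ℤ) X) ∈ range (k + 1) := by
    intro X _
    rw [mem_range]; omega
  rw [← sum_fiberwise_of_maps_to hmaps, Finset.sum_range_succ']
  have hterm : ∀ r ∈ range k, ∑ X ∈ univ.filter (fun X : Fin k → Fin k → Fin 4 =>
      k - HadN.rQ (cm (st : Fin 4 → ℤ) X) = r + 1),
      ((N : ℝ) ^ (k - HadN.rQ (cm (st : Fin 4 → ℤ) X))) ^ 16 ≤
      4 ^ (k * k) * ((k : ℝ) * 2 ^ (2 * k)) := by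
    intro r hr
    rw [mem_range] at hr
    have h2 : ∑ X ∈ univ.filter (fun X : Fin k → Fin k → Fin 4 =>
        k - HadN.rQ (cm (st : Fin 4 → ℤ) X) = r + 1),
        ((N : ℝ) ^ (k - HadN.rQ (cm (st : Fin 4 → ℤ) X))) ^ 16 =
        ((univ.filter (fun X : Fin k → Fin k → Fin 4 =>
          k - HadN.rQ (cm (st : Fin 4 → ℤ) X) = r + 1)).card : ℝ) * ((N : ℝ) ^ (r + 1)) ^ 16 := by
      rw [← nsmul_eq_mul, ← sum_const]
      refine sum_congr rfl fun X hX => ?_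
      rw [(mem_filter.1 hX).2]
    rw [h2]
    have h3 : ((univ.filter (fun X : Fin k → Fin k → Fin 4 =>
        k - HadN.rQ (cm (st : Fin 4 → ℤ) X) = r + 1)).card : ℝ) ≤
        k * (2 : ℝ) ^ (2 * k + 2 * (r + 1)) * (2 : ℝ) ^ (-(((r + 1) * k : ℕ) : ℝ) / 3) *
        (4 : ℝ) ^ (k * k) := by
      have h4 := RankQ304.rank_count_fin (Ω := Fin 4) (e := (st : Fin 4 → ℤ)) (by decide)
        (by decide) (by decide) (k := k) (r := r + 1) (by omega) (by omega)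
      rw [Fintype.card_fin] at h4
      refine le_trans ?_ (by exact_mod_cast h4)
      norm_cast
      refine card_le_card_of_injOn (fun X => (Matrix.of X : Matrix (Fin k) (Fin k) (Fin 4))) ?_
        (fun X _ Y _ h => Matrix.of.injective h)
      intro X hX
      rw [mem_coe, mem_filter] at hX ⊢
      refine ⟨mem_univ _, ?_⟩
      have h5 : HadN.rQ (cm (st : Fin 4 → ℤ) X) ≤ k := by
        have := Matrix.rank_le_card_width ((cm (st : Fin 4 → ℤ) X).map (Int.cast : ℤ → ℚ))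
        simpa [HadN.rQ] using this
      have h6 : ((Matrix.map (Matrix.of X) (st : Fin 4 → ℤ)).map
          (Int.cast : ℤ → ℚ)).rank = HadN.rQ (cm (st : Fin 4 → ℤ) X) := by
        unfold HadN.rQ
        rw [← Matrix.rank_transpose]
        rfl
      rw [h6]
      omega
    have h7 : ((N : ℝ) ^ (r + 1)) ^ 16 ≤ (2 : ℝ) ^ ((k : ℝ) ^ (1 - g) * (16 * (r + 1))) := by
      calc ((N : ℝ) ^ (r + 1)) ^ 16 = (N : ℝ) ^ ((r + 1) * 16) := by rw [← pow_mul]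
        _ ≤ ((2 : ℝ) ^ ((k : ℝ) ^ (1 - g))) ^ ((r + 1) * 16) :=
            pow_le_pow_left₀ (Nat.cast_nonneg _) hN _
        _ = _ := by
            rw [← Real.rpow_natCast, ← Real.rpow_mul (by norm_num)]
            congr 1
            push_cast
            ring
    have h8 : (2 : ℝ) ^ (2 * k + 2 * (r + 1)) * (2 : ℝ) ^ (-(((r + 1) * k : ℕ) : ℝ) / 3) *
        (2 : ℝ) ^ ((k : ℝ) ^ (1 - g) * (16 * (r + 1))) ≤ 2 ^ (2 * k) := by
      rw [← Real.rpow_natCast, ← Real.rpow_natCast, ← Real.rpow_add (by norm_num),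
        ← Real.rpow_add (by norm_num)]
      refine Real.rpow_le_rpow_of_exponent_le (by norm_num) ?_
      push_cast
      have h9 : (0 : ℝ) ≤ (r : ℝ) + 1 := by positivity
      nlinarith
    calc _ ≤ (k * (2 : ℝ) ^ (2 * k + 2 * (r + 1)) * (2 : ℝ) ^ (-(((r + 1) * k : ℕ) : ℝ) / 3) *
        (4 : ℝ) ^ (k * k)) * (2 : ℝ) ^ ((k : ℝ) ^ (1 - g) * (16 * (r + 1))) :=
          mul_le_mul h3 h7 (by positivity) (by positivity)
      _ = 4 ^ (k * k) * (k * ((2 : ℝ) ^ (2 * k + 2 * (r + 1)) *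
          (2 : ℝ) ^ (-(((r + 1) * k : ℕ) : ℝ) / 3) *
          (2 : ℝ) ^ ((k : ℝ) ^ (1 - g) * (16 * (r + 1))))) := by ring
      _ ≤ 4 ^ (k * k) * (k * 2 ^ (2 * k)) := by
          refine mul_le_mul_of_nonneg_left ?_ (by positivity)
          exact mul_le_mul_of_nonneg_left h8 (by positivity)
  have hzero : ∑ X ∈ univ.filter (fun X : Fin k → Fin k → Fin 4 =>
      k - HadN.rQ (cm (st : Fin 4 → ℤ) X) = 0),
      ((N : ℝ) ^ (k - HadN.rQ (cm (st : Fin 4 → ℤ) X))) ^ 16 ≤ 4 ^ (k * k) := by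
    calc _ = ∑ X ∈ univ.filter (fun X : Fin k → Fin k → Fin 4 =>
          k - HadN.rQ (cm (st : Fin 4 → ℤ) X) = 0), (1 : ℝ) := by
          refine sum_congr rfl fun X hX => ?_
          rw [(mem_filter.1 hX).2]; norm_num
      _ = ((univ.filter (fun X : Fin k → Fin k → Fin 4 =>
          k - HadN.rQ (cm (st : Fin 4 → ℤ) X) = 0)).card : ℝ) := by simp
      _ ≤ (Fintype.card (Fin k → Fin k → Fin 4) : ℝ) := by exact_mod_cast card_le_univ _
      _ = 4 ^ (k * k) := by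
          rw [Fintype.card_fun, Fintype.card_fun, Fintype.card_fin, Fintype.card_fin]
          push_cast
          rw [← pow_mul]
  calc _ ≤ ∑ r ∈ range k, 4 ^ (k * k) * ((k : ℝ) * 2 ^ (2 * k)) + 4 ^ (k * k) :=
        add_le_add (sum_le_sum hterm) hzero
    _ = 4 ^ (k * k) * (1 + (k : ℝ) ^ 2 * 2 ^ (2 * k)) := by
        rw [sum_const, card_range, nsmul_eq_mul]; ring

theorem t_le {g : ℝ} {k t : ℕ} {p : Fin t → ℕ} (hA : Adm g k t p) :
    (t : ℝ) ≤ (k : ℝ) ^ (1 - g) := by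
  have h1 : (2 : ℝ) ^ (t : ℝ) ≤ (2 : ℝ) ^ ((k : ℝ) ^ (1 - g)) := by
    refine le_trans ?_ hA.prod
    rw [Real.rpow_natCast]
    have h2 : 2 ^ t ≤ ∏ j, p j := by
      calc 2 ^ t = ∏ _j : Fin t, 2 := by simp
        _ ≤ ∏ j, p j := prod_le_prod' fun j _ => (hA.prime j).two_le
    exact_mod_cast h2
  exact (Real.rpow_le_rpow_left_iff (by norm_num)).1 h1

open scoped Classical in
/-- the excess part -/
theorem exc_part {g : ℝ} {k t : ℕ} {p : Fin t → ℕ} (hk : 3 ≤ k) (hA : Adm g k t p)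
    (h1 : (k : ℝ) ^ (1 - g) * (((Nat.log 2 k + 1) + 49 * (Nat.log 2 k + 1) *
      (4 * (49 * (Nat.log 2 k + 1)) + 1) : ℕ) : ℝ) ≤ k) :
    ∑ X : Fin k → Fin k → Fin 4, (∏ j, (p j : ℝ) ^ ex (st : Fin 4 → ℤ) (p j) X) ^ 16 ≤
      4 ^ (k * k) * 2 ^ k := by
  set l : ℕ := Nat.log 2 k + 1 with hl
  set P : Finset ℕ := univ.image p with hP
  have hprime : ∀ q ∈ P, q.Prime := by
    intro q hq
    obtain ⟨j, _, rfl⟩ := mem_image.1 hq
    exact hA.prime j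
  have hlo : ∀ q ∈ P, k ≤ q := by
    intro q hq
    obtain ⟨j, _, rfl⟩ := mem_image.1 hq
    exact hA.lo j
  have hhi : ∀ q ∈ P, q ≤ k ^ 3 := by
    intro q hq
    obtain ⟨j, _, rfl⟩ := mem_image.1 hq
    exact hA.hi j
  have hprod : ∀ f : ℕ → ℝ, ∏ j, f (p j) = ∏ q : {q // q ∈ P}, f q.1 := by
    intro f
    rw [Finset.prod_coe_sort P f, hP, prod_image (fun a _ b _ h => hA.inj h)]
  have h2 : ∀ X : Fin k → Fin k → Fin 4, (∏ j, (p j : ℝ) ^ ex (st : Fin 4 → ℤ) (p j) X) ^ 16 =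
      ∏ q : {q // q ∈ P}, ((q.1 : ℝ) ^ 16) ^ ex (st : Fin 4 → ℤ) q.1 X := by
    intro X
    rw [← Finset.prod_pow, hprod fun q => ((q : ℝ) ^ ex (st : Fin 4 → ℤ) q X) ^ 16]
    refine prod_congr rfl fun q _ => ?_
    rw [← pow_mul, ← pow_mul, mul_comm]
  rw [sum_congr rfl fun X _ => h2 X]
  have h3 := sum_prod_le (k := k) (α := Fin k → Fin 4) (π := {q // q ∈ P})
    (fun q X => ex (st : Fin 4 → ℤ) q.1 X) (fun q X => by
      have := Matrix.rank_le_card_width ((cm (st : Fin 4 → ℤ) X).map (Int.cast : ℤ → ℚ))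
      have h4 : HadN.rQ (cm (st : Fin 4 → ℤ) X) ≤ k := by simpa [HadN.rQ] using this
      unfold ex
      omega) (fun q => Lf k q.1) (fun q => Lf_pos (hprime q.1 q.2).pos)
    (fun q x => ((q.1 : ℝ) ^ 16) ^ x) (fun q x => by positivity)
    (fun x => profM (st : Fin 4 → ℤ) st_abs (lof (by omega)) P hprime
      (fun q hq => Lf_pos (hprime q hq).pos) k x)
  refine h3.trans ?_
  have h4 : (Fintype.card (Fin k → Fin 4) : ℝ) ^ k = 4 ^ (k * k) := by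
    rw [Fintype.card_fun, Fintype.card_fin, Fintype.card_fin]
    push_cast
    rw [← pow_mul]
  rw [h4]
  refine mul_le_mul_of_nonneg_left ?_ (by positivity)
  have hkl : k + 1 ≤ 2 ^ l := Nat.lt_pow_succ_log_self (by norm_num) k
  have hkl' : (k : ℝ) + 1 ≤ 2 ^ l := by exact_mod_cast hkl
  have h5 : ∀ q : {q // q ∈ P}, ∑ x ∈ range (k + 1),
      ((q.1 : ℝ) ^ 16) ^ x * (k.choose x : ℝ) / Lf k q.1 ^ (x.choose 2) ≤
      2 ^ (l + 49 * l * (4 * (49 * l) + 1)) := by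
    intro q
    have h6 : (q.1 : ℝ) ^ 16 * k ≤ 2 ^ (49 * l) := by
      have h7 : (q.1 : ℝ) ≤ (k : ℝ) ^ 3 := by exact_mod_cast hhi q.1 q.2
      have h8 : (k : ℝ) ≤ 2 ^ l := by linarith
      calc (q.1 : ℝ) ^ 16 * k ≤ ((k : ℝ) ^ 3) ^ 16 * k :=
            mul_le_mul_of_nonneg_right (pow_le_pow_left₀ (Nat.cast_nonneg _) h7 _)
              (Nat.cast_nonneg _)
        _ = (k : ℝ) ^ 49 := by ring
        _ ≤ (2 ^ l) ^ 49 := pow_le_pow_left₀ (Nat.cast_nonneg _) h8 _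
        _ = 2 ^ (49 * l) := by rw [← pow_mul, mul_comm]
    refine (one_prime (k := k) (m := 49 * l) (by positivity) h6 (Lf_sq hk (hlo q.1 q.2))
      (Lf_pos (hprime q.1 q.2).pos)).trans ?_
    rw [pow_add]
    exact mul_le_mul_of_nonneg_right hkl' (by positivity)
  have hsum0 : ∀ q : {q // q ∈ P}, 0 ≤ ∑ x ∈ range (k + 1),
      ((q.1 : ℝ) ^ 16) ^ x * (k.choose x : ℝ) / Lf k q.1 ^ (x.choose 2) := fun q =>
    sum_nonneg fun x _ => div_nonneg (by positivity)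
      (pow_nonneg (Lf_pos (hprime q.1 q.2).pos).le _)
  refine (prod_le_prod (fun q _ => hsum0 q) (fun q _ => h5 q)).trans ?_
  rw [prod_const, card_univ, Fintype.card_coe]
  have h9 : P.card = t := by
    rw [hP, card_image_of_injective _ hA.inj, card_univ, Fintype.card_fin]
  rw [h9, ← pow_mul]
  refine pow_le_pow_right₀ (by norm_num) ?_
  have h10 : ((((l + 49 * l * (4 * (49 * l) + 1)) * t : ℕ)) : ℝ) ≤ k := by
    rw [Nat.cast_mul]
    refine le_trans ?_ h1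
    rw [mul_comm]
    exact mul_le_mul_of_nonneg_right (t_le hA) (Nat.cast_nonneg _)
  exact_mod_cast h10

/-- **The moment of the number of kernel vectors** (leaf L5 of the MID block). -/
theorem stmtMom : StmtMom := by
  classical
  intro g hg
  obtain ⟨k₀, hk₀⟩ := numerics hg
  refine ⟨k₀, fun k hk t p hNZ hA => ?_⟩
  obtain ⟨hk3, hn1, hn2⟩ := hk₀ k hk
  set N : ℕ := ∏ j, p j with hN
  have hN1 : 1 ≤ N := by
    rw [hN]
    exact Nat.succ_le_of_lt (prod_pos fun j _ => (hA.prime j).pos)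
  have hker : ∀ X : Fin k → Fin k → Fin 4,
      (((univ : Finset (Fin k → GG p)).filter fun w => ∀ i, gwalk (X i) w = 0).card : ℝ) =
      (N : ℝ) ^ (k - HadN.rQ (cm (st : Fin 4 → ℤ) X)) *
        ∏ j, (p j : ℝ) ^ ex (st : Fin 4 → ℤ) (p j) X := by
    intro X
    have h1 := card_ker p hA.prime X
    have h2 : (∏ j, p j ^ (k - HadN.rP (p j) (cm (st : Fin 4 → ℤ) X)) : ℕ) =
        N ^ (k - HadN.rQ (cm (st : Fin 4 → ℤ) X)) * ∏ j, p j ^ ex (st : Fin 4 → ℤ) (p j) X := by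
      rw [hN, ← Finset.prod_pow, ← prod_mul_distrib]
      refine prod_congr rfl fun j _ => ?_
      rw [← pow_add]
      congr 1
      have h3 := HadN.rP_le_rQ (hA.prime j) (cm (st : Fin 4 → ℤ) X)
      have h4 : HadN.rQ (cm (st : Fin 4 → ℤ) X) ≤ k := by
        have := Matrix.rank_le_card_width ((cm (st : Fin 4 → ℤ) X).map (Int.cast : ℤ → ℚ))
        simpa [HadN.rQ] using this
      unfold ex
      omega
    have h5 : (((univ : Finset (Fin k → GG p)).filter fun w => ∀ i, gwalk (X i) w = 0).card : ℝ) =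
        ((∏ j, p j ^ (k - HadN.rP (p j) (cm (st : Fin 4 → ℤ) X)) : ℕ) : ℝ) := by
      rw [← h1]
    rw [h5, h2]
    push_cast
    rfl
  have hbound : ∀ X : Fin k → Fin k → Fin 4,
      (((univ : Finset (Fin k → GG p)).filter fun w => ∀ i, gwalk (X i) w = 0).card : ℝ) ^ 8 ≤
      (((N : ℝ) ^ (k - HadN.rQ (cm (st : Fin 4 → ℤ) X))) ^ 16 +
        (∏ j, (p j : ℝ) ^ ex (st : Fin 4 → ℤ) (p j) X) ^ 16) / 2 := by
    intro X
    rw [hker X]
    set a := ((N : ℝ) ^ (k - HadN.rQ (cm (st : Fin 4 → ℤ) X)))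
    set b := ∏ j, (p j : ℝ) ^ ex (st : Fin 4 → ℤ) (p j) X
    nlinarith [sq_nonneg (a ^ 8 - b ^ 8)]
  have hrat := rat_part hk3 hn1 hN1 hA.prod
  have hexc := exc_part hk3 hA hn2
  have hk2 : (k : ℝ) ^ 2 ≤ 2 ^ (2 * k) := by
    have h1 : (k : ℝ) ≤ 2 ^ k := by exact_mod_cast Nat.lt_two_pow_self.le
    calc (k : ℝ) ^ 2 ≤ (2 ^ k) ^ 2 := pow_le_pow_left₀ (Nat.cast_nonneg _) h1 2
      _ = 2 ^ (2 * k) := by rw [← pow_mul, mul_comm]
  have hy : (2 : ℝ) ≤ 2 ^ k := by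
    calc (2 : ℝ) = 2 ^ 1 := by norm_num
      _ ≤ 2 ^ k := pow_le_pow_right₀ (by norm_num) (by omega)
  have h4k : (2 : ℝ) ^ (4 * k) = (2 ^ k) ^ 4 := by rw [← pow_mul, mul_comm]
  have h2k : (2 : ℝ) ^ (2 * k) = (2 ^ k) ^ 2 := by rw [← pow_mul, mul_comm]
  have hfin : 1 + (k : ℝ) ^ 2 * 2 ^ (2 * k) + 2 ^ k ≤ 2 * 2 ^ (4 * k) := by
    have h5 : (k : ℝ) ^ 2 * 2 ^ (2 * k) ≤ (2 ^ k) ^ 4 := by
      calc (k : ℝ) ^ 2 * 2 ^ (2 * k) ≤ 2 ^ (2 * k) * 2 ^ (2 * k) :=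
            mul_le_mul_of_nonneg_right hk2 (by positivity)
        _ = (2 ^ k) ^ 4 := by rw [h2k]; ring
    rw [h4k]
    have h6 : 1 + (2 : ℝ) ^ k ≤ (2 ^ k) ^ 4 := by
      have h7 : (2 : ℝ) ^ k * 2 ≤ (2 ^ k) ^ 4 := by
        have h8 : (2 : ℝ) ≤ (2 ^ k) ^ 3 := by
          calc (2 : ℝ) ≤ 2 ^ k := hy
            _ ≤ (2 ^ k) ^ 3 := le_self_pow₀ (by linarith) (by norm_num)
        calc (2 : ℝ) ^ k * 2 ≤ 2 ^ k * (2 ^ k) ^ 3 := mul_le_mul_of_nonneg_left h8 (by positivity)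
          _ = (2 ^ k) ^ 4 := by ring
      linarith
    linarith
  calc ∑ X : Fin k → Fin k → Fin 4,
      (((univ : Finset (Fin k → GG p)).filter fun w => ∀ i, gwalk (X i) w = 0).card : ℝ) ^ 8
      ≤ ∑ X : Fin k → Fin k → Fin 4,
        (((N : ℝ) ^ (k - HadN.rQ (cm (st : Fin 4 → ℤ) X))) ^ 16 +
        (∏ j, (p j : ℝ) ^ ex (st : Fin 4 → ℤ) (p j) X) ^ 16) / 2 := sum_le_sum fun X _ => hbound X
    _ = (∑ X : Fin k → Fin k → Fin 4, ((N : ℝ) ^ (k - HadN.rQ (cm (st : Fin 4 → ℤ) X))) ^ 16 +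
        ∑ X : Fin k → Fin k → Fin 4,
          (∏ j, (p j : ℝ) ^ ex (st : Fin 4 → ℤ) (p j) X) ^ 16) / 2 := by
        rw [← sum_add_distrib, ← sum_div]
    _ ≤ (4 ^ (k * k) * (1 + (k : ℝ) ^ 2 * 2 ^ (2 * k)) + 4 ^ (k * k) * 2 ^ k) / 2 := by
        linarith
    _ = 4 ^ (k * k) * ((1 + (k : ℝ) ^ 2 * 2 ^ (2 * k) + 2 ^ k) / 2) := by ring
    _ ≤ 4 ^ (k * k) * 2 ^ (4 * k) := by
        refine mul_le_mul_of_nonneg_left ?_ (by positivity)
        linarith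
    _ = 2 ^ (4 * k) * 4 ^ (k * k) := by ring

end Vale.Agent.P160.Half.Mid.Mom188
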