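import Vale.Agent.P160.Half.Mid.MidStmt
import Vale.Agent.P160.Half.Good439
import Vale.Agent.P160.Half.FlatZ

/-! # P160, rate 1/2, MID primes, leaf L4 (`StmtNF`): few matrices have a nonsparse nonflat
kernel vector. From COUNT (`Flat.countG`) and its event form (`Good439.stmtEvent`). (helper802) -/

namespace Vale.Agent.P160.Half.Mid.NF802

open Finset Vale.Agent.P160 Vale.Agent.P160.Half Vale.Agent.P160.Half.Flat
  Vale.Agent.P160.Half.Good439

/-- the law `(1/4, 1/2, 1/4)` is dominated by the lazy law -/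
lemma domL_four : DomL (fun i : Fin 4 => st i) := by
  intro G _ _ _ a y
  rw [gZ_eq]
  have h := gpr_le_gpr (M := 4) (M' := 8) le_rfl (by norm_num) (id : Fin a → Fin a)
    Function.injective_id y 0
  have h1 : gpr 4 y 0 =
      ((univ.filter fun x : Fin a → Fin 4 => ∑ c, st (x c) • y c = 0).card : ℝ) / 4 ^ a := by
    unfold gpr gwalk
    simp
  rw [h1, div_le_iff₀ (by positivity)] at h
  have h2 : (0 : ℝ) ≤ Fintype.card G := by positivity
  calc (Fintype.card G : ℝ) *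
      ((univ.filter fun x : Fin a → Fin 4 => ∑ c, st (x c) • y c = 0).card : ℝ)
      ≤ Fintype.card G * (gpr 8 (fun e => y (id e)) 0 * 4 ^ a) :=
        mul_le_mul_of_nonneg_left h h2
    _ = _ := by
        simp only [Fintype.card_fin, id]
        push_cast
        ring

/-- the restriction to the slot set `univ` -/
def toS {t : ℕ} (p : Fin t → ℕ) : GG p →+ GS p (univ : Finset (Fin t)) where
  toFun v i := v i.1
  map_zero' := rfl
  map_add' _ _ := rfl

lemma gZ_toS {t : ℕ} (p : Fin t → ℕ) [∀ j, NeZero (p j)] {k : ℕ} (w : Fin k → GG p) :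
    gZ 8 w ≤ gZ 8 (fun c => toS p (w c)) := by
  have h := gZ_map (toS p) w
  rw [card_GS] at h
  have h1 : Fintype.card (GG p) = ∏ i, p i := by
    rw [Fintype.card_pi]
    simp only [ZMod.card]
  rw [h1] at h
  have h2 : (0 : ℝ) < ((∏ i, p i : ℕ) : ℝ) := by
    have : 0 < ∏ i, p i := prod_pos fun i _ => Nat.pos_of_ne_zero (NeZero.ne _)
    exact_mod_cast this
  exact le_of_mul_le_mul_left h h2

lemma nonSp_toS {t : ℕ} (p : Fin t → ℕ) [∀ j, NeZero (p j)] (hp : ∀ j, (p j).Prime)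
    (hinj : Function.Injective p) {k : ℕ} {e : ℝ} {w : Fin k → GG p} (h : NS p e w) :
    NonSp e (fun c => toS p (w c)) := by
  classical
  intro ψ hψ
  obtain ⟨s₀, z₀, hs₀⟩ : ∃ (s₀ : {x // x ∈ (univ : Finset (Fin t))}) (z₀ : ZMod (p s₀.1)),
      ψ (Pi.single s₀ z₀) ≠ 1 := by
    by_contra hcon
    push Not at hcon
    apply hψ
    ext v
    have : v = ∑ s, Pi.single s (v s) := (Finset.univ_sum_single v).symm
    rw [this, addChar_sum, AddChar.one_apply]
    exact prod_eq_one fun s _ => hcon s (v s)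
  refine (h s₀.1).trans ?_
  refine Nat.cast_le.2 (card_le_card fun c hc => ?_)
  simp only [mem_filter, mem_univ, true_and] at hc ⊢
  intro h1
  apply hs₀
  have : Fact (p s₀.1).Prime := ⟨hp _⟩
  -- multiply by the other primes
  set N : ℕ := ∏ j ∈ univ.erase s₀.1, p j with hN
  have hNu : ((N : ℕ) : ZMod (p s₀.1)) ≠ 0 := by
    rw [Ne, ZMod.natCast_eq_zero_iff]
    intro hd
    obtain ⟨j, hj, hd'⟩ := (Prime.dvd_finsetProd_iff (hp _).prime _).1 hd
    have := (Nat.prime_dvd_prime_iff_eq (hp _) (hp _)).1 hd'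
    exact (mem_erase.1 hj).1 (hinj this).symm
  have h2 : N • toS p (w c) = Pi.single s₀ ((N : ZMod (p s₀.1)) * w c s₀.1) := by
    funext s
    by_cases hs : s = s₀
    · subst hs
      rw [Pi.single_eq_same, Pi.smul_apply, nsmul_eq_mul]
      rfl
    · rw [Pi.single_eq_of_ne hs, Pi.smul_apply, nsmul_eq_mul]
      have : ((N : ℕ) : ZMod (p s.1)) = 0 := by
        rw [ZMod.natCast_eq_zero_iff]
        refine dvd_prod_of_mem p (mem_erase.2 ⟨fun h => hs (Subtype.ext h), mem_univ _⟩)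
      rw [this, zero_mul]
  set u : ZMod (p s₀.1) := (N : ZMod (p s₀.1)) * w c s₀.1 with hu
  have hu0 : u ≠ 0 := mul_ne_zero hNu hc
  have h3 : ψ (Pi.single s₀ u) = 1 := by
    rw [← h2, AddChar.map_nsmul_eq_pow, h1, one_pow]
  have h4 : (Pi.single s₀ z₀ : GS p (univ : Finset (Fin t))) = (z₀ / u).val • Pi.single s₀ u := by
    rw [← Pi.single_smul]
    congr 1
    rw [nsmul_eq_mul, ZMod.natCast_zmod_val, div_mul_cancel₀ _ hu0]
  rw [h4, AddChar.map_nsmul_eq_pow, h3, one_pow]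

lemma adm_card {g : ℝ} {k t : ℕ} {p : Fin t → ℕ} (hg : 0 < g) (hk : 2 ≤ k) (h : Adm g k t p) :
    t ≤ k := by
  have hkr : (1 : ℝ) ≤ k := by exact_mod_cast (by omega : 1 ≤ k)
  have h1 : ((k : ℝ)) ^ t ≤ ∏ j, (p j : ℝ) := by
    calc (k : ℝ) ^ t = ∏ _j : Fin t, (k : ℝ) := by simp
      _ ≤ _ := prod_le_prod (fun _ _ => by positivity) fun j _ => by exact_mod_cast h.lo j
  have h3 : (k : ℝ) ^ (1 - g) ≤ k := by
    calc (k : ℝ) ^ (1 - g) ≤ (k : ℝ) ^ (1 : ℝ) :=
          Real.rpow_le_rpow_of_exponent_le hkr (by linarith)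
      _ = k := Real.rpow_one _
  have h2 : (2 : ℝ) ^ t ≤ (2 : ℝ) ^ k := by
    calc (2 : ℝ) ^ t ≤ (k : ℝ) ^ t := pow_le_pow_left₀ (by norm_num) (by exact_mod_cast hk) t
      _ ≤ ((∏ j, p j : ℕ) : ℝ) := by push_cast; exact h1
      _ ≤ (2 : ℝ) ^ ((k : ℝ) ^ (1 - g)) := h.prod
      _ ≤ (2 : ℝ) ^ (k : ℝ) := Real.rpow_le_rpow_of_exponent_le (by norm_num) h3
      _ = 2 ^ k := Real.rpow_natCast _ _
  exact (pow_le_pow_iff_right₀ (by norm_num : (1 : ℝ) < 2)).1 h2

lemma adm_vol {g : ℝ} {k t : ℕ} {p : Fin t → ℕ} (hk : 1 ≤ k) (h7 : 7 ≤ (k : ℝ) ^ g)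
    (h : Adm g k t p) :
    ((∏ i, p i : ℕ) : ℝ) * (3 / 4) ^ k ≤ Real.exp (-(1 / 10) * k) := by
  have hk0 : (0 : ℝ) < k := by exact_mod_cast (by omega : 0 < k)
  have h1 : (k : ℝ) ^ (1 - g) ≤ k / 7 := by
    rw [Real.rpow_sub hk0, Real.rpow_one]
    exact div_le_div_of_nonneg_left hk0.le (by norm_num) h7
  have h2 : (2 : ℝ) ^ ((k : ℝ) ^ (1 - g)) ≤ Real.exp (k / 7) := by
    rw [Real.rpow_def_of_pos (by norm_num)]
    refine Real.exp_le_exp.2 ?_
    have h3 : Real.log 2 ≤ 1 := by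
      have := Real.log_le_sub_one_of_pos (by norm_num : (0 : ℝ) < 2)
      linarith
    have h4 : 0 ≤ (k : ℝ) ^ (1 - g) := by positivity
    nlinarith
  have h5 : ((3 : ℝ) / 4) ^ k ≤ Real.exp (-(1 / 4) * k) := by
    have h6 : (3 : ℝ) / 4 ≤ Real.exp (-(1 / 4)) := by
      have := Real.add_one_le_exp (-(1 / 4) : ℝ)
      linarith
    calc ((3 : ℝ) / 4) ^ k ≤ Real.exp (-(1 / 4)) ^ k := pow_le_pow_left₀ (by norm_num) h6 k
      _ = _ := by rw [← Real.exp_nat_mul, mul_comm]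
  calc ((∏ i, p i : ℕ) : ℝ) * (3 / 4) ^ k ≤ Real.exp (k / 7) * Real.exp (-(1 / 4) * k) :=
        mul_le_mul (h.prod.trans h2) h5 (by positivity) (Real.exp_pos _).le
    _ = Real.exp (k / 7 + -(1 / 4) * k) := (Real.exp_add _ _).symm
    _ ≤ _ := Real.exp_le_exp.2 (by linarith)

/-- **L4 (NF)** -/
theorem stmtNF : StmtNF := by
  intro g c hg hc hc2
  classical
  set δ : ℝ := (1 / 2 - c) / 2 with hδ
  have hδ0 : 0 < δ := by rw [hδ]; linarith
  have hδ1 : δ ≤ 1 := by rw [hδ]; linarith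
  obtain ⟨k₁, h₁⟩ := stmtEvent countG δ (1 / 10) 4 hδ0 hδ1 (by norm_num) (by norm_num)
  have hev : ∀ᶠ k : ℕ in Filter.atTop, (7 : ℝ) ≤ (k : ℝ) ^ g :=
    ((tendsto_rpow_atTop hg).comp tendsto_natCast_atTop_atTop).eventually_ge_atTop 7
  obtain ⟨k₂, h₂⟩ := Filter.eventually_atTop.1 hev
  refine ⟨δ / 4, by positivity, max (max k₁ k₂) 2, ?_⟩
  intro k hk t p _ hA
  have hk₁ : k₁ ≤ k := le_trans (le_trans (le_max_left _ _) (le_max_left _ _)) hk
  have hk₂ : k₂ ≤ k := le_trans (le_trans (le_max_right _ _) (le_max_left _ _)) hk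
  have hk2 : 2 ≤ k := le_trans (le_max_right _ _) hk
  have hkr : (2 : ℝ) ≤ k := by exact_mod_cast hk2
  have hk0 : (0 : ℝ) < k := by linarith
  have key := h₁ k hk₁ k le_rfl (by linarith) (Fin t) p
    (by rw [Fintype.card_fin]; exact adm_card hg hk2 hA)
    (fun i => ⟨hA.prime i, hA.lo i, by
      have h3 : (p i : ℝ) ≤ (k : ℝ) ^ 3 := by exact_mod_cast hA.hi i
      have h4 : (k : ℝ) ^ (4 : ℝ) = (k : ℝ) ^ 3 * k := by
        rw [show (4 : ℝ) = ((4 : ℕ) : ℝ) by norm_num, Real.rpow_natCast]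
        ring
      rw [h4]
      have h5 : (0 : ℝ) ≤ (k : ℝ) ^ 3 := by positivity
      nlinarith⟩)
    (adm_vol (by omega) (h₂ k hk₂) hA) (Fin 4) (fun i => st i) domL_four
  have h3 : ((k : ℝ) ^ (-(1 / 2) + 2 * δ)) ^ k = (k : ℝ) ^ (-(c * k)) := by
    rw [← Real.rpow_natCast, ← Real.rpow_mul hk0.le]
    congr 1
    rw [hδ]
    ring
  rw [h3, Fintype.card_fin, mul_comm] at key
  refine le_trans (Nat.cast_le.2 ?_) (key.trans (le_of_eq (by norm_num)))
  rw [Nat.card_eq_fintype_card, Fintype.card_subtype]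
  refine card_le_card fun X hX => ?_
  simp only [mem_filter, mem_univ, true_and] at hX ⊢
  obtain ⟨w, hw1, hw2, hw3⟩ := hX
  refine ⟨univ, fun c => toS p (w c), nonSp_toS p hA.prime hA.inj hw1, ?_, fun j => ?_⟩
  · have h4 := gZ_toS p w
    have h5 : 1 / (k : ℝ) ≤ 1 := by
      rw [div_le_one hk0]
      linarith
    linarith
  · have h4 := congrArg (toS p) (hw3 j)
    unfold gwalk at h4
    rw [map_sum, map_zero] at h4
    rw [← h4]
    exact sum_congr rfl fun c _ => (map_zsmul _ _ _).symm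

end Vale.Agent.P160.Half.Mid.NF802
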