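import Mathlib

/-! # P160, MID, item (0) of the note 11260: the pigeonhole

Fixed ranges of primes and fixed blocks inside each range; if many indices `j` are hit by many
primes `p`, some block has many incidences. -/

set_option linter.unusedSectionVars false

namespace Vale.Agent.P160.Half.Mid.Pig767

open Finset Filter

/-- cover of a finite set by few small blocks -/
theorem blocks (t : ℕ) (ht : 0 < t) : ∀ (N : ℕ) (R : Finset ℕ), R.card ≤ N →
    ∃ BB : Finset (Finset ℕ), (∀ B ∈ BB, B ⊆ R ∧ B.card ≤ t) ∧ BB.card ≤ R.card / t + 1 ∧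
      ∀ x ∈ R, ∃ B ∈ BB, x ∈ B := by
  classical
  intro N
  induction N with
  | zero =>
    intro R hR
    have hR0 : R = ∅ := card_eq_zero.1 (by omega)
    subst hR0
    exact ⟨∅, by simp, by simp, by simp⟩
  | succ N ih =>
    intro R hR
    rcases le_or_gt R.card t with h | h
    · refine ⟨{R}, ?_, ?_, ?_⟩
      · intro B hB
        rw [mem_singleton] at hB
        subst hB
        exact ⟨subset_rfl, h⟩
      · rw [card_singleton]
        exact Nat.le_add_left 1 _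
      · intro x hx
        exact ⟨R, mem_singleton_self _, hx⟩
    · obtain ⟨B0, hB0, hc⟩ := Finset.exists_subset_card_eq h.le
      have h1 : (R \ B0).card = R.card - t := by rw [card_sdiff_of_subset hB0, hc]
      obtain ⟨BB, h2, h3, h4⟩ := ih (R \ B0) (by omega)
      refine ⟨insert B0 BB, ?_, ?_, ?_⟩
      · intro B hB
        rcases mem_insert.1 hB with rfl | hB
        · exact ⟨hB0, hc.le⟩
        · exact ⟨(h2 B hB).1.trans sdiff_subset, (h2 B hB).2⟩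
      · refine (card_insert_le _ _).trans ?_
        rw [h1] at h3
        have h5 : (R.card - t) / t + 1 = R.card / t := by
          have h6 := Nat.sub_mul_div_of_le R.card t 1 (by omega)
          rw [mul_one] at h6
          have h7 : 1 ≤ R.card / t := (Nat.one_le_div_iff ht).2 h.le
          omega
        omega
      · intro x hx
        by_cases hxB : x ∈ B0
        · exact ⟨B0, mem_insert_self _ _, hxB⟩
        · obtain ⟨B, hB, hxB'⟩ := h4 x (mem_sdiff.2 ⟨hx, hxB⟩)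
          exact ⟨B, mem_insert_of_mem hB, hxB'⟩

theorem sum_biUnion_le' {ι : Type*} [DecidableEq ι] (s : Finset ι) (t : ι → Finset ℕ) (f : ℕ → ℕ) :
    ∑ x ∈ s.biUnion t, f x ≤ ∑ i ∈ s, ∑ x ∈ t i, f x := by
  induction s using Finset.induction_on with
  | empty => simp
  | insert a s ha ih =>
    rw [biUnion_insert, sum_insert ha]
    have h := sum_union_inter (s₁ := t a) (s₂ := s.biUnion t) (f := f)
    omega

/-- the exponents -/
noncomputable def be (δ : ℝ) (i : ℕ) : ℝ := 1 + i * δ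

open Classical in
/-- primes in the range `[n^b, n^(b+δ))`, `b = 1 + i δ` -/
noncomputable def Rg (δ : ℝ) (n i : ℕ) : Finset ℕ :=
  (Finset.range ⌈(n : ℝ) ^ (be δ i + δ)⌉₊).filter fun p => p.Prime ∧ (n : ℝ) ^ (be δ i) ≤ p

theorem mem_Rg {δ : ℝ} {n i p : ℕ} :
    p ∈ Rg δ n i ↔ (p : ℝ) < (n : ℝ) ^ (be δ i + δ) ∧ p.Prime ∧ (n : ℝ) ^ (be δ i) ≤ p := by
  classical
  unfold Rg
  rw [mem_filter, mem_range, Nat.lt_ceil]

theorem card_Rg (δ : ℝ) (n i : ℕ) : ((Rg δ n i).card : ℝ) ≤ (n : ℝ) ^ (be δ i + δ) + 1 := by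
  classical
  have h1 : (Rg δ n i).card ≤ ⌈(n : ℝ) ^ (be δ i + δ)⌉₊ := by
    unfold Rg
    refine (card_filter_le _ _).trans ?_
    rw [card_range]
  have h2 : ((⌈(n : ℝ) ^ (be δ i + δ)⌉₊ : ℕ) : ℝ) < (n : ℝ) ^ (be δ i + δ) + 1 :=
    Nat.ceil_lt_add_one (by positivity)
  have h3 : ((Rg δ n i).card : ℝ) ≤ ((⌈(n : ℝ) ^ (be δ i + δ)⌉₊ : ℕ) : ℝ) := by exact_mod_cast h1
  linarith

/-- every number in `[n, n^(2-6δ)]` lies in one of the ranges -/
theorem exists_range {δ : ℝ} (hδ : 0 < δ) (m : ℕ) (hm : 1 / δ - 6 < m) {n : ℕ} (hn : 2 ≤ n)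
    {p : ℕ} (hp : n ≤ p) (hp2 : (p : ℝ) ≤ (n : ℝ) ^ (2 - 6 * δ)) :
    ∃ i < m, (n : ℝ) ^ (be δ i) ≤ p ∧ (p : ℝ) < (n : ℝ) ^ (be δ i + δ) := by
  have hn1 : (1 : ℝ) < n := by exact_mod_cast (by omega : 1 < n)
  have hn0 : (0 : ℝ) < n := by linarith
  have hp0 : (0 : ℝ) < p := by
    have : 0 < p := by omega
    exact_mod_cast this
  have hln : 0 < Real.log n := Real.log_pos hn1
  set x : ℝ := Real.log p / Real.log n with hx
  have hpx : (p : ℝ) = (n : ℝ) ^ x := by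
    rw [Real.rpow_def_of_pos hn0, hx, mul_div_cancel₀ _ hln.ne', Real.exp_log hp0]
  have hx1 : 1 ≤ x := by
    rw [hx, le_div_iff₀ hln, one_mul]
    exact Real.log_le_log hn0 (by exact_mod_cast hp)
  have hx2 : x ≤ 2 - 6 * δ := by
    rw [hpx] at hp2
    exact (Real.rpow_le_rpow_left_iff hn1).1 hp2
  have hy0 : 0 ≤ (x - 1) / δ := div_nonneg (by linarith) hδ.le
  refine ⟨⌊(x - 1) / δ⌋₊, ?_, ?_, ?_⟩
  · rw [Nat.floor_lt hy0]
    refine lt_of_le_of_lt ?_ hm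
    rw [div_le_iff₀ hδ, sub_mul, div_mul_cancel₀ _ hδ.ne']
    linarith
  · rw [hpx]
    refine Real.rpow_le_rpow_of_exponent_le hn1.le ?_
    have h1 := Nat.floor_le hy0
    rw [le_div_iff₀ hδ] at h1
    unfold be
    linarith
  · rw [hpx]
    refine Real.rpow_lt_rpow_of_exponent_lt hn1 ?_
    have h1 := Nat.lt_floor_add_one ((x - 1) / δ)
    rw [div_lt_iff₀ hδ] at h1
    unfold be
    linarith

open Classical in
/-- **The pigeonhole.** -/
theorem pigeon (ε θ η : ℝ) (hε : 0 < ε) (hθ : 0 < θ) (hη : 0 < η) (hη1 : η ≤ 1) :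
    ∃ m n₀ : ℕ, (∀ i < m, 1 ≤ be (η / 6) i ∧ be (η / 6) i ≤ 2 - 5 * (η / 6)) ∧
      ∀ n : ℕ, n₀ ≤ n → ∃ BB : Finset (ℕ × Finset ℕ), BB.card ≤ n ^ 2 ∧
        (∀ x ∈ BB, x.1 < m ∧ (∀ p ∈ x.2, p.Prime ∧ (n : ℝ) ^ (be (η / 6) x.1) ≤ p ∧
            (p : ℝ) < (n : ℝ) ^ (be (η / 6) x.1 + η / 6)) ∧
          (x.2.card : ℝ) ≤ (n : ℝ) ^ (be (η / 6) x.1 - 1 + 3 * (η / 6)) + 1) ∧
        ∀ Z : ℕ → Finset (Fin n),
          θ * n < ((univ.filter fun j : Fin n => ε * n <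
            (((range (n ^ 2 + 1)).filter fun p => p.Prime ∧ n ≤ p ∧ (p : ℝ) ≤ (n : ℝ) ^ (2 - η) ∧
              j ∈ Z p).card : ℝ)).card : ℝ) →
          ∃ x ∈ BB, (n : ℝ) ^ (1 + η / 6) ≤ ((∑ p ∈ x.2, (Z p).card : ℕ) : ℝ) := by
  set δ : ℝ := η / 6 with hδd
  have hδ : 0 < δ := by positivity
  have hδ6 : η = 6 * δ := by rw [hδd]; ring
  have hδ1 : 6 ≤ 1 / δ := by
    rw [le_div_iff₀ hδ]
    linarith
  set m : ℕ := ⌊1 / δ⌋₊ - 4 with hm
  have hfl : 6 ≤ ⌊1 / δ⌋₊ := Nat.le_floor (by exact_mod_cast hδ1)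
  have hm1 : (m : ℝ) = (⌊1 / δ⌋₊ : ℝ) - 4 := by
    rw [hm, Nat.cast_sub (by omega)]
    norm_num
  have hm2 : 1 / δ - 6 < m := by
    rw [hm1]
    have := Nat.lt_floor_add_one (1 / δ)
    linarith
  have hm3 : (m : ℝ) ≤ 1 / δ - 4 := by
    rw [hm1]
    have := Nat.floor_le (show 0 ≤ 1 / δ by positivity)
    linarith
  -- large `n`
  have hev : ∀ᶠ n : ℕ in atTop, 3 * (m : ℝ) / (ε * θ) ≤ (n : ℝ) ^ δ :=
    ((tendsto_rpow_atTop hδ).comp tendsto_natCast_atTop_atTop).eventually_ge_atTop _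
  obtain ⟨n₁, hn₁⟩ := eventually_atTop.1 hev
  refine ⟨m, max (max n₁ 2) (3 * m), ?_, ?_⟩
  · intro i hi
    unfold be
    constructor
    · have : 0 ≤ (i : ℝ) * δ := by positivity
      linarith
    · have h1 : (i : ℝ) + 1 ≤ m := by exact_mod_cast hi
      have h2 : (i : ℝ) + 1 ≤ 1 / δ - 4 := h1.trans hm3
      have h3 : ((i : ℝ) + 5) * δ ≤ 1 := by
        have h4 : (i : ℝ) + 5 ≤ 1 / δ := by linarith
        rwa [le_div_iff₀ hδ] at h4
      linarith
  intro n hn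
  have hnn1 : n₁ ≤ n := (le_max_left _ _).trans ((le_max_left _ _).trans hn)
  have hnn2 : 2 ≤ n := (le_max_right _ _).trans ((le_max_left _ _).trans hn)
  have hnn3 : 3 * m ≤ n := (le_max_right _ _).trans hn
  have hn0 : (0 : ℝ) < n := by exact_mod_cast (by omega : 0 < n)
  have hn1 : (1 : ℝ) ≤ n := by exact_mod_cast (by omega : 1 ≤ n)
  -- the blocks
  have hb : ∀ i : ℕ, ∃ BB : Finset (Finset ℕ),
      (∀ B ∈ BB, B ⊆ Rg δ n i ∧ (B.card : ℝ) ≤ (n : ℝ) ^ (be δ i - 1 + 3 * δ) + 1) ∧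
      (BB.card : ℝ) ≤ 3 * (n : ℝ) ^ (1 - 2 * δ) ∧ ∀ x ∈ Rg δ n i, ∃ B ∈ BB, x ∈ B := by
    intro i
    set t : ℕ := ⌈(n : ℝ) ^ (be δ i - 1 + 3 * δ)⌉₊ with ht
    have hpow : 0 < (n : ℝ) ^ (be δ i - 1 + 3 * δ) := by positivity
    have ht0 : 0 < t := Nat.ceil_pos.2 hpow
    obtain ⟨BB, h1, h2, h3⟩ := blocks t ht0 _ (Rg δ n i) le_rfl
    refine ⟨BB, fun B hB => ⟨(h1 B hB).1, ?_⟩, ?_, h3⟩
    · have h4 : (B.card : ℝ) ≤ t := by exact_mod_cast (h1 B hB).2
      have h5 : (t : ℝ) < (n : ℝ) ^ (be δ i - 1 + 3 * δ) + 1 := Nat.ceil_lt_add_one hpow.le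
      linarith
    · have h4 : (BB.card : ℝ) ≤ (((Rg δ n i).card / t : ℕ) : ℝ) + 1 := by exact_mod_cast h2
      have h5 : (((Rg δ n i).card / t : ℕ) : ℝ) ≤ ((Rg δ n i).card : ℝ) / t := Nat.cast_div_le
      have h6 : ((Rg δ n i).card : ℝ) / t ≤
          ((n : ℝ) ^ (be δ i + δ) + 1) / (n : ℝ) ^ (be δ i - 1 + 3 * δ) :=
        div_le_div₀ (by positivity) (card_Rg δ n i) hpow (Nat.le_ceil _)
      have hbe : 0 ≤ be δ i := by unfold be; positivity
      have h7 : (n : ℝ) ^ (be δ i + δ) + 1 ≤ 2 * (n : ℝ) ^ (be δ i + δ) := by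
        have : 1 ≤ (n : ℝ) ^ (be δ i + δ) := Real.one_le_rpow hn1 (by positivity)
        linarith
      have h8 : (2 * (n : ℝ) ^ (be δ i + δ)) / (n : ℝ) ^ (be δ i - 1 + 3 * δ) =
          2 * (n : ℝ) ^ (1 - 2 * δ) := by
        rw [mul_div_assoc, ← Real.rpow_sub hn0]
        congr 2
        ring
      have h9 : ((n : ℝ) ^ (be δ i + δ) + 1) / (n : ℝ) ^ (be δ i - 1 + 3 * δ) ≤
          2 * (n : ℝ) ^ (1 - 2 * δ) := by
        rw [← h8]
        exact div_le_div_of_nonneg_right h7 hpow.le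
      have h10 : 1 ≤ (n : ℝ) ^ (1 - 2 * δ) := Real.one_le_rpow hn1 (by linarith)
      linarith
  choose F hF1 hF2 hF3 using hb
  refine ⟨(range m).biUnion fun i => (F i).image fun B => (i, B), ?_, ?_, ?_⟩
  · -- number of blocks
    have h1 : ((((range m).biUnion fun i => (F i).image fun B => (i, B)).card : ℕ) : ℝ) ≤
        (n : ℝ) ^ 2 := by
      have h2 : ((range m).biUnion fun i => (F i).image fun B => (i, B)).card ≤
          ∑ i ∈ range m, (F i).card :=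
        card_biUnion_le.trans (sum_le_sum fun i _ => card_image_le)
      have h3 : ((∑ i ∈ range m, (F i).card : ℕ) : ℝ) ≤ ∑ i ∈ range m, (3 * (n : ℝ)) := by
        push_cast
        refine sum_le_sum fun i _ => (hF2 i).trans ?_
        have : (n : ℝ) ^ (1 - 2 * δ) ≤ (n : ℝ) ^ (1 : ℝ) :=
          Real.rpow_le_rpow_of_exponent_le hn1 (by linarith)
        rw [Real.rpow_one] at this
        linarith
      rw [sum_const, card_range, nsmul_eq_mul] at h3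
      have h4 : 3 * (m : ℝ) ≤ n := by exact_mod_cast hnn3
      have h5 : ((((range m).biUnion fun i => (F i).image fun B => (i, B)).card : ℕ) : ℝ) ≤
          ((∑ i ∈ range m, (F i).card : ℕ) : ℝ) := by exact_mod_cast h2
      nlinarith
    exact_mod_cast h1
  · intro x hx
    obtain ⟨i, hi, hx2⟩ := mem_biUnion.1 hx
    obtain ⟨B, hB, rfl⟩ := mem_image.1 hx2
    refine ⟨mem_range.1 hi, fun p hp => ?_, (hF1 i B hB).2⟩
    have := mem_Rg.1 ((hF1 i B hB).1 hp)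
    exact ⟨this.2.1, this.2.2, this.1⟩
  · intro Z hZ
    by_contra hcon
    push Not at hcon
    set PR := (range (n ^ 2 + 1)).filter fun p => p.Prime ∧ n ≤ p ∧ (p : ℝ) ≤ (n : ℝ) ^ (2 - η)
      with hPR
    -- double counting
    have hdc : ∑ p ∈ PR, (Z p).card = ∑ j : Fin n, (PR.filter fun p => j ∈ Z p).card := by
      have h1 : ∀ p, (Z p).card = ∑ j : Fin n, if j ∈ Z p then 1 else 0 := by
        intro p
        rw [Finset.sum_boole]
        simp
      have h2 : ∀ j : Fin n, (PR.filter fun p => j ∈ Z p).card = ∑ p ∈ PR, if j ∈ Z p then 1 else 0 := by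
        intro j
        rw [Finset.sum_boole]
        simp
      simp only [h1, h2]
      exact sum_comm
    set J := univ.filter fun j : Fin n => ε * n <
            (((range (n ^ 2 + 1)).filter fun p => p.Prime ∧ n ≤ p ∧ (p : ℝ) ≤ (n : ℝ) ^ (2 - η) ∧
              j ∈ Z p).card : ℝ) with hJ
    have hlow : (J.card : ℝ) * (ε * n) ≤ ((∑ p ∈ PR, (Z p).card : ℕ) : ℝ) := by
      rw [hdc]
      push_cast
      calc (J.card : ℝ) * (ε * n) = ∑ j ∈ J, (ε * n) := by rw [sum_const, nsmul_eq_mul]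
        _ ≤ ∑ j ∈ J, ((PR.filter fun p => j ∈ Z p).card : ℝ) := by
          refine sum_le_sum fun j hj => ?_
          have h1 := (mem_filter.1 hj).2
          have h2 : PR.filter (fun p => j ∈ Z p) =
              (range (n ^ 2 + 1)).filter fun p => p.Prime ∧ n ≤ p ∧ (p : ℝ) ≤ (n : ℝ) ^ (2 - η) ∧
              j ∈ Z p := by
            rw [hPR, filter_filter]
            refine filter_congr fun p _ => ?_
            tauto
          rw [h2]
          exact h1.le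
        _ ≤ ∑ j : Fin n, ((PR.filter fun p => j ∈ Z p).card : ℝ) :=
          sum_le_sum_of_subset_of_nonneg (subset_univ _) fun _ _ _ => Nat.cast_nonneg _
    have hup : ((∑ p ∈ PR, (Z p).card : ℕ) : ℝ) ≤ ∑ i ∈ range m, ∑ B ∈ F i,
        ((∑ p ∈ B, (Z p).card : ℕ) : ℝ) := by
      have h1 : PR ⊆ (range m).biUnion fun i => (F i).biUnion fun B => B := by
        intro p hp
        obtain ⟨-, hp1, hp2, hp3⟩ := mem_filter.1 hp
        rw [hδ6] at hp3
        obtain ⟨i, hi, h4, h5⟩ := exists_range hδ m hm2 hnn2 hp2 hp3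
        obtain ⟨B, hB, hpB⟩ := hF3 i p (mem_Rg.2 ⟨h5, hp1, h4⟩)
        exact mem_biUnion.2 ⟨i, mem_range.2 hi, mem_biUnion.2 ⟨B, hB, hpB⟩⟩
      have h2 : ∑ p ∈ PR, (Z p).card ≤ ∑ i ∈ range m, ∑ B ∈ F i, ∑ p ∈ B, (Z p).card := by
        refine (sum_le_sum_of_subset h1).trans ?_
        refine (sum_biUnion_le' _ _ _).trans (sum_le_sum fun i _ => ?_)
        exact sum_biUnion_le' _ _ _
      exact_mod_cast h2
    have hup2 : ∑ i ∈ range m, ∑ B ∈ F i, ((∑ p ∈ B, (Z p).card : ℕ) : ℝ) ≤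
        ∑ i ∈ range m, ∑ B ∈ F i, (n : ℝ) ^ (1 + δ) := by
      refine sum_le_sum fun i hi => sum_le_sum fun B hB => ?_
      exact (hcon (i, B) (mem_biUnion.2 ⟨i, hi, mem_image.2 ⟨B, hB, rfl⟩⟩)).le
    have hup3 : ∑ i ∈ range m, ∑ B ∈ F i, (n : ℝ) ^ (1 + δ) ≤
        m * (3 * (n : ℝ) ^ (1 - 2 * δ) * (n : ℝ) ^ (1 + δ)) := by
      calc ∑ i ∈ range m, ∑ B ∈ F i, (n : ℝ) ^ (1 + δ)
          ≤ ∑ i ∈ range m, (3 * (n : ℝ) ^ (1 - 2 * δ) * (n : ℝ) ^ (1 + δ)) := by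
            refine sum_le_sum fun i _ => ?_
            rw [sum_const, nsmul_eq_mul]
            exact mul_le_mul_of_nonneg_right (hF2 i) (by positivity)
        _ = _ := by rw [sum_const, card_range, nsmul_eq_mul]
    have h1 : (n : ℝ) ^ (1 - 2 * δ) * (n : ℝ) ^ (1 + δ) * (n : ℝ) ^ δ = (n : ℝ) ^ 2 := by
      rw [← Real.rpow_add hn0, ← Real.rpow_add hn0, ← Real.rpow_natCast]
      congr 1
      push_cast
      ring
    have h2 := hn₁ n hnn1
    rw [div_le_iff₀ (by positivity)] at h2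
    have h3 : (θ * n) * (ε * n) < (J.card : ℝ) * (ε * n) :=
      mul_lt_mul_of_pos_right hZ (by positivity)
    have h4 : (m : ℝ) * (3 * (n : ℝ) ^ (1 - 2 * δ) * (n : ℝ) ^ (1 + δ)) ≤ (θ * n) * (ε * n) := by
      calc (m : ℝ) * (3 * (n : ℝ) ^ (1 - 2 * δ) * (n : ℝ) ^ (1 + δ))
          = (3 * m) * ((n : ℝ) ^ (1 - 2 * δ) * (n : ℝ) ^ (1 + δ)) := by ring
        _ ≤ ((n : ℝ) ^ δ * (ε * θ)) * ((n : ℝ) ^ (1 - 2 * δ) * (n : ℝ) ^ (1 + δ)) :=
          mul_le_mul_of_nonneg_right h2 (by positivity)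
        _ = (ε * θ) * ((n : ℝ) ^ (1 - 2 * δ) * (n : ℝ) ^ (1 + δ) * (n : ℝ) ^ δ) := by ring
        _ = (θ * n) * (ε * n) := by rw [h1]; ring
    linarith

end Vale.Agent.P160.Half.Mid.Pig767
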