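import Vale.Agent.P160.Half.Mid.MidStmt
import Vale.Agent.P160.Half.Mid.Pig767

set_option linter.unusedSectionVars false

/-! # P160, rate 1/2, MID: the choice of a block of primes in the form `StmtPig` (helper184) -/

namespace Vale.Agent.P160.Half.Mid184

open Finset Vale.Agent.P160.Half.Mid

open Classical in
theorem stmtPig : StmtPig := by
  intro ε θ η hε hθ hη hη1
  obtain ⟨m, n₀, hm, h⟩ := Pig767.pigeon ε θ η hε hθ hη hη1.le
  set δ : ℝ := η / 6 with hδ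
  have hδ0 : 0 < δ := by positivity
  have hδ6 : δ < 1 / 6 := by
    rw [hδ]
    linarith
  refine ⟨δ / 4, by positivity, by linarith, n₀ + ⌈(8 / δ) ^ (4 / δ)⌉₊ + 2, fun n hn => ?_⟩
  have hn0 : n₀ ≤ n := by omega
  have hn2 : 2 ≤ n := by omega
  have hnR : (0 : ℝ) < n := by exact_mod_cast (by omega : 0 < n)
  have hn1 : (1 : ℝ) ≤ n := by exact_mod_cast (by omega : 1 ≤ n)
  have hy : 8 / δ ≤ (n : ℝ) ^ (δ / 4) := by
    have h1 : (8 / δ) ^ (4 / δ) ≤ (n : ℝ) := by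
      refine (Nat.le_ceil _).trans ?_
      exact_mod_cast (by omega : ⌈(8 / δ) ^ (4 / δ)⌉₊ ≤ n)
    have h2 := Real.rpow_le_rpow (by positivity) h1 (by positivity : 0 ≤ δ / 4)
    rwa [← Real.rpow_mul (by positivity), show 4 / δ * (δ / 4) = 1 by field_simp, Real.rpow_one] at h2
  have hy48 : (48 : ℝ) ≤ (n : ℝ) ^ (δ / 4) := by
    refine le_trans ?_ hy
    rw [le_div_iff₀ hδ0]
    linarith
  have hlog : Real.logb 2 n ≤ (n : ℝ) ^ (δ / 2) := by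
    have h1 : Real.log n ≤ (n : ℝ) ^ (δ / 4) / (δ / 4) := Real.log_le_rpow_div hnR.le (by positivity)
    have h2 : (1 / 2 : ℝ) ≤ Real.log 2 := by
      have := Real.log_two_gt_d9
      linarith
    have h3 : 0 ≤ Real.log n := Real.log_nonneg hn1
    unfold Real.logb
    rw [div_le_iff₀ (by linarith)]
    have h4 : (n : ℝ) ^ (δ / 2) = (n : ℝ) ^ (δ / 4) * (n : ℝ) ^ (δ / 4) := by
      rw [← Real.rpow_add hnR]
      congr 1
      ring
    have h5 : (n : ℝ) ^ (δ / 4) / (δ / 4) = (1 / 2) * ((n : ℝ) ^ (δ / 4) * (8 / δ)) := by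
      field_simp
      ring
    have h6 : (n : ℝ) ^ (δ / 4) * (8 / δ) ≤ (n : ℝ) ^ (δ / 4) * (n : ℝ) ^ (δ / 4) :=
      mul_le_mul_of_nonneg_left hy (by positivity)
    have h7 : (0 : ℝ) ≤ (n : ℝ) ^ (δ / 4) * (n : ℝ) ^ (δ / 4) := by positivity
    rw [h4]
    nlinarith
  obtain ⟨BB, hBc, hBB, hBZ⟩ := h n hn0
  refine ⟨BB.image Prod.snd, ?_, ?_, ?_⟩
  · have h1 : ((BB.image Prod.snd).card : ℝ) ≤ ((n ^ 2 : ℕ) : ℝ) := by exact_mod_cast card_image_le.trans hBc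
    refine h1.trans ?_
    push_cast
    exact pow_le_pow_right₀ hn1 (by norm_num)
  · intro P hP
    obtain ⟨x, hx, rfl⟩ := mem_image.1 hP
    obtain ⟨hx1, hx2, hx3⟩ := hBB x hx
    obtain ⟨hb1, hb2⟩ := hm x.1 hx1
    have hq : ∀ q ∈ x.2, q.Prime ∧ n ≤ q ∧ q ≤ n ^ 2 := by
      intro q hq
      obtain ⟨q1, q2, q3⟩ := hx2 q hq
      refine ⟨q1, ?_, ?_⟩
      · have h1 : (n : ℝ) ≤ (n : ℝ) ^ (Pig767.be δ x.1) := by
          calc (n : ℝ) = (n : ℝ) ^ (1 : ℝ) := (Real.rpow_one _).symm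
            _ ≤ _ := Real.rpow_le_rpow_of_exponent_le hn1 hb1
        exact_mod_cast h1.trans q2
      · have h1 : (n : ℝ) ^ (Pig767.be δ x.1 + δ) ≤ (n : ℝ) ^ (2 : ℝ) :=
          Real.rpow_le_rpow_of_exponent_le hn1 (by linarith)
        have h2 : (q : ℝ) ≤ (n : ℝ) ^ (2 : ℕ) := by
          rw [← Real.rpow_natCast]
          exact_mod_cast (q3.trans_le h1).le
        exact_mod_cast h2
    refine ⟨hq, ?_⟩
    have h1 : ∏ q ∈ x.2, q ≤ (n ^ 2) ^ x.2.card := prod_le_pow_card _ _ _ fun q hq' => (hq q hq').2.2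
    have h2 : ((∏ q ∈ x.2, q : ℕ) : ℝ) ≤ (((n ^ 2) ^ x.2.card : ℕ) : ℝ) := by exact_mod_cast h1
    refine h2.trans ?_
    have h3 : (((n ^ 2) ^ x.2.card : ℕ) : ℝ) = (2 : ℝ) ^ (Real.logb 2 n * (2 * x.2.card)) := by
      rw [Real.rpow_mul (by norm_num), Real.rpow_logb (by norm_num) (by norm_num) hnR]
      push_cast
      rw [← pow_mul, ← Real.rpow_natCast]
      push_cast
      rfl
    rw [h3]
    refine Real.rpow_le_rpow_of_exponent_le (by norm_num) ?_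
    have h4 : (n : ℝ) ^ (Pig767.be δ x.1 - 1 + 3 * δ) ≤ (n : ℝ) ^ (1 - 2 * δ) :=
      Real.rpow_le_rpow_of_exponent_le hn1 (by linarith)
    have h5 : (1 : ℝ) ≤ (n : ℝ) ^ (1 - 2 * δ) := Real.one_le_rpow hn1 (by linarith)
    have h6 : (x.2.card : ℝ) ≤ 2 * (n : ℝ) ^ (1 - 2 * δ) := by linarith
    have h7 : 0 ≤ Real.logb 2 n := Real.logb_nonneg (by norm_num) hn1
    calc Real.logb 2 n * (2 * x.2.card) ≤ (n : ℝ) ^ (δ / 2) * (2 * (2 * (n : ℝ) ^ (1 - 2 * δ))) := by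
          refine mul_le_mul hlog ?_ (by positivity) (by positivity)
          linarith
      _ = 4 * ((n : ℝ) ^ (δ / 2) * (n : ℝ) ^ (1 - 2 * δ)) := by ring
      _ ≤ ((n : ℝ) ^ (δ / 4)) * ((n : ℝ) ^ (δ / 2) * (n : ℝ) ^ (1 - 2 * δ)) := by
          refine mul_le_mul_of_nonneg_right (by linarith) (by positivity)
      _ = (n : ℝ) ^ (δ / 4 + (δ / 2 + (1 - 2 * δ))) := by
          rw [Real.rpow_add hnR, Real.rpow_add hnR]
      _ ≤ (n : ℝ) ^ (1 - 2 * (δ / 4)) := Real.rpow_le_rpow_of_exponent_le hn1 (by linarith)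
  · intro Z hZ
    obtain ⟨x, hx, hxs⟩ := hBZ Z hZ
    obtain ⟨hx1, hx2, hx3⟩ := hBB x hx
    obtain ⟨hb1, hb2⟩ := hm x.1 hx1
    push_cast at hxs
    refine ⟨x.2, mem_image_of_mem _ hx, ?_, ?_⟩
    · push_cast
      refine le_trans ?_ hxs
      exact Real.rpow_le_rpow_of_exponent_le hn1 (by linarith)
    · intro q hq
      obtain ⟨q1, q2, q3⟩ := hx2 q hq
      have h5 : (1 : ℝ) ≤ (n : ℝ) ^ (Pig767.be δ x.1 - 1 + 3 * δ) := Real.one_le_rpow hn1 (by linarith)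
      have h6 : (x.2.card : ℝ) ≤ 2 * (n : ℝ) ^ (Pig767.be δ x.1 - 1 + 3 * δ) := by linarith
      calc (n : ℝ) ^ (2 * (δ / 4)) * (n * x.2.card)
          ≤ (n : ℝ) ^ (2 * (δ / 4)) * (n * (2 * (n : ℝ) ^ (Pig767.be δ x.1 - 1 + 3 * δ))) := by
            refine mul_le_mul_of_nonneg_left ?_ (by positivity)
            exact mul_le_mul_of_nonneg_left h6 hnR.le
        _ = 2 * ((n : ℝ) ^ (2 * (δ / 4)) * ((n : ℝ) ^ (1 : ℝ) * (n : ℝ) ^ (Pig767.be δ x.1 - 1 + 3 * δ))) := by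
            rw [Real.rpow_one]
            ring
        _ ≤ (n : ℝ) ^ (δ / 4) * ((n : ℝ) ^ (2 * (δ / 4)) * ((n : ℝ) ^ (1 : ℝ) * (n : ℝ) ^ (Pig767.be δ x.1 - 1 + 3 * δ))) := by
            refine mul_le_mul_of_nonneg_right (by linarith) (by positivity)
        _ = (n : ℝ) ^ (δ / 4 + (2 * (δ / 4) + (1 + (Pig767.be δ x.1 - 1 + 3 * δ)))) := by
            rw [← Real.rpow_add hnR, ← Real.rpow_add hnR, ← Real.rpow_add hnR]
        _ ≤ (n : ℝ) ^ ((1 + δ) + Pig767.be δ x.1) := Real.rpow_le_rpow_of_exponent_le hn1 (by linarith)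
        _ = (n : ℝ) ^ (1 + δ) * (n : ℝ) ^ (Pig767.be δ x.1) := Real.rpow_add hnR _ _
        _ ≤ (∑ r ∈ x.2, ((Z r).card : ℝ)) * q :=
            mul_le_mul hxs q2 (by positivity) (sum_nonneg fun _ _ => Nat.cast_nonneg _)

end Vale.Agent.P160.Half.Mid184
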