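import Vale.Agent.P160.Half.Corank

set_option linter.unusedSectionVars false

/-! # P160, half rate, MID: no sparse kernel vector modulo any prime `p ≤ P` (leaf L1 of note 11260). -/

namespace Vale.Agent.P160.Half.Sparse967

open Finset Matrix

section one

variable {α : Type*} [Fintype α] [DecidableEq α]

/-- flip the bits `s(i, j0)`, `i ∈ T` -/
def fl (j0 : α) (T : Finset α) (b : Sym2 α → Bool) : Sym2 α → Bool :=
  fun e => if e ∈ T.image (fun i => s(i, j0)) then !(b e) else b e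

theorem fl_fl (j0 : α) (T : Finset α) (b : Sym2 α → Bool) : fl j0 T (fl j0 T b) = b := by
  funext e
  unfold fl
  by_cases h : e ∈ T.image (fun i => s(i, j0))
  · simp only [if_pos h, Bool.not_not]
  · simp only [if_neg h]

theorem mem_img {j0 : α} {T : Finset α} {i j : α} (hi : i ≠ j0) :
    s(i, j) ∈ T.image (fun i => s(i, j0)) ↔ i ∈ T ∧ j = j0 := by
  simp only [mem_image, Sym2.eq_iff]
  constructor
  · rintro ⟨k, hk, ⟨rfl, rfl⟩ | ⟨rfl, rfl⟩⟩
    · exact ⟨hk, rfl⟩
    · exact absurd rfl hi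
  · rintro ⟨h, rfl⟩
    exact ⟨i, h, Or.inl ⟨rfl, rfl⟩⟩

variable {R : Type*} [CommRing R]

/-- the row `i` of the system -/
def row (u : α → R) (b : Sym2 α → Bool) (i : α) : R := ∑ j, if b s(i, j) then u j else 0

theorem row_fl_not {u : α → R} {j0 : α} {T : Finset α} {b : Sym2 α → Bool} {i : α} (hi : i ≠ j0)
    (hT : i ∉ T) : row u (fl j0 T b) i = row u b i := by
  unfold row
  refine sum_congr rfl fun j _ => ?_
  have : s(i, j) ∉ T.image (fun i => s(i, j0)) := by rw [mem_img hi]; tauto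
  unfold fl
  rw [if_neg this]

theorem row_fl_mem {u : α → R} {j0 : α} (h0 : u j0 ≠ 0) {T : Finset α} {b : Sym2 α → Bool} {i : α}
    (hi : i ≠ j0) (hT : i ∈ T) : row u (fl j0 T b) i ≠ row u b i := by
  unfold row
  rw [← Finset.add_sum_erase univ (fun j => if fl j0 T b s(i, j) then u j else 0) (mem_univ j0),
    ← Finset.add_sum_erase univ (fun j => if b s(i, j) then u j else 0) (mem_univ j0)]
  have h1 : ∑ j ∈ univ.erase j0, (if fl j0 T b s(i, j) then u j else 0) =
      ∑ j ∈ univ.erase j0, if b s(i, j) then u j else 0 := by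
    refine sum_congr rfl fun j hj => ?_
    have : s(i, j) ∉ T.image (fun i => s(i, j0)) := by
      rw [mem_img hi]
      exact fun h => (mem_erase.1 hj).1 h.2
    unfold fl
    rw [if_neg this]
  rw [h1]
  intro h
  have h2 := add_right_cancel h
  have h3 : fl j0 T b s(i, j0) = !(b s(i, j0)) := by
    unfold fl
    rw [if_pos ((mem_img hi).2 ⟨hT, rfl⟩)]
  rw [h3] at h2
  cases hb : b s(i, j0) <;> simp [hb] at h2
  · exact h0 h2
  · exact h0 h2.symm

/-- one fixed vector `u` and right hand side `c`: every row in the zero set of `u` costs one bit -/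
theorem card_fixed (u c : α → R) (j0 : α) (h0 : u j0 ≠ 0) (U : Finset α) (hU : ∀ i ∈ U, u i = 0)
    [DecidablePred fun b : Sym2 α → Bool => ∀ i ∈ U, row u b i = c i] :
    (univ.filter fun b : Sym2 α → Bool => ∀ i ∈ U, row u b i = c i).card * 2 ^ U.card ≤
      2 ^ Fintype.card (Sym2 α) := by
  classical
  rw [← Finset.card_powerset U, ← Finset.card_product]
  have e : 2 ^ Fintype.card (Sym2 α) = (univ : Finset (Sym2 α → Bool)).card := by
    rw [card_univ, Fintype.card_fun, Fintype.card_bool]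
  rw [e]
  refine Finset.card_le_card_of_injOn (fun x => fl j0 x.2 x.1) (fun _ _ => mem_coe.2 (mem_univ _)) ?_
  rintro ⟨b, T⟩ h ⟨b', T'⟩ h' heq
  simp only [coe_product, Set.mem_prod, mem_coe, mem_filter, mem_univ, true_and, mem_powerset] at h h'
  simp only at heq
  have hj : ∀ i ∈ U, i ≠ j0 := by
    rintro i hi rfl
    exact h0 (hU _ hi)
  have key : ∀ (b : Sym2 α → Bool) (T : Finset α), T ⊆ U → (∀ i ∈ U, row u b i = c i) →
      ∀ i ∈ U, (i ∈ T ↔ row u (fl j0 T b) i ≠ c i) := by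
    intro b T _ hb i hi
    constructor
    · intro hiT
      rw [← hb i hi]
      exact row_fl_mem h0 (hj i hi) hiT
    · intro hne
      by_contra hiT
      exact hne (by rw [row_fl_not (hj i hi) hiT, hb i hi])
  have hTT : T = T' := by
    ext i
    constructor
    · intro hi
      exact (key b' T' h'.2 h'.1 i (h.2 hi)).2 (heq ▸ (key b T h.2 h.1 i (h.2 hi)).1 hi)
    · intro hi
      exact (key b T h.2 h.1 i (h'.2 hi)).2 (heq ▸ (key b' T' h'.2 h'.1 i (h'.2 hi)).1 hi)
  subst hTT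
  have : b = b' := by rw [← fl_fl j0 T b, heq, fl_fl]
  rw [this]

theorem map_mulVec_eq_row (b : Sym2 α → Bool) (u : α → R) (i : α) :
    ((matZ b).map (Int.cast : ℤ → R) *ᵥ u) i = row u b i := by
  unfold Matrix.mulVec dotProduct row
  refine sum_congr rfl fun j _ => ?_
  simp only [Matrix.map_apply, matZ]
  split_ifs <;> simp

/-- the number of vectors with at most `s` nonzero coordinates -/
theorem card_sparse (p s : ℕ) [NeZero p] (P : ℕ) (hP : p ≤ P)
    [DecidablePred fun u : α → ZMod p => (univ.filter fun i => u i ≠ 0).card ≤ s] :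
    (univ.filter fun u : α → ZMod p => (univ.filter fun i => u i ≠ 0).card ≤ s).card ≤
      ∑ j ∈ range (s + 1), (Fintype.card α).choose j * P ^ j := by
  classical
  have h1 : (univ.filter fun u : α → ZMod p => (univ.filter fun i => u i ≠ 0).card ≤ s) ⊆
      (range (s + 1)).biUnion fun j => (powersetCard j (univ : Finset α)).biUnion fun S =>
        univ.filter fun u : α → ZMod p => ∀ i ∉ S, u i = 0 := by
    intro u hu
    simp only [mem_filter, mem_univ, true_and] at hu
    simp only [mem_biUnion, mem_range, mem_powersetCard, subset_univ, true_and, mem_filter, mem_univ]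
    refine ⟨_, Nat.lt_succ_of_le hu, _, rfl, fun i hi => ?_⟩
    by_contra hne
    exact hi (by simp [hne])
  refine (card_le_card h1).trans (card_biUnion_le.trans (sum_le_sum fun j _ => ?_))
  refine card_biUnion_le.trans ?_
  rw [show (Fintype.card α).choose j * P ^ j = ∑ S ∈ powersetCard j (univ : Finset α), P ^ j by
    rw [sum_const, card_powersetCard, card_univ, smul_eq_mul]]
  refine sum_le_sum fun S hS => ?_
  have hSj : S.card = j := (mem_powersetCard.1 hS).2
  have h2 : (univ.filter fun u : α → ZMod p => ∀ i ∉ S, u i = 0).card ≤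
      (univ : Finset (S → ZMod p)).card := by
    refine Finset.card_le_card_of_injOn (fun u i => u i) (fun _ _ => mem_coe.2 (mem_univ _)) ?_
    intro u hu v hv huv
    simp only [coe_filter, mem_univ, true_and, Set.mem_ofPred_eq] at hu hv
    funext i
    by_cases hi : i ∈ S
    · exact congrFun huv ⟨i, hi⟩
    · rw [hu i hi, hv i hi]
  refine h2.trans ?_
  rw [card_univ, Fintype.card_fun, ZMod.card, Fintype.card_coe, hSj]
  exact Nat.pow_le_pow_left hP j

/-- a nonzero kernel vector modulo the prime `p` with at most `s` nonzero coordinates -/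
def SpP (α : Type*) [Fintype α] [DecidableEq α] (s p : ℕ) (b : Sym2 α → Bool) : Prop :=
  p.Prime ∧ ∃ u : α → ZMod p, u ≠ 0 ∧ (univ.filter fun i => u i ≠ 0).card ≤ s ∧
    (matZ b).map (Int.cast : ℤ → ZMod p) *ᵥ u = 0

/-- **sparse event**: there is a nonzero kernel vector modulo a prime `p ≤ P` with at most `s`
nonzero coordinates -/
def SpEv (α : Type*) [Fintype α] [DecidableEq α] (s P : ℕ) (b : Sym2 α → Bool) : Prop :=
  ∃ p, p.Prime ∧ p ≤ P ∧ ∃ u : α → ZMod p, u ≠ 0 ∧ (univ.filter fun i => u i ≠ 0).card ≤ s ∧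
    (matZ b).map (Int.cast : ℤ → ZMod p) *ᵥ u = 0

theorem sparse_event (s P : ℕ) [DecidablePred (SpEv α s P)] :
    (univ.filter fun b : Sym2 α → Bool => SpEv α s P b).card * 2 ^ (Fintype.card α - s) ≤
      P * (∑ j ∈ range (s + 1), (Fintype.card α).choose j * P ^ j) * 2 ^ Fintype.card (Sym2 α) := by
  classical
  set n := Fintype.card α with hn
  set N := ∑ j ∈ range (s + 1), n.choose j * P ^ j with hN
  set Bd : ℕ → Finset (Sym2 α → Bool) := fun p => univ.filter fun b => SpP α s p b with hBd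
  have h1 : (univ.filter fun b : Sym2 α → Bool => SpEv α s P b) ⊆ (Finset.Icc 1 P).biUnion Bd := by
    intro b hb
    obtain ⟨p, hp, hpP, hu⟩ := (mem_filter.1 hb).2
    exact mem_biUnion.2 ⟨p, mem_Icc.2 ⟨hp.one_lt.le, hpP⟩, mem_filter.2 ⟨mem_univ _, hp, hu⟩⟩
  have h2 : ∀ p ∈ Finset.Icc 1 P, (Bd p).card * 2 ^ (n - s) ≤ N * 2 ^ Fintype.card (Sym2 α) := by
    intro p hpP
    by_cases hp : p.Prime
    · have : Fact p.Prime := ⟨hp⟩
      set Sp : Finset (α → ZMod p) := univ.filter fun u => (univ.filter fun i => u i ≠ 0).card ≤ s with hSp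
      have h3 : Bd p ⊆ (Sp.filter fun u => u ≠ 0).biUnion fun u => univ.filter fun b : Sym2 α → Bool =>
          ∀ i ∈ (univ.filter fun i => u i = 0), row u b i = (0 : α → ZMod p) i := by
        intro b hb
        obtain ⟨-, u, hu, hs, hz⟩ := (mem_filter.1 hb).2
        refine mem_biUnion.2 ⟨u, mem_filter.2 ⟨mem_filter.2 ⟨mem_univ _, hs⟩, hu⟩,
          mem_filter.2 ⟨mem_univ _, fun i _ => ?_⟩⟩
        rw [← map_mulVec_eq_row, hz]
      calc (Bd p).card * 2 ^ (n - s) ≤ (∑ u ∈ Sp.filter fun u => u ≠ 0, (univ.filter fun b : Sym2 α → Bool =>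
            ∀ i ∈ (univ.filter fun i => u i = 0), row u b i = (0 : α → ZMod p) i).card) * 2 ^ (n - s) :=
            Nat.mul_le_mul_right _ ((card_le_card h3).trans card_biUnion_le)
        _ = ∑ u ∈ Sp.filter fun u => u ≠ 0, (univ.filter fun b : Sym2 α → Bool =>
            ∀ i ∈ (univ.filter fun i => u i = 0), row u b i = (0 : α → ZMod p) i).card * 2 ^ (n - s) :=
            Finset.sum_mul _ _ _
        _ ≤ ∑ u ∈ Sp.filter fun u => u ≠ 0, 2 ^ Fintype.card (Sym2 α) := by
            refine sum_le_sum fun u hu => ?_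
            obtain ⟨hu1, hu0⟩ := mem_filter.1 hu
            have hs := (mem_filter.1 hu1).2
            obtain ⟨j0, hj0⟩ := Function.ne_iff.1 hu0
            have h4 := card_fixed u (0 : α → ZMod p) j0 hj0 (univ.filter fun i => u i = 0)
              (fun i hi => (mem_filter.1 hi).2)
            refine le_trans (Nat.mul_le_mul_left _ (Nat.pow_le_pow_right (by norm_num) ?_)) h4
            have h5 : (univ.filter fun i => u i = 0).card + (univ.filter fun i => ¬ u i = 0).card = n := by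
              rw [Finset.card_filter_add_card_filter_not]
              exact card_univ
            have h6 : (univ.filter fun i => ¬ u i = 0).card ≤ s := hs
            omega
        _ = (Sp.filter fun u => u ≠ 0).card * 2 ^ Fintype.card (Sym2 α) := by
            rw [sum_const, smul_eq_mul]
        _ ≤ N * 2 ^ Fintype.card (Sym2 α) := by
            refine Nat.mul_le_mul_right _ ((card_filter_le _ _).trans ?_)
            exact card_sparse p s P (mem_Icc.1 hpP).2
    · have : Bd p = ∅ := by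
        refine filter_eq_empty_iff.2 fun b _ hb => hp hb.1
      rw [this]
      simp
  calc (univ.filter fun b : Sym2 α → Bool => SpEv α s P b).card * 2 ^ (n - s)
      ≤ (∑ p ∈ Finset.Icc 1 P, (Bd p).card) * 2 ^ (n - s) :=
        Nat.mul_le_mul_right _ ((card_le_card h1).trans card_biUnion_le)
    _ = ∑ p ∈ Finset.Icc 1 P, (Bd p).card * 2 ^ (n - s) := Finset.sum_mul _ _ _
    _ ≤ ∑ p ∈ Finset.Icc 1 P, N * 2 ^ Fintype.card (Sym2 α) := sum_le_sum h2
    _ = P * N * 2 ^ Fintype.card (Sym2 α) := by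
        rw [sum_const, Nat.card_Icc, smul_eq_mul, Nat.add_sub_cancel, mul_assoc]

end one

theorem sum_choose_le (n s P : ℕ) (hn : 1 ≤ n) (hP : P ≤ n ^ 3) :
    ∑ j ∈ range (s + 1), n.choose j * P ^ j ≤ (s + 1) * n ^ (4 * s) := by
  calc ∑ j ∈ range (s + 1), n.choose j * P ^ j ≤ ∑ j ∈ range (s + 1), n ^ (4 * s) := by
        refine sum_le_sum fun j hj => ?_
        have hj' : j ≤ s := Nat.lt_succ_iff.1 (mem_range.1 hj)
        calc n.choose j * P ^ j ≤ n ^ j * (n ^ 3) ^ j :=
              Nat.mul_le_mul (Nat.choose_le_pow n j) (Nat.pow_le_pow_left hP j)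
          _ = n ^ (4 * j) := by rw [← pow_mul, ← pow_add]; ring_nf
          _ ≤ n ^ (4 * s) := Nat.pow_le_pow_right hn (by omega)
    _ = (s + 1) * n ^ (4 * s) := by rw [sum_const, card_range, smul_eq_mul]

open Filter in
/-- **numeric form**: the sparse event has density at most `2 ^ (-(1 - ε) n)` -/
theorem sparse_small (δ ε : ℝ) (hδ : 0 < δ) (hδ1 : δ ≤ 1) (hε : 0 < ε) : ∃ n₀ : ℕ, ∀ n ≥ n₀, ∀ s P : ℕ,
    (s : ℝ) ≤ (n : ℝ) ^ (1 - δ) → P ≤ n ^ 3 → ∀ [DecidablePred (SpEv (Fin n) s P)],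
    ((univ.filter fun b : Sym2 (Fin n) → Bool => SpEv (Fin n) s P b).card : ℝ) ≤
      (2 : ℝ) ^ (-((1 - ε) * n)) * 2 ^ Fintype.card (Sym2 (Fin n)) := by
  have hl2 : 0 < Real.log 2 := Real.log_pos (by norm_num)
  set η : ℝ := δ / 2 with hη
  have hη0 : 0 < η := by positivity
  set C : ℝ := 16 / (η * Real.log 2) + 2 with hC
  have hC0 : 0 < C := by positivity
  obtain ⟨x0, hx0⟩ := (((tendsto_rpow_atTop hη0).comp tendsto_natCast_atTop_atTop).eventually_ge_atTop (C / ε)).exists_forall_of_atTop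
  refine ⟨max x0 1, fun n hn s P hs hP _ => ?_⟩
  have hn1 : 1 ≤ n := le_trans (le_max_right _ _) hn
  have hx : C / ε ≤ (n : ℝ) ^ η := hx0 n (le_trans (le_max_left _ _) hn)
  have hnR : (1 : ℝ) ≤ n := by exact_mod_cast hn1
  have hnR0 : (0 : ℝ) < n := by linarith
  have hsn : s ≤ n := by
    have : (s : ℝ) ≤ n := hs.trans (by
      calc (n : ℝ) ^ (1 - δ) ≤ (n : ℝ) ^ (1 : ℝ) := Real.rpow_le_rpow_of_exponent_le hnR (by linarith)
        _ = n := Real.rpow_one _)
    exact_mod_cast this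
  -- counting
  have h1 := sparse_event (α := Fin n) s P
  rw [Fintype.card_fin] at h1
  have h2 := h1.trans (Nat.mul_le_mul_right _ (Nat.mul_le_mul hP (sum_choose_le n s P hn1 hP)))
  have h3 : (((univ.filter fun b : Sym2 (Fin n) → Bool => SpEv (Fin n) s P b).card : ℝ)) * 2 ^ (n - s) ≤
      (n : ℝ) ^ 3 * ((s + 1) * (n : ℝ) ^ (4 * s)) * 2 ^ Fintype.card (Sym2 (Fin n)) := by
    exact_mod_cast h2
  -- arithmetic
  have hlogn : Real.log n ≤ (n : ℝ) ^ η / η := Real.log_le_rpow_div hnR0.le hη0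
  have hlog0 : 0 ≤ Real.log n := Real.log_nonneg hnR
  have hs1 : ((s : ℝ) + 1) ≤ 2 * n := by
    have : (s : ℝ) ≤ n := by exact_mod_cast hsn
    linarith
  have key : (n : ℝ) ^ 3 * ((s + 1) * (n : ℝ) ^ (4 * s)) * 2 ^ s ≤ (2 : ℝ) ^ (ε * n) := by
    have e1 : (n : ℝ) ^ 3 * ((s + 1) * (n : ℝ) ^ (4 * s)) * 2 ^ s ≤
        (n : ℝ) ^ 3 * ((2 * n) * (n : ℝ) ^ (4 * s)) * 2 ^ s := by gcongr
    refine e1.trans ?_
    have hpos : (0 : ℝ) < (n : ℝ) ^ 3 * ((2 * n) * (n : ℝ) ^ (4 * s)) * 2 ^ s := by positivity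
    rw [← Real.log_le_log_iff hpos (by positivity), Real.log_rpow (by norm_num)]
    rw [Real.log_mul (by positivity) (by positivity), Real.log_mul (by positivity) (by positivity),
      Real.log_mul (by positivity) (by positivity), Real.log_mul (by norm_num) (by positivity),
      Real.log_pow, Real.log_pow, Real.log_pow]
    push_cast
    -- 3 log n + (log 2 + log n + 4 s log n) + s log 2
    have hA : (n : ℝ) ^ η ≤ (n : ℝ) ^ (1 - η) := Real.rpow_le_rpow_of_exponent_le hnR (by linarith)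
    have hB : (n : ℝ) ^ (1 - δ) * (n : ℝ) ^ η = (n : ℝ) ^ (1 - η) := by
      rw [← Real.rpow_add hnR0]; congr 1; rw [hη]; ring
    have hD : (n : ℝ) ^ (1 - δ) ≤ (n : ℝ) ^ (1 - η) := Real.rpow_le_rpow_of_exponent_le hnR (by linarith)
    have hE : (1 : ℝ) ≤ (n : ℝ) ^ (1 - η) := Real.one_le_rpow hnR (by linarith)
    have hF : (n : ℝ) ^ η * (n : ℝ) ^ (1 - η) = n := by
      rw [← Real.rpow_add hnR0]; ring_nf; exact Real.rpow_one _
    have hG : (s : ℝ) * Real.log n ≤ (n : ℝ) ^ (1 - η) / η := by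
      calc (s : ℝ) * Real.log n ≤ (n : ℝ) ^ (1 - δ) * ((n : ℝ) ^ η / η) :=
            mul_le_mul hs hlogn hlog0 (by positivity)
        _ = (n : ℝ) ^ (1 - η) / η := by rw [← mul_div_assoc, hB]
    have hH : Real.log n ≤ (n : ℝ) ^ (1 - η) / η := hlogn.trans (by gcongr)
    have hI : (s : ℝ) * Real.log 2 ≤ (n : ℝ) ^ (1 - η) * Real.log 2 := by
      gcongr
      exact hs.trans hD
    have hJ : Real.log 2 ≤ (n : ℝ) ^ (1 - η) * Real.log 2 := le_mul_of_one_le_left hl2.le hE
    have hK : C * (n : ℝ) ^ (1 - η) * Real.log 2 ≤ ε * n * Real.log 2 := by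
      have : C * (n : ℝ) ^ (1 - η) ≤ ε * n := by
        calc C * (n : ℝ) ^ (1 - η) = ε * (C / ε) * (n : ℝ) ^ (1 - η) := by field_simp
          _ ≤ ε * (n : ℝ) ^ η * (n : ℝ) ^ (1 - η) := by gcongr
          _ = ε * n := by rw [mul_assoc, hF]
      gcongr
    have hL : C * (n : ℝ) ^ (1 - η) * Real.log 2 =
        16 * ((n : ℝ) ^ (1 - η) / η) + 2 * ((n : ℝ) ^ (1 - η) * Real.log 2) := by
      rw [hC]; field_simp
    nlinarith
  have h4 : (2 : ℝ) ^ (n - s) * 2 ^ s = 2 ^ n := by
    rw [← pow_add]; congr 1; omega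
  have h5 : (2 : ℝ) ^ (-((1 - ε) * n)) * 2 ^ n = (2 : ℝ) ^ (ε * n) := by
    rw [← Real.rpow_natCast 2 n, ← Real.rpow_add (by norm_num)]
    congr 1; ring
  set X : ℝ := ((univ.filter fun b : Sym2 (Fin n) → Bool => SpEv (Fin n) s P b).card : ℝ) with hX
  have h6 : X * 2 ^ n ≤ (2 : ℝ) ^ (-((1 - ε) * n)) * 2 ^ Fintype.card (Sym2 (Fin n)) * 2 ^ n := by
    calc X * 2 ^ n = X * 2 ^ (n - s) * 2 ^ s := by rw [mul_assoc, h4]
      _ ≤ (n : ℝ) ^ 3 * ((s + 1) * (n : ℝ) ^ (4 * s)) * 2 ^ Fintype.card (Sym2 (Fin n)) * 2 ^ s := by gcongr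
      _ = (n : ℝ) ^ 3 * ((s + 1) * (n : ℝ) ^ (4 * s)) * 2 ^ s * 2 ^ Fintype.card (Sym2 (Fin n)) := by ring
      _ ≤ (2 : ℝ) ^ (ε * n) * 2 ^ Fintype.card (Sym2 (Fin n)) := by gcongr
      _ = (2 : ℝ) ^ (-((1 - ε) * n)) * 2 ^ Fintype.card (Sym2 (Fin n)) * 2 ^ n := by rw [← h5]; ring
  exact le_of_mul_le_mul_right h6 (by positivity)

end Vale.Agent.P160.Half.Sparse967
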