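import Vale.Agent.P160.Half.Mid.MidStmt
import Vale.Agent.P160.Half.Mid.Sparse967

/-! # P160, half rate, MID: `StmtSparse` (leaf L1). -/

namespace Vale.Agent.P160.Half.Sparse967

open Finset Matrix

theorem sum_choose_le_pow (n s P K : ℕ) (hn : 1 ≤ n) (hP : P ≤ n ^ K) :
    ∑ j ∈ range (s + 1), n.choose j * P ^ j ≤ (s + 1) * n ^ ((K + 1) * s) := by
  calc ∑ j ∈ range (s + 1), n.choose j * P ^ j ≤ ∑ j ∈ range (s + 1), n ^ ((K + 1) * s) := by
        refine sum_le_sum fun j hj => ?_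
        have hj' : j ≤ s := Nat.lt_succ_iff.1 (mem_range.1 hj)
        calc n.choose j * P ^ j ≤ n ^ j * (n ^ K) ^ j :=
              Nat.mul_le_mul (Nat.choose_le_pow n j) (Nat.pow_le_pow_left hP j)
          _ = n ^ ((K + 1) * j) := by rw [← pow_mul, ← pow_add]; ring_nf
          _ ≤ n ^ ((K + 1) * s) := Nat.pow_le_pow_right hn (Nat.mul_le_mul_left _ hj')
    _ = (s + 1) * n ^ ((K + 1) * s) := by rw [sum_const, card_range, smul_eq_mul]

open Filter in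
/-- **numeric form** for the primes `p ≤ n ^ K` -/
theorem sparse_small_pow (K : ℕ) (δ ε : ℝ) (hδ : 0 < δ) (hδ1 : δ ≤ 1) (hε : 0 < ε) : ∃ n₀ : ℕ,
    1 ≤ n₀ ∧ ∀ n ≥ n₀, ∀ s P : ℕ,
    (s : ℝ) ≤ (n : ℝ) ^ (1 - δ) → P ≤ n ^ K → ∀ [DecidablePred (SpEv (Fin n) s P)],
    ((univ.filter fun b : Sym2 (Fin n) → Bool => SpEv (Fin n) s P b).card : ℝ) ≤
      (2 : ℝ) ^ (-((1 - ε) * n)) * 2 ^ Fintype.card (Sym2 (Fin n)) := by
  have hl2 : 0 < Real.log 2 := Real.log_pos (by norm_num)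
  set η : ℝ := δ / 2 with hη
  have hη0 : 0 < η := by positivity
  set C : ℝ := (2 * K + 2) / (η * Real.log 2) + 2 with hC
  have hC0 : 0 < C := by positivity
  obtain ⟨x0, hx0⟩ := (((tendsto_rpow_atTop hη0).comp tendsto_natCast_atTop_atTop).eventually_ge_atTop (C / ε)).exists_forall_of_atTop
  refine ⟨max x0 1, le_max_right _ _, fun n hn s P hs hP _ => ?_⟩
  have hn1 : 1 ≤ n := le_trans (le_max_right _ _) hn
  have hx : C / ε ≤ (n : ℝ) ^ η := hx0 n (le_trans (le_max_left _ _) hn)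
  have hnR : (1 : ℝ) ≤ n := by exact_mod_cast hn1
  have hnR0 : (0 : ℝ) < n := by linarith
  have hsn : s ≤ n := by
    have : (s : ℝ) ≤ n := hs.trans (by
      calc (n : ℝ) ^ (1 - δ) ≤ (n : ℝ) ^ (1 : ℝ) := Real.rpow_le_rpow_of_exponent_le hnR (by linarith)
        _ = n := Real.rpow_one _)
    exact_mod_cast this
  -- counting
  have h1 := sparse_event (α := Fin n) s P
  rw [Fintype.card_fin] at h1
  have h2 := h1.trans (Nat.mul_le_mul_right _ (Nat.mul_le_mul hP (sum_choose_le_pow n s P K hn1 hP)))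
  have h3 : (((univ.filter fun b : Sym2 (Fin n) → Bool => SpEv (Fin n) s P b).card : ℝ)) * 2 ^ (n - s) ≤
      (n : ℝ) ^ K * ((s + 1) * (n : ℝ) ^ ((K + 1) * s)) * 2 ^ Fintype.card (Sym2 (Fin n)) := by
    exact_mod_cast h2
  -- arithmetic
  have hlogn : Real.log n ≤ (n : ℝ) ^ η / η := Real.log_le_rpow_div hnR0.le hη0
  have hlog0 : 0 ≤ Real.log n := Real.log_nonneg hnR
  have hs1 : ((s : ℝ) + 1) ≤ 2 * n := by
    have : (s : ℝ) ≤ n := by exact_mod_cast hsn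
    linarith
  have key : (n : ℝ) ^ K * ((s + 1) * (n : ℝ) ^ ((K + 1) * s)) * 2 ^ s ≤ (2 : ℝ) ^ (ε * n) := by
    have e1 : (n : ℝ) ^ K * ((s + 1) * (n : ℝ) ^ ((K + 1) * s)) * 2 ^ s ≤
        (n : ℝ) ^ K * ((2 * n) * (n : ℝ) ^ ((K + 1) * s)) * 2 ^ s := by gcongr
    refine e1.trans ?_
    have hpos : (0 : ℝ) < (n : ℝ) ^ K * ((2 * n) * (n : ℝ) ^ ((K + 1) * s)) * 2 ^ s := by positivity
    rw [← Real.log_le_log_iff hpos (by positivity), Real.log_rpow (by norm_num)]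
    rw [Real.log_mul (by positivity) (by positivity), Real.log_mul (by positivity) (by positivity),
      Real.log_mul (by positivity) (by positivity), Real.log_mul (by norm_num) (by positivity),
      Real.log_pow, Real.log_pow, Real.log_pow]
    push_cast
    have hA : (n : ℝ) ^ η ≤ (n : ℝ) ^ (1 - η) := Real.rpow_le_rpow_of_exponent_le hnR (by linarith)
    have hB : (n : ℝ) ^ (1 - δ) * (n : ℝ) ^ η = (n : ℝ) ^ (1 - η) := by
      rw [← Real.rpow_add hnR0]; congr 1; rw [hη]; ring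
    have hD : (n : ℝ) ^ (1 - δ) ≤ (n : ℝ) ^ (1 - η) := Real.rpow_le_rpow_of_exponent_le hnR (by linarith)
    have hE : (1 : ℝ) ≤ (n : ℝ) ^ (1 - η) := Real.one_le_rpow hnR (by linarith)
    have hF : (n : ℝ) ^ η * (n : ℝ) ^ (1 - η) = n := by
      rw [← Real.rpow_add hnR0]; ring_nf; exact Real.rpow_one _
    have hG : (s : ℝ) * Real.log n ≤ (n : ℝ) ^ (1 - η) / η := by
      calc (s : ℝ) * Real.log n ≤ (n : ℝ) ^ (1 - δ) * ((n : ℝ) ^ η / η) :=
            mul_le_mul hs hlogn hlog0 (by positivity)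
        _ = (n : ℝ) ^ (1 - η) / η := by rw [← mul_div_assoc, hB]
    have hH : Real.log n ≤ (n : ℝ) ^ (1 - η) / η := hlogn.trans (by gcongr)
    have hI : (s : ℝ) * Real.log 2 ≤ (n : ℝ) ^ (1 - η) * Real.log 2 := by
      gcongr
      exact hs.trans hD
    have hJ : Real.log 2 ≤ (n : ℝ) ^ (1 - η) * Real.log 2 := le_mul_of_one_le_left hl2.le hE
    have hK : C * (n : ℝ) ^ (1 - η) * Real.log 2 ≤ ε * n * Real.log 2 := by
      have : C * (n : ℝ) ^ (1 - η) ≤ ε * n := by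
        calc C * (n : ℝ) ^ (1 - η) = ε * (C / ε) * (n : ℝ) ^ (1 - η) := by field_simp
          _ ≤ ε * (n : ℝ) ^ η * (n : ℝ) ^ (1 - η) := by gcongr
          _ = ε * n := by rw [mul_assoc, hF]
      gcongr
    have hL : C * (n : ℝ) ^ (1 - η) * Real.log 2 =
        (2 * K + 2) * ((n : ℝ) ^ (1 - η) / η) + 2 * ((n : ℝ) ^ (1 - η) * Real.log 2) := by
      rw [hC]; field_simp
    have hM : (K : ℝ) * Real.log n ≤ K * ((n : ℝ) ^ (1 - η) / η) :=
      mul_le_mul_of_nonneg_left hH (by positivity)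
    have hN : ((K : ℝ) + 1) * ((s : ℝ) * Real.log n) ≤ (K + 1) * ((n : ℝ) ^ (1 - η) / η) :=
      mul_le_mul_of_nonneg_left hG (by positivity)
    nlinarith
  have h4 : (2 : ℝ) ^ (n - s) * 2 ^ s = 2 ^ n := by
    rw [← pow_add]; congr 1; omega
  have h5 : (2 : ℝ) ^ (-((1 - ε) * n)) * 2 ^ n = (2 : ℝ) ^ (ε * n) := by
    rw [← Real.rpow_natCast 2 n, ← Real.rpow_add (by norm_num)]
    congr 1; ring
  set X : ℝ := ((univ.filter fun b : Sym2 (Fin n) → Bool => SpEv (Fin n) s P b).card : ℝ) with hX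
  have h6 : X * 2 ^ n ≤ (2 : ℝ) ^ (-((1 - ε) * n)) * 2 ^ Fintype.card (Sym2 (Fin n)) * 2 ^ n := by
    calc X * 2 ^ n = X * 2 ^ (n - s) * 2 ^ s := by rw [mul_assoc, h4]
      _ ≤ (n : ℝ) ^ K * ((s + 1) * (n : ℝ) ^ ((K + 1) * s)) * 2 ^ Fintype.card (Sym2 (Fin n)) * 2 ^ s := by
        gcongr
      _ = (n : ℝ) ^ K * ((s + 1) * (n : ℝ) ^ ((K + 1) * s)) * 2 ^ s * 2 ^ Fintype.card (Sym2 (Fin n)) := by
        ring
      _ ≤ (2 : ℝ) ^ (ε * n) * 2 ^ Fintype.card (Sym2 (Fin n)) := by gcongr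
      _ = (2 : ℝ) ^ (-((1 - ε) * n)) * 2 ^ Fintype.card (Sym2 (Fin n)) * 2 ^ n := by rw [← h5]; ring
  exact le_of_mul_le_mul_right h6 (by positivity)

/-- **leaf L1** -/
theorem stmtSparse : Mid.StmtSparse := by
  classical
  intro C d ε hd hε
  obtain ⟨n₀, h1, h⟩ := sparse_small_pow ⌈C⌉₊ (min d 1) ε (lt_min hd one_pos) (min_le_right _ _) hε
  refine ⟨n₀, fun n hn => ?_⟩
  have hn1 : 1 ≤ n := h1.trans hn
  have hnR : (1 : ℝ) ≤ n := by exact_mod_cast hn1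
  refine le_trans ?_ (h n hn ⌊(n : ℝ) ^ (1 - min d 1)⌋₊ (n ^ ⌈C⌉₊) (Nat.floor_le (by positivity)) le_rfl)
  refine Nat.cast_le.2 (card_le_card fun b hb => ?_)
  obtain ⟨p, hp, hpn, u, hu, hus, hub⟩ := (mem_filter.1 hb).2
  refine mem_filter.2 ⟨mem_univ _, p, hp, ?_, u, hu, ?_, hub⟩
  · have : (p : ℝ) ≤ ((n ^ ⌈C⌉₊ : ℕ) : ℝ) := by
      refine hpn.trans ?_
      rw [Nat.cast_pow, ← Real.rpow_natCast]
      exact Real.rpow_le_rpow_of_exponent_le hnR (Nat.le_ceil C)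
    exact_mod_cast this
  · refine Nat.le_floor ?_
    refine le_trans ?_ (hus.trans (Real.rpow_le_rpow_of_exponent_le hnR
      (sub_le_sub_left (min_le_left d 1) 1)))
    exact_mod_cast le_of_eq (by congr)

end Vale.Agent.P160.Half.Sparse967
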