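import Vale.Agent.P160.Half.Mid.Main184
import Vale.Agent.P160.Half.Mid.PigMain184
import Vale.Agent.P160.Half.Mid.SparseMain967
import Vale.Agent.P160.Half.Mid.Half871
import Vale.Agent.P160.Half.Mid.Block886
import Vale.Agent.P160.Half.Mid.NF802
import Vale.Agent.P160.Half.Mid.Mom188c

/-! # P160, rate 1/2: MID (helper184 from 871, 886, 802, 188, 967, 767) -/

namespace Vale.Agent.P160.Half.Mid184

open Vale.Agent.P160.Half.Mid

/-- **MID**: for all but `θ n` indices `j` at most `ε n` primes of `[n, n^(2-η)]` divide `v j`. -/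
theorem mid : StmtMid :=
  midMain Sparse967.stmtSparse stmtPig Half871.stmtHalf (Vale.Agent.P160.Half.Mid.block NF802.stmtNF Mom188.stmtMom)

end Vale.Agent.P160.Half.Mid184
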