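import Vale.Agent.P160.Half.HalfSize505
import Mathlib.Data.Sym.Card

set_option linter.unusedSectionVars false

/-! # P160, half rate, mid primes, leaf L2 of note 11260

* `choose_D`: a balanced set `D` such that all supports are large in `D` and in the complement.
* `sum_SprA_le_mid`: the expected number of kernel vectors with large supports and many zeros is at most
  `2 * 4 ^ k * |A|` times the expected number of pairs of kernel vectors of the square lazy matrix. -/

open Finset Vale.Agent.P160 Vale.Agent.P160.Half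

namespace Vale.Agent.P160.Half.Mid.ChooseD871

section choose

variable {ι κ : Type*} [Fintype ι] [DecidableEq ι] [Fintype κ]

/-- the set chosen by `σ` -/
def dset {k : ℕ} (e : ι ≃ Fin k × Bool) (σ : Fin k → Bool) : Finset ι :=
  univ.filter fun i => (e i).2 = σ (e i).1

omit [DecidableEq ι] in
theorem mem_dset {k : ℕ} (e : ι ≃ Fin k × Bool) (σ : Fin k → Bool) (i : ι) :
    i ∈ dset e σ ↔ (e i).2 = σ (e i).1 := by
  simp [dset]

theorem card_inter {k : ℕ} (e : ι ≃ Fin k × Bool) (σ : Fin k → Bool) (S : Finset ι) :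
    (S ∩ dset e σ).card = ∑ j : Fin k, if e.symm (j, σ j) ∈ S then 1 else 0 := by
  rw [← Finset.card_filter]
  have h : S ∩ dset e σ = (univ.filter fun j : Fin k => e.symm (j, σ j) ∈ S).image
      (fun j => e.symm (j, σ j)) := by
    ext i
    rw [mem_inter, mem_dset, mem_image]
    constructor
    · rintro ⟨h1, h2⟩
      refine ⟨(e i).1, ?_, ?_⟩
      · rw [mem_filter]
        refine ⟨mem_univ _, ?_⟩
        rw [← h2]
        simpa using h1
      · rw [← h2]
        simp
    · rintro ⟨j, hj, rfl⟩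
      exact ⟨(mem_filter.1 hj).2, by simp⟩
  rw [h, Finset.card_image_of_injective]
  intro j j' hjj
  have := e.symm.injective hjj
  exact congrArg Prod.fst this

theorem card_dset {k : ℕ} (e : ι ≃ Fin k × Bool) (σ : Fin k → Bool) : (dset e σ).card = k := by
  have h := card_inter e σ univ
  rw [univ_inter] at h
  rw [h]
  simp

theorem sdiff_dset {k : ℕ} (e : ι ≃ Fin k × Bool) (σ : Fin k → Bool) (S : Finset ι) :
    S \ dset e σ = S ∩ dset e (fun j => !σ j) := by
  ext i
  rw [mem_sdiff, mem_inter, mem_dset, mem_dset]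
  cases (e i).2 <;> cases σ (e i).1 <;> simp

theorem sum_half_pow {k : ℕ} (e : ι ≃ Fin k × Bool) (S : Finset ι) :
    ∑ σ : Fin k → Bool, (1 / 2 : ℝ) ^ (S ∩ dset e σ).card ≤ 2 ^ k * (3 / 4 : ℝ) ^ S.card := by
  have h1 : ∀ σ : Fin k → Bool, (1 / 2 : ℝ) ^ (S ∩ dset e σ).card =
      ∏ j, (1 / 2 : ℝ) ^ (if e.symm (j, σ j) ∈ S then 1 else 0) := by
    intro σ
    rw [card_inter, Finset.prod_pow_eq_pow_sum]
  simp_rw [h1]
  have h2 := Finset.prod_univ_sum (fun _ : Fin k => (univ : Finset Bool))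
    (fun j b => (1 / 2 : ℝ) ^ (if e.symm (j, b) ∈ S then 1 else 0))
  rw [Fintype.piFinset_univ] at h2
  rw [← h2]
  have h3 : S.card = ∑ j : Fin k, ((if e.symm (j, true) ∈ S then 1 else 0) +
      (if e.symm (j, false) ∈ S then 1 else 0)) := by
    have h4 : S.card = ∑ q : Fin k × Bool, if e.symm q ∈ S then 1 else 0 := by
      rw [Equiv.sum_comp e.symm (fun i => if i ∈ S then 1 else 0)]
      simp
    rw [h4, Fintype.sum_prod_type]
    refine Finset.sum_congr rfl fun j _ => ?_
    rw [Fintype.sum_bool]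
  rw [h3, ← Finset.prod_pow_eq_pow_sum]
  have h5 : (2 : ℝ) ^ k = ∏ _j : Fin k, (2 : ℝ) := by simp
  rw [h5, ← Finset.prod_mul_distrib]
  apply Finset.prod_le_prod
  · intro j _
    positivity
  · intro j _
    rw [Fintype.sum_bool]
    by_cases ht : e.symm (j, true) ∈ S <;> by_cases hf : e.symm (j, false) ∈ S <;>
      simp only [ht, hf, if_true, if_false] <;> norm_num

theorem card_bad {k r : ℕ} (e : ι ≃ Fin k × Bool) (S : Finset ι) (hS : 4 * r ≤ S.card) :
    ((univ.filter fun σ : Fin k → Bool => (S ∩ dset e σ).card < r).card : ℝ) ≤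
      2 ^ k * (81 / 128 : ℝ) ^ r := by
  have h1 : ((univ.filter fun σ : Fin k → Bool => (S ∩ dset e σ).card < r).card : ℝ) * (1 / 2) ^ r ≤
      ∑ σ : Fin k → Bool, (1 / 2 : ℝ) ^ (S ∩ dset e σ).card := by
    rw [← nsmul_eq_mul]
    refine le_trans (Finset.card_nsmul_le_sum _ (fun σ => (1 / 2 : ℝ) ^ (S ∩ dset e σ).card) _ ?_)
      (Finset.sum_le_sum_of_subset_of_nonneg (Finset.filter_subset _ _) fun _ _ _ => by positivity)
    intro σ hσ
    exact pow_le_pow_of_le_one (by norm_num) (by norm_num) (mem_filter.1 hσ).2.le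
  have h2 := h1.trans (sum_half_pow e S)
  have h3 : (3 / 4 : ℝ) ^ S.card ≤ (3 / 4 : ℝ) ^ (4 * r) :=
    pow_le_pow_of_le_one (by norm_num) (by norm_num) hS
  have h4 : (81 / 128 : ℝ) ^ r = (3 / 4 : ℝ) ^ (4 * r) * 2 ^ r := by
    rw [pow_mul, ← mul_pow]
    norm_num
  have h5 : (1 / 2 : ℝ) ^ r * 2 ^ r = 1 := by
    rw [← mul_pow]; norm_num
  calc ((univ.filter fun σ : Fin k → Bool => (S ∩ dset e σ).card < r).card : ℝ)
      = ((univ.filter fun σ : Fin k → Bool => (S ∩ dset e σ).card < r).card : ℝ) * (1 / 2) ^ r *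
        2 ^ r := by rw [mul_assoc, h5, mul_one]
    _ ≤ 2 ^ k * (3 / 4 : ℝ) ^ S.card * 2 ^ r := mul_le_mul_of_nonneg_right h2 (by positivity)
    _ ≤ 2 ^ k * (3 / 4 : ℝ) ^ (4 * r) * 2 ^ r := by gcongr
    _ = _ := by rw [h4]; ring

/-- **choice of `D`** -/
theorem choose_D (k r : ℕ) (hι : Fintype.card ι = 2 * k) (S : κ → Finset ι)
    (hS : ∀ p, 4 * r ≤ (S p).card) (ht : 2 * (Fintype.card κ : ℝ) * (81 / 128) ^ r < 1) :
    ∃ D : Finset ι, D.card = k ∧ ∀ p, r ≤ (S p ∩ D).card ∧ r ≤ (S p \ D).card := by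
  classical
  have e : ι ≃ Fin k × Bool := Fintype.equivOfCardEq (by
    rw [hι, Fintype.card_prod, Fintype.card_fin, Fintype.card_bool, mul_comm])
  set B1 : κ → Finset (Fin k → Bool) := fun p => univ.filter fun σ => (S p ∩ dset e σ).card < r
    with hB1
  set B2 : κ → Finset (Fin k → Bool) := fun p => univ.filter fun σ => (S p \ dset e σ).card < r
    with hB2
  have hB2c : ∀ p, ((B2 p).card : ℝ) ≤ 2 ^ k * (81 / 128 : ℝ) ^ r := by
    intro p
    refine le_trans ?_ (card_bad e (S p) (hS p))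
    have : (B2 p).card ≤ (univ.filter fun σ : Fin k → Bool => (S p ∩ dset e σ).card < r).card := by
      apply Finset.card_le_card_of_injOn (fun σ j => !σ j)
      · intro σ hσ
        have h := (mem_filter.1 (mem_coe.1 hσ)).2
        rw [sdiff_dset] at h
        exact mem_coe.2 (mem_filter.2 ⟨mem_univ _, h⟩)
      · intro σ _ τ _ h
        funext j
        have := congrFun h j
        simpa using this
    exact_mod_cast this
  have hU : ((univ.biUnion fun p => B1 p ∪ B2 p).card : ℝ) < (Fintype.card (Fin k → Bool) : ℝ) := by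
    have h1 : ((univ.biUnion fun p => B1 p ∪ B2 p).card : ℝ) ≤
        ∑ _p : κ, (2 * (2 ^ k * (81 / 128 : ℝ) ^ r)) := by
      have h2 : (univ.biUnion fun p => B1 p ∪ B2 p).card ≤ ∑ p : κ, ((B1 p).card + (B2 p).card) :=
        Finset.card_biUnion_le.trans (Finset.sum_le_sum fun p _ => Finset.card_union_le _ _)
      refine (Nat.cast_le.2 h2).trans ?_
      push_cast
      apply Finset.sum_le_sum
      intro p _
      have := card_bad e (S p) (hS p)
      have h3 := hB2c p
      simp only [hB1] at *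
      linarith
    rw [Finset.sum_const, card_univ, nsmul_eq_mul] at h1
    refine lt_of_le_of_lt h1 ?_
    have h4 : (Fintype.card (Fin k → Bool) : ℝ) = 2 ^ k := by simp
    rw [h4]
    have h5 : (0 : ℝ) < 2 ^ k := by positivity
    nlinarith
  have hex : ∃ σ : Fin k → Bool, σ ∉ univ.biUnion fun p => B1 p ∪ B2 p := by
    by_contra hcon
    push Not at hcon
    have : (univ.biUnion fun p => B1 p ∪ B2 p) = (univ : Finset (Fin k → Bool)) :=
      Finset.eq_univ_iff_forall.2 hcon
    rw [this, card_univ] at hU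
    exact lt_irrefl _ hU
  obtain ⟨σ, hσ⟩ := hex
  refine ⟨dset e σ, card_dset e σ, fun p => ?_⟩
  have h1 : σ ∉ B1 p ∪ B2 p := fun h => hσ (mem_biUnion.2 ⟨p, mem_univ _, h⟩)
  rw [mem_union, not_or] at h1
  constructor
  · by_contra h
    exact h1.1 (mem_filter.2 ⟨mem_univ _, not_le.1 h⟩)
  · by_contra h
    exact h1.2 (mem_filter.2 ⟨mem_univ _, not_le.1 h⟩)

end choose

section bpr

variable {A : Type*} [AddCommGroup A] [Fintype A] [DecidableEq A]

theorem BprA_nonneg {α β : Type*} [Fintype α] [Fintype β] [DecidableEq α] [DecidableEq β]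
    (M : ℕ) (x : α → A) (z : β → A) : 0 ≤ BprA M x z := by
  unfold BprA; positivity

theorem BprA_comm {α β : Type*} [Fintype α] [Fintype β] [DecidableEq α] [DecidableEq β]
    (M : ℕ) (x : α → A) (z : β → A) : BprA M x z = BprA M z x := by
  unfold BprA
  congr 1
  · have : (univ.filter (fun ω : β → α → Fin M =>
        (∀ i, gwalk (ω i) x = 0) ∧ ∀ j, gwalk (fun i => ω i j) z = 0)).card =
        (univ.filter (fun ω : α → β → Fin M =>
        (∀ i, gwalk (ω i) z = 0) ∧ ∀ j, gwalk (fun i => ω i j) x = 0)).card := by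
      refine Finset.card_bij (fun ω _ a b => ω b a) ?_ ?_ ?_
      · intro ω hω
        simp only [mem_filter, mem_univ, true_and] at hω ⊢
        exact ⟨hω.2, hω.1⟩
      · intro ω _ ω' _ h
        funext b a
        exact congrFun (congrFun h a) b
      · intro ω hω
        refine ⟨fun b a => ω a b, ?_, rfl⟩
        simp only [mem_filter, mem_univ, true_and] at hω ⊢
        exact ⟨hω.2, hω.1⟩
    rw [this]
  · rw [mul_comm]

theorem gwalk_comp {α α' : Type*} [Fintype α] [Fintype α'] {M : ℕ} (e : α' ≃ α) (ω : α → Fin M)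
    (x : α → A) : gwalk (fun a => ω (e a)) (fun a => x (e a)) = gwalk ω x := by
  unfold gwalk
  exact Equiv.sum_comp e (fun a => (st (ω a)) • x a)

theorem BprA_comp {α β α' β' : Type*} [Fintype α] [Fintype β] [DecidableEq α] [DecidableEq β]
    [Fintype α'] [Fintype β'] [DecidableEq α'] [DecidableEq β']
    (M : ℕ) (e1 : α' ≃ α) (e2 : β' ≃ β) (x : α → A) (z : β → A) :
    BprA M (fun a => x (e1 a)) (fun b => z (e2 b)) = BprA M x z := by
  unfold BprA
  rw [Fintype.card_congr e1, Fintype.card_congr e2]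
  congr 2
  refine (Finset.card_bij (fun (ω : β → α → Fin M) _ b a => ω (e2 b) (e1 a)) ?_ ?_ ?_).symm
  · intro ω hω
    simp only [mem_filter, mem_univ, true_and] at hω ⊢
    refine ⟨fun i => ?_, fun j => ?_⟩
    · rw [gwalk_comp e1 (ω (e2 i)) x]; exact hω.1 _
    · rw [gwalk_comp e2 (fun i => ω i (e1 j)) z]; exact hω.2 _
  · intro ω _ ω' _ h
    funext b a
    have := congrFun (congrFun h (e2.symm b)) (e1.symm a)
    simpa using this
  · intro ω hω
    refine ⟨fun b a => ω (e2.symm b) (e1.symm a), ?_, ?_⟩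
    · simp only [mem_filter, mem_univ, true_and] at hω ⊢
      refine ⟨fun i => ?_, fun j => ?_⟩
      · rw [← hω.1 (e2.symm i), ← gwalk_comp e1]
        simp
      · rw [← hω.2 (e1.symm j), ← gwalk_comp e2]
        simp
    · funext b a
      simp

open Classical in
/-- expected number of pairs of kernel vectors of the square lazy matrix and its transpose -/
noncomputable def PS (M k : ℕ) (P Q : (Fin k → A) → Prop) : ℝ :=
  ∑ x ∈ univ.filter P, ∑ z ∈ univ.filter Q, BprA M x z

open Classical in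
theorem PS_eq (M k : ℕ) (P Q : (Fin k → A) → Prop) :
    PS M k P Q = (∑ ω : Fin k → Fin k → Fin M,
      ((univ.filter fun x : Fin k → A => P x ∧ ∀ i, gwalk (ω i) x = 0).card : ℝ) *
        ((univ.filter fun z : Fin k → A => Q z ∧ ∀ j, gwalk (fun i => ω i j) z = 0).card : ℝ)) /
        (M : ℝ) ^ (k * k) := by
  have h1 : ∀ x z : Fin k → A, BprA M x z =
      (∑ ω : Fin k → Fin k → Fin M, (if ∀ i, gwalk (ω i) x = 0 then (1 : ℝ) else 0) *
        (if ∀ j, gwalk (fun i => ω i j) z = 0 then (1 : ℝ) else 0)) / (M : ℝ) ^ (k * k) := by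
    intro x z
    unfold BprA
    rw [Fintype.card_fin]
    congr 1
    rw [Finset.card_filter]
    push_cast
    refine Finset.sum_congr rfl fun ω _ => ?_
    by_cases h1 : ∀ i, gwalk (ω i) x = 0 <;> by_cases h2 : ∀ j, gwalk (fun i => ω i j) z = 0 <;>
      simp [h1, h2]
  unfold PS
  simp_rw [h1, ← Finset.sum_div]
  congr 1
  have h2 : ∀ x : Fin k → A, (∑ z ∈ univ.filter Q, ∑ ω : Fin k → Fin k → Fin M,
      (if ∀ i, gwalk (ω i) x = 0 then (1 : ℝ) else 0) *
        (if ∀ j, gwalk (fun i => ω i j) z = 0 then (1 : ℝ) else 0)) =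
      ∑ ω : Fin k → Fin k → Fin M, (if ∀ i, gwalk (ω i) x = 0 then (1 : ℝ) else 0) *
        ∑ z ∈ univ.filter Q, (if ∀ j, gwalk (fun i => ω i j) z = 0 then (1 : ℝ) else 0) := by
    intro x
    rw [Finset.sum_comm]
    refine Finset.sum_congr rfl fun ω _ => ?_
    rw [Finset.mul_sum]
  simp_rw [h2]
  rw [Finset.sum_comm]
  refine Finset.sum_congr rfl fun ω _ => ?_
  rw [← Finset.sum_mul]
  congr 1
  · rw [← Finset.sum_filter, Finset.filter_filter]
    simp
  · rw [← Finset.sum_filter, Finset.filter_filter]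
    simp

theorem PS_comm (M k : ℕ) (P Q : (Fin k → A) → Prop) : PS M k P Q = PS M k Q P := by
  classical
  unfold PS
  rw [Finset.sum_comm]
  exact Finset.sum_congr rfl fun z _ => Finset.sum_congr rfl fun x _ => BprA_comm M x z

end bpr

section main

variable {A : Type*} [AddCommGroup A] [Fintype A] [DecidableEq A]
variable {κ : Type*} [Fintype κ]

open Classical in
/-- all supports have at least `r` elements -/
def NS (Z : κ → A → Prop) (r : ℕ) {α : Type*} [Fintype α] (x : α → A) : Prop :=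
  ∀ p, r ≤ (univ.filter fun i => ¬ Z p (x i)).card

open Classical in
/-- number of zeros -/
noncomputable def zc (Z : κ → A → Prop) {α : Type*} [Fintype α] (x : α → A) : ℕ :=
  ∑ p, (univ.filter fun i => Z p (x i)).card

/-- even case, one vector -/
theorem half_pair {ι : Type*} [Fintype ι] [DecidableEq ι] (Z : κ → A → Prop) {k r I : ℕ}
    (hι : Fintype.card ι = 2 * k) (v : ι → A) (hv : NS Z (4 * r) v) (hz : 2 * I ≤ zc Z v)
    (ht : 2 * (Fintype.card κ : ℝ) * (81 / 128) ^ r < 1) :
    ∃ D : Finset ι, D.card = k ∧ NS Z r (fun i : {i // i ∈ D} => v i) ∧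
      NS Z r (fun i : {i // i ∉ D} => v i) ∧
      (I ≤ zc Z (fun i : {i // i ∈ D} => v i) ∨ I ≤ zc Z (fun i : {i // i ∉ D} => v i)) := by
  classical
  obtain ⟨D, hD, hS⟩ := choose_D k r hι (fun p : κ => univ.filter fun i => ¬ Z p (v i)) hv ht
  have c1 : ∀ R : A → Prop, (univ.filter fun i : {i // i ∈ D} => R (v i)).card =
      ((univ.filter fun i => R (v i)) ∩ D).card := by
    intro R
    rw [← Finset.card_map (Function.Embedding.subtype fun i => i ∈ D)]
    congr 1
    ext i
    simp only [mem_map, mem_filter, mem_univ, true_and, Function.Embedding.coe_subtype, mem_inter,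
      Subtype.exists, exists_and_left, exists_prop]
    constructor
    · rintro ⟨j, h1, h2, rfl⟩; exact ⟨h1, h2⟩
    · rintro ⟨h1, h2⟩; exact ⟨i, h1, h2, rfl⟩
  have c2 : ∀ R : A → Prop, (univ.filter fun i : {i // i ∉ D} => R (v i)).card =
      ((univ.filter fun i => R (v i)) \ D).card := by
    intro R
    rw [← Finset.card_map (Function.Embedding.subtype fun i => i ∉ D)]
    congr 1
    ext i
    simp only [mem_map, mem_filter, mem_univ, true_and, Function.Embedding.coe_subtype, mem_sdiff,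
      Subtype.exists, exists_and_left, exists_prop]
    constructor
    · rintro ⟨j, h1, h2, rfl⟩; exact ⟨h1, h2⟩
    · rintro ⟨h1, h2⟩; exact ⟨i, h1, h2, rfl⟩
  refine ⟨D, hD, fun p => ?_, fun p => ?_, ?_⟩
  · refine le_trans (hS p).1 (le_of_eq ?_)
    convert (c1 (fun a => ¬ Z p a)).symm
  · refine le_trans (hS p).2 (le_of_eq ?_)
    convert (c2 (fun a => ¬ Z p a)).symm
  · have h3 : zc Z v = zc Z (fun i : {i // i ∈ D} => v i) + zc Z (fun i : {i // i ∉ D} => v i) := by
      unfold zc
      rw [← Finset.sum_add_distrib]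
      refine Finset.sum_congr rfl fun p _ => ?_
      rw [c1 (fun a => Z p a), c2 (fun a => Z p a), Finset.card_inter_add_card_sdiff]
    omega

theorem NS_comp (Z : κ → A → Prop) (r : ℕ) {α α' : Type*} [Fintype α] [Fintype α'] (e : α' ≃ α)
    (x : α → A) : NS Z r (fun a => x (e a)) ↔ NS Z r x := by
  classical
  unfold NS
  refine forall_congr' fun p => ?_
  have : (univ.filter fun i : α' => ¬ Z p (x (e i))).card =
      (univ.filter fun i : α => ¬ Z p (x i)).card := by
    apply Finset.card_equiv e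
    intro i
    simp
  rw [this]

theorem zc_comp (Z : κ → A → Prop) {α α' : Type*} [Fintype α] [Fintype α'] (e : α' ≃ α)
    (x : α → A) : zc Z (fun a => x (e a)) = zc Z x := by
  classical
  unfold zc
  refine Finset.sum_congr rfl fun p _ => ?_
  apply Finset.card_equiv e
  intro i
  simp

/-- **even case** -/
theorem even_case {ι : Type*} [Fintype ι] [DecidableEq ι] (Z : κ → A → Prop) {k r I M : ℕ}
    (hι : Fintype.card ι = 2 * k) (V : Finset (ι → A)) (hV1 : ∀ v ∈ V, NS Z (4 * r) v)
    (hV2 : ∀ v ∈ V, 2 * I ≤ zc Z v) (ht : 2 * (Fintype.card κ : ℝ) * (81 / 128) ^ r < 1)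
    (G : (ι → A) → ℝ) (hG : ∀ v (D : Finset ι), G v ≤
      BprA M (fun j : {i // i ∈ D} => v j) (fun i : {i // i ∉ D} => v i)) :
    ∑ v ∈ V, G v ≤ 4 ^ k * (2 * PS M k (fun x : Fin k → A => NS Z r x ∧ I ≤ zc Z x) (NS Z r)) := by
  classical
  have hex : ∀ v : ι → A, ∃ D : Finset ι, v ∈ V → D.card = k ∧ NS Z r (fun i : {i // i ∈ D} => v i) ∧
      NS Z r (fun i : {i // i ∉ D} => v i) ∧
      (I ≤ zc Z (fun i : {i // i ∈ D} => v i) ∨ I ≤ zc Z (fun i : {i // i ∉ D} => v i)) := by
    intro v
    by_cases hv : v ∈ V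
    · obtain ⟨D, hD⟩ := half_pair Z hι v (hV1 v hv) (hV2 v hv) ht
      exact ⟨D, fun _ => hD⟩
    · exact ⟨∅, fun h => absurd h hv⟩
  choose D hD using hex
  have hmap : ∀ v ∈ V, D v ∈ powersetCard k (univ : Finset ι) := fun v hv =>
    mem_powersetCard.2 ⟨subset_univ _, (hD v hv).1⟩
  have hDD : ∀ E ∈ powersetCard k (univ : Finset ι), ∑ v ∈ V.filter (fun v => D v = E), G v ≤
      2 * PS M k (fun x : Fin k → A => NS Z r x ∧ I ≤ zc Z x) (NS Z r) := by
    intro E hE
    have hEk : E.card = k := (mem_powersetCard.1 hE).2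
    have e1 : Fin k ≃ {i // i ∈ E} := Fintype.equivOfCardEq (by
      rw [Fintype.card_fin, Fintype.card_coe, hEk])
    have e2 : Fin k ≃ {i // i ∉ E} := Fintype.equivOfCardEq (by
      rw [Fintype.card_fin, Fintype.card_subtype_compl, Fintype.card_coe, hEk, hι]; omega)
    set P1 : (Fin k → A) → Prop := fun x => NS Z r x ∧ I ≤ zc Z x with hP1
    set S1 : Finset ((Fin k → A) × (Fin k → A)) := (univ.filter P1) ×ˢ (univ.filter (NS Z r)) with hS1
    set S2 : Finset ((Fin k → A) × (Fin k → A)) := (univ.filter (NS Z r)) ×ˢ (univ.filter P1) with hS2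
    have hb : ∑ v ∈ V.filter (fun v => D v = E), G v ≤ ∑ q ∈ S1 ∪ S2, BprA M q.1 q.2 := by
      have h1 : ∑ v ∈ V.filter (fun v => D v = E), G v ≤ ∑ v ∈ V.filter (fun v => D v = E),
          BprA M (fun a : Fin k => v (e1 a)) (fun b : Fin k => v (e2 b)) := by
        refine Finset.sum_le_sum fun v _ => (hG v E).trans (le_of_eq ?_)
        exact (BprA_comp M e1 e2 (fun j : {i // i ∈ E} => v j) (fun i : {i // i ∉ E} => v i)).symm
      refine h1.trans ?_
      have hinj : Set.InjOn (fun v : ι → A => ((fun a : Fin k => v (e1 a)), (fun b : Fin k => v (e2 b))))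
          (V.filter (fun v => D v = E) : Finset (ι → A)) := by
        intro v _ v' _ h
        have ha := congrArg Prod.fst h
        have hb := congrArg Prod.snd h
        funext i
        by_cases hi : i ∈ E
        · have := congrFun ha (e1.symm ⟨i, hi⟩)
          simpa using this
        · have := congrFun hb (e2.symm ⟨i, hi⟩)
          simpa using this
      rw [← Finset.sum_image (f := fun q : (Fin k → A) × (Fin k → A) => BprA M q.1 q.2) hinj]
      apply Finset.sum_le_sum_of_subset_of_nonneg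
      · intro q hq
        obtain ⟨v, hv, rfl⟩ := mem_image.1 hq
        obtain ⟨hvV, hvE⟩ := mem_filter.1 hv
        obtain ⟨-, n1, n2, n3⟩ := hD v hvV
        subst hvE
        have m1 : NS Z r (fun a : Fin k => v (e1 a)) :=
          (NS_comp Z r e1 (fun j : {i // i ∈ D v} => v j)).2 n1
        have m2 : NS Z r (fun a : Fin k => v (e2 a)) :=
          (NS_comp Z r e2 (fun j : {i // i ∉ D v} => v j)).2 n2
        rw [mem_union, hS1, hS2, mem_product, mem_product, mem_filter, mem_filter, mem_filter,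
          mem_filter]
        rcases n3 with n3 | n3
        · left
          refine ⟨⟨mem_univ _, m1, ?_⟩, mem_univ _, m2⟩
          rw [← zc_comp Z e1 (fun j : {i // i ∈ D v} => v j)] at n3
          exact n3
        · right
          refine ⟨⟨mem_univ _, m1⟩, mem_univ _, m2, ?_⟩
          rw [← zc_comp Z e2 (fun j : {i // i ∉ D v} => v j)] at n3
          exact n3
      · intro q _ _
        exact BprA_nonneg M _ _
    refine hb.trans ?_
    have h2 : ∑ q ∈ S1 ∪ S2, BprA M q.1 q.2 ≤ ∑ q ∈ S1, BprA M q.1 q.2 + ∑ q ∈ S2, BprA M q.1 q.2 := by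
      rw [← Finset.sum_union_inter]
      have : 0 ≤ ∑ q ∈ S1 ∩ S2, BprA M q.1 q.2 := Finset.sum_nonneg fun q _ => BprA_nonneg M _ _
      linarith
    refine h2.trans (le_of_eq ?_)
    have h3 : ∑ q ∈ S1, BprA M q.1 q.2 = PS M k P1 (NS Z r) := by
      rw [hS1, Finset.sum_product]
      unfold PS
      congr!
    have h4 : ∑ q ∈ S2, BprA M q.1 q.2 = PS M k (NS Z r) P1 := by
      rw [hS2, Finset.sum_product]
      unfold PS
      congr!
    rw [h3, h4, PS_comm M k (NS Z r) P1]
    ring
  rw [← Finset.sum_fiberwise_of_maps_to hmap G]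
  refine (Finset.sum_le_card_nsmul _ _ _ hDD).trans ?_
  rw [nsmul_eq_mul, card_powersetCard, card_univ, hι]
  apply mul_le_mul_of_nonneg_right
  · have h5 : (2 * k).choose k ≤ 4 ^ k := by
      calc (2 * k).choose k ≤ 2 ^ (2 * k) := Nat.choose_le_two_pow _ _
        _ = 4 ^ k := by rw [pow_mul]; norm_num
    exact_mod_cast h5
  · have : 0 ≤ PS M k (fun x : Fin k → A => NS Z r x ∧ I ≤ zc Z x) (NS Z r) :=
      Finset.sum_nonneg fun _ _ => Finset.sum_nonneg fun _ _ => BprA_nonneg M _ _
    linarith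

/-- delete the index `0` -/
def del {n : ℕ} (b : Sym2 (Fin (n + 1)) → Bool) : Sym2 (Fin n) → Bool :=
  fun z => b (z.map Fin.succ)

theorem del_row_injective {n : ℕ} :
    Function.Injective fun b : Sym2 (Fin (n + 1)) → Bool => (del b, fun j : Fin (n + 1) => b s(0, j)) := by
  intro b b' h
  have h1 : del b = del b' := congrArg Prod.fst h
  have h2 : (fun j => b s(0, j)) = fun j => b' s(0, j) := congrArg Prod.snd h
  funext z
  induction z using Sym2.ind with
  | _ j k =>
    refine Fin.cases ?_ (fun j' => ?_) j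
    · exact congrFun h2 k
    · refine Fin.cases ?_ (fun k' => ?_) k
      · rw [Sym2.eq_swap]; exact congrFun h2 _
      · exact congrFun h1 s(j', k')

theorem card_sym2_succ (n : ℕ) :
    Fintype.card (Sym2 (Fin (n + 1))) = Fintype.card (Sym2 (Fin n)) + (n + 1) := by
  rw [Sym2.card, Sym2.card, Fintype.card_fin, Fintype.card_fin, Nat.choose_succ_succ' (n + 1) 1,
    Nat.choose_one_right, add_comm]

/-- conditioning on the first column -/
theorem SprA_cons_le {n M : ℕ} (hM : 8 ≤ M) (a : A) (v : Fin n → A) (D : Finset (Fin n)) :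
    SprA (Fin.cons a v : Fin (n + 1) → A) 0 ≤
      BprA M (fun j : {i // i ∈ D} => v j) (fun i : {i // i ∉ D} => v i) := by
  classical
  set B : ℝ := BprA M (fun j : {i // i ∈ D} => v j) (fun i : {i // i ∉ D} => v i) with hB
  have hB0 : 0 ≤ B := BprA_nonneg M _ _
  set w : (Fin (n + 1) → Bool) → Fin n → A := fun ρ i => -(if ρ i.succ then a else 0) with hw
  have hstep : ∀ ρ : Fin (n + 1) → Bool,
      ((univ.filter (fun b : Sym2 (Fin n) → Bool => smul2 b v = w ρ)).card : ℝ) ≤
        B * 2 ^ Fintype.card (Sym2 (Fin n)) := by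
    intro ρ
    have h := SprA_le_BprA D hM v (w ρ)
    unfold SprA at h
    rwa [div_le_iff₀ (by positivity)] at h
  have hcard : (univ.filter (fun b : Sym2 (Fin (n + 1)) → Bool =>
      smul2 b (Fin.cons a v : Fin (n + 1) → A) = 0)).card ≤
      ∑ ρ : Fin (n + 1) → Bool, (univ.filter (fun b : Sym2 (Fin n) → Bool => smul2 b v = w ρ)).card := by
    have h1 : (univ.filter (fun b : Sym2 (Fin (n + 1)) → Bool =>
        smul2 b (Fin.cons a v : Fin (n + 1) → A) = 0)).card ≤
        (univ.sigma (fun ρ : Fin (n + 1) → Bool =>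
          univ.filter (fun b : Sym2 (Fin n) → Bool => smul2 b v = w ρ))).card := by
      apply Finset.card_le_card_of_injOn (fun b => ⟨fun j => b s(0, j), del b⟩)
      · intro b hb
        have hb := (mem_filter.1 (mem_coe.1 hb)).2
        rw [mem_coe, Finset.mem_sigma]
        refine ⟨mem_univ _, mem_filter.2 ⟨mem_univ _, ?_⟩⟩
        funext i
        have h2 := congrFun hb i.succ
        unfold smul2 at h2 ⊢
        rw [Fin.sum_univ_succ, Fin.cons_zero] at h2
        simp only [Fin.cons_succ, Pi.zero_apply] at h2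
        have h3 : b s(0, i.succ) = b s(i.succ, 0) := by rw [Sym2.eq_swap]
        have h4 : (∑ j, if del b s(i, j) = true then v j else 0) +
            (if b s(0, i.succ) = true then a else 0) = 0 := by
          refine (add_comm _ _).trans (Eq.trans ?_ h2)
          simp only [h3]
          rfl
        exact eq_neg_of_add_eq_zero_left h4
      · intro b _ b' _ h
        apply del_row_injective
        have h1 := congrArg Sigma.fst h
        have h2 : del b = del b' := by
          have := (Sigma.mk.inj_iff.1 h).2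
          exact eq_of_heq this
        exact Prod.ext h2 h1
    rwa [Finset.card_sigma] at h1
  unfold SprA
  rw [div_le_iff₀ (by positivity), card_sym2_succ]
  calc ((univ.filter (fun b : Sym2 (Fin (n + 1)) → Bool =>
      smul2 b (Fin.cons a v : Fin (n + 1) → A) = 0)).card : ℝ)
      ≤ ∑ ρ : Fin (n + 1) → Bool,
        ((univ.filter (fun b : Sym2 (Fin n) → Bool => smul2 b v = w ρ)).card : ℝ) := by
        exact_mod_cast hcard
    _ ≤ ∑ _ρ : Fin (n + 1) → Bool, B * 2 ^ Fintype.card (Sym2 (Fin n)) :=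
        Finset.sum_le_sum fun ρ _ => hstep ρ
    _ = B * 2 ^ (Fintype.card (Sym2 (Fin n)) + (n + 1)) := by
        rw [Finset.sum_const, card_univ, Fintype.card_fun, Fintype.card_bool, Fintype.card_fin,
          nsmul_eq_mul, pow_add]
        push_cast
        ring

/-- **odd case** -/
theorem odd_case (Z : κ → A → Prop) {k r I M : ℕ} (hM : 8 ≤ M)
    (V : Finset (Fin (2 * k + 1) → A)) (hV1 : ∀ v ∈ V, NS Z (4 * r + 1) v)
    (hV2 : ∀ v ∈ V, 2 * I + Fintype.card κ ≤ zc Z v)
    (ht : 2 * (Fintype.card κ : ℝ) * (81 / 128) ^ r < 1) :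
    ∑ v ∈ V, SprA v 0 ≤ (Fintype.card A : ℝ) *
      (4 ^ k * (2 * PS M k (fun x : Fin k → A => NS Z r x ∧ I ≤ zc Z x) (NS Z r))) := by
  classical
  have hsplit : ∑ v ∈ V, SprA v 0 = ∑ a : A, ∑ v ∈ univ.filter
      (fun v : Fin (2 * k) → A => (Fin.cons a v : Fin (2 * k + 1) → A) ∈ V),
        SprA (Fin.cons a v : Fin (2 * k + 1) → A) 0 := by
    rw [Finset.sum_sigma']
    refine Finset.sum_bij' (fun v _ => (⟨v 0, Fin.tail v⟩ : (_ : A) × (Fin (2 * k) → A)))
      (fun q _ => (Fin.cons q.1 q.2 : Fin (2 * k + 1) → A)) ?_ ?_ ?_ ?_ ?_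
    · intro v hv
      rw [Finset.mem_sigma]
      refine ⟨mem_univ _, mem_filter.2 ⟨mem_univ _, ?_⟩⟩
      simp only [Fin.cons_self_tail]
      exact hv
    · intro q hq
      exact (mem_filter.1 (Finset.mem_sigma.1 hq).2).2
    · intro v _
      simp only [Fin.cons_self_tail]
    · rintro ⟨a, v⟩ _
      simp
    · intro v _
      simp only [Fin.cons_self_tail]
  have hcount : ∀ (R : A → Prop) (a : A) (v : Fin (2 * k) → A),
      (univ.filter fun i => R ((Fin.cons a v : Fin (2 * k + 1) → A) i)).card ≤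
        (univ.filter fun i => R (v i)).card + 1 := by
    intro R a v
    have h1 : (univ.filter fun i => R ((Fin.cons a v : Fin (2 * k + 1) → A) i)) ⊆
        insert 0 ((univ.filter fun i => R (v i)).map (Fin.succEmb _)) := by
      intro i hi
      have hi := (mem_filter.1 hi).2
      revert hi
      refine Fin.cases (fun _ => mem_insert_self _ _) (fun j hj => ?_) i
      rw [Fin.cons_succ] at hj
      refine mem_insert_of_mem (mem_map.2 ⟨j, mem_filter.2 ⟨mem_univ _, hj⟩, rfl⟩)
    refine (Finset.card_le_card h1).trans ((Finset.card_insert_le _ _).trans ?_)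
    rw [Finset.card_map]
  rw [hsplit]
  have hconst : ∀ a : A, ∑ v ∈ univ.filter
      (fun v : Fin (2 * k) → A => (Fin.cons a v : Fin (2 * k + 1) → A) ∈ V),
        SprA (Fin.cons a v : Fin (2 * k + 1) → A) 0 ≤
      4 ^ k * (2 * PS M k (fun x : Fin k → A => NS Z r x ∧ I ≤ zc Z x) (NS Z r)) := by
    intro a
    refine even_case Z (Fintype.card_fin _) _ ?_ ?_ ht
      (fun v : Fin (2 * k) → A => SprA (Fin.cons a v : Fin (2 * k + 1) → A) 0)
      (fun v D => SprA_cons_le hM a v D)
    · intro v hv p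
      have h1 := hV1 _ (mem_filter.1 hv).2 p
      have h2 := hcount (fun c => ¬ Z p c) a v
      have h3 : 4 * r + 1 ≤ (univ.filter fun i => ¬ Z p (v i)).card + 1 := by
        refine le_trans h1 (le_trans (le_of_eq ?_) (le_trans h2 (le_of_eq ?_)))
        · congr!
        · congr!
      have h4 : 4 * r ≤ (univ.filter fun i => ¬ Z p (v i)).card := by omega
      refine le_trans h4 (le_of_eq ?_)
      congr!
    · intro v hv
      have h1 := hV2 _ (mem_filter.1 hv).2
      have h2 : zc Z (Fin.cons a v : Fin (2 * k + 1) → A) ≤ zc Z v + Fintype.card κ := by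
        unfold zc
        rw [Fintype.card, Finset.card_eq_sum_ones, ← Finset.sum_add_distrib]
        apply Finset.sum_le_sum
        intro p _
        exact hcount (fun c => Z p c) a v
      omega
  refine (Finset.sum_le_sum fun a _ => hconst a).trans (le_of_eq ?_)
  rw [Finset.sum_const, card_univ, nsmul_eq_mul]

/-- **leaf L2**, both parities -/
theorem sum_SprA_le_mid (Z : κ → A → Prop) {n k r I M : ℕ} (hM : 8 ≤ M)
    (hn : n = 2 * k ∨ n = 2 * k + 1)
    (V : Finset (Fin n → A)) (hV1 : ∀ v ∈ V, NS Z (4 * r + 1) v)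
    (hV2 : ∀ v ∈ V, 2 * I + Fintype.card κ ≤ zc Z v)
    (ht : 2 * (Fintype.card κ : ℝ) * (81 / 128) ^ r < 1) :
    ∑ v ∈ V, SprA v 0 ≤ (Fintype.card A : ℝ) *
      (4 ^ k * (2 * PS M k (fun x : Fin k → A => NS Z r x ∧ I ≤ zc Z x) (NS Z r))) := by
  classical
  rcases hn with rfl | rfl
  · have h := even_case (M := M) Z (Fintype.card_fin (2 * k)) V
      (fun v hv p => le_trans (Nat.le_succ _) (hV1 v hv p))
      (fun v hv => le_trans (Nat.le_add_right _ _) (hV2 v hv)) ht (fun v => SprA v 0)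
      (fun v D => SprA_le_BprA D hM v 0)
    refine h.trans ?_
    have h1 : (1 : ℝ) ≤ Fintype.card A := by
      have : 0 < Fintype.card A := Fintype.card_pos_iff.2 ⟨0⟩
      exact_mod_cast this
    have h2 : 0 ≤ PS M k (fun x : Fin k → A => NS Z r x ∧ I ≤ zc Z x) (NS Z r) :=
      Finset.sum_nonneg fun _ _ => Finset.sum_nonneg fun _ _ => BprA_nonneg M _ _
    have h3 : 0 ≤ 4 ^ k * (2 * PS M k (fun x : Fin k → A => NS Z r x ∧ I ≤ zc Z x) (NS Z r)) := by
      positivity
    nlinarith
  · exact odd_case Z hM V hV1 hV2 ht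

end main

end Vale.Agent.P160.Half.Mid.ChooseD871
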