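import Vale.Agent.P160.Half.HalfSize505

set_option linter.unusedSectionVars false

/-! # Balanced cuts (P160, MID, step (2))

For a finite family of sets `S i ⊆ Fin n`, all of size `≥ 4 r`, with `#I * (16/27)^r < 1`, there is
`D` of size exactly `n / 2` which contains at least `r` and misses at least `r` elements of every
`S i`. The coordinates `2 t, 2 t + 1` are paired and one of each pair is chosen. -/

namespace Vale.Agent.P160.Half.Cut490

open Finset Vale.Agent.P160 Vale.Agent.P160.Half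

/-- The first moment bound for one set. -/
theorem cnt {n k : ℕ} (E : Fin k → Bool → Fin n) (S : Finset (Fin n)) (r : ℕ) (hr : 1 ≤ r)
    (hcov : 4 * r ≤ (∑ t, ∑ c, if E t c ∈ S then 1 else 0) + 1) :
    ((univ.filter fun σ : Fin k → Bool =>
      (univ.filter fun t => E t (σ t) ∈ S).card < r).card : ℝ) ≤
      2 ^ k * ((1 / 2) * (16 / 27) ^ r) := by
  -- the generating function
  have h1 : ∑ σ : Fin k → Bool, (1 / 3 : ℝ) ^ (univ.filter fun t => E t (σ t) ∈ S).card =
      ∏ t, ∑ c, (if E t c ∈ S then (1 / 3 : ℝ) else 1) := by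
    have h := Finset.prod_univ_sum (fun _ : Fin k => (univ : Finset Bool))
      (fun t c => if E t c ∈ S then (1 / 3 : ℝ) else 1)
    rw [Fintype.piFinset_univ] at h
    rw [h]
    refine sum_congr rfl fun σ _ => ?_
    rw [← Finset.prod_const, Finset.prod_filter]
  have h2 : ∀ t, ∑ c, (if E t c ∈ S then (1 / 3 : ℝ) else 1) ≤
      2 * (2 / 3) ^ (∑ c, if E t c ∈ S then 1 else 0) := by
    intro t
    rw [Fintype.sum_bool, Fintype.sum_bool]
    by_cases ha : E t true ∈ S <;> by_cases hb : E t false ∈ S <;> simp [ha, hb] <;> norm_num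
  have h3 : ∏ t, ∑ c, (if E t c ∈ S then (1 / 3 : ℝ) else 1) ≤
      2 ^ k * (2 / 3) ^ (4 * r - 1) := by
    calc ∏ t, ∑ c, (if E t c ∈ S then (1 / 3 : ℝ) else 1)
        ≤ ∏ t : Fin k, (2 * (2 / 3 : ℝ) ^ (∑ c, if E t c ∈ S then 1 else 0)) := by
          refine prod_le_prod (fun t _ => sum_nonneg fun c _ => ?_) fun t _ => h2 t
          split_ifs <;> norm_num
      _ = 2 ^ k * (2 / 3) ^ (∑ t, ∑ c, if E t c ∈ S then 1 else 0) := by
          rw [prod_mul_distrib, prod_const, card_univ, Fintype.card_fin, prod_pow_eq_pow_sum]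
      _ ≤ 2 ^ k * (2 / 3) ^ (4 * r - 1) := by
          refine mul_le_mul_of_nonneg_left ?_ (by positivity)
          exact pow_le_pow_of_le_one (by norm_num) (by norm_num) (by omega)
  -- Markov
  have h4 : ((univ.filter fun σ : Fin k → Bool =>
      (univ.filter fun t => E t (σ t) ∈ S).card < r).card : ℝ) * (1 / 3) ^ (r - 1) ≤
      ∑ σ : Fin k → Bool, (1 / 3 : ℝ) ^ (univ.filter fun t => E t (σ t) ∈ S).card := by
    rw [← nsmul_eq_mul, ← sum_const, sum_filter]
    refine sum_le_sum fun σ _ => ?_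
    split_ifs with h
    · exact pow_le_pow_of_le_one (by norm_num) (by norm_num) (by omega)
    · positivity
  rw [h1] at h4
  have h5 := h4.trans h3
  obtain ⟨q, rfl⟩ : ∃ q, r = q + 1 := ⟨r - 1, by omega⟩
  have e1 : q + 1 - 1 = q := by omega
  have e2 : 4 * (q + 1) - 1 = 4 * q + 3 := by omega
  rw [e1, e2] at h5
  have h6 : (0 : ℝ) < (1 / 3) ^ q := by positivity
  have h7 : (2 : ℝ) ^ k * (2 / 3) ^ (4 * q + 3) =
      (2 ^ k * ((1 / 2) * (16 / 27) ^ (q + 1))) * (1 / 3) ^ q := by
    have e3 : (2 / 3 : ℝ) ^ (4 * q + 3) = (16 / 81) ^ q * (8 / 27) := by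
      rw [pow_add, pow_mul]; norm_num
    have e4 : (16 / 27 : ℝ) ^ (q + 1) = (16 / 27) ^ q * (16 / 27) := pow_succ _ _
    have e5 : (16 / 81 : ℝ) ^ q = (16 / 27) ^ q * (1 / 3) ^ q := by
      rw [← mul_pow]; norm_num
    rw [e3, e4, e5]
    ring
  rw [h7] at h5
  exact le_of_mul_le_mul_right h5 h6

/-- The pair map. -/
def pr (n : ℕ) (t : Fin (n / 2)) (c : Bool) : Fin n :=
  ⟨2 * t.1 + (if c then 1 else 0), by
    have := t.2
    split_ifs <;> omega⟩

theorem pr_inj {n : ℕ} {t t' : Fin (n / 2)} {c c' : Bool} (h : pr n t c = pr n t' c') :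
    t = t' ∧ c = c' := by
  unfold pr at h
  rw [Fin.mk.injEq] at h
  have h1 : t.1 = t'.1 := by
    split_ifs at h <;> omega
  refine ⟨Fin.ext h1, ?_⟩
  cases c <;> cases c' <;> simp at h ⊢ <;> omega

theorem cover (n : ℕ) (S : Finset (Fin n)) :
    S.card ≤ (∑ t : Fin (n / 2), ∑ c, if pr n t c ∈ S then 1 else 0) + 1 := by
  classical
  have h1 : (∑ t : Fin (n / 2), ∑ c, if pr n t c ∈ S then 1 else 0) =
      (univ.filter fun p : Fin (n / 2) × Bool => pr n p.1 p.2 ∈ S).card := by
    rw [card_filter, Fintype.sum_prod_type]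
  rw [h1]
  have h2 : S.card ≤ ((univ.filter fun p : Fin (n / 2) × Bool => pr n p.1 p.2 ∈ S).image
      fun p => pr n p.1 p.2).card + (S.filter fun i => i.1 + 1 = n).card := by
    refine (card_le_card ?_).trans (card_union_le _ _)
    intro i hi
    rw [mem_union, mem_image, mem_filter]
    by_cases h : i.1 + 1 = n ∧ n % 2 = 1
    · right
      exact ⟨hi, h.1⟩
    · left
      have hi2 := i.2
      refine ⟨(⟨i.1 / 2, by omega⟩, decide (i.1 % 2 = 1)), ?_, ?_⟩
      · rw [mem_filter]
        refine ⟨mem_univ _, ?_⟩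
        convert hi using 1
        unfold pr
        ext
        simp only [decide_eq_true_eq]
        split_ifs <;> omega
      · unfold pr
        ext
        simp only [decide_eq_true_eq]
        split_ifs <;> omega
  have h3 : (S.filter fun i => i.1 + 1 = n).card ≤ 1 := by
    rw [card_le_one]
    intro a ha b hb
    rw [mem_filter] at ha hb
    exact Fin.ext (by omega)
  have h4 : ((univ.filter fun p : Fin (n / 2) × Bool => pr n p.1 p.2 ∈ S).image
      fun p => pr n p.1 p.2).card ≤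
      (univ.filter fun p : Fin (n / 2) × Bool => pr n p.1 p.2 ∈ S).card := card_image_le
  omega

/-- The cut of a selector. -/
def cut (n : ℕ) (σ : Fin (n / 2) → Bool) : Finset (Fin n) := univ.image fun t => pr n t (σ t)

theorem card_cut490 (n : ℕ) (σ : Fin (n / 2) → Bool) : (cut n σ).card = n / 2 := by
  unfold cut
  rw [card_image_of_injective _ fun t t' h => (pr_inj h).1, card_univ, Fintype.card_fin]

theorem inter_ge (n : ℕ) (σ : Fin (n / 2) → Bool) (S : Finset (Fin n)) :
    (univ.filter fun t => pr n t (σ t) ∈ S).card ≤ (S ∩ cut n σ).card := by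
  refine card_le_card_of_injOn (fun t => pr n t (σ t)) ?_ ?_
  · intro t ht
    have ht' := (mem_filter.1 ht).2
    exact mem_coe.2 (mem_inter.2 ⟨ht', mem_image_of_mem _ (mem_univ t)⟩)
  · intro t _ t' _ h
    exact (pr_inj h).1

theorem sdiff_ge (n : ℕ) (σ : Fin (n / 2) → Bool) (S : Finset (Fin n)) :
    (univ.filter fun t => pr n t (!(σ t)) ∈ S).card ≤ (S \ cut n σ).card := by
  refine card_le_card_of_injOn (fun t => pr n t (!(σ t))) ?_ ?_
  · intro t ht
    have ht' := (mem_filter.1 ht).2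
    refine mem_coe.2 (mem_sdiff.2 ⟨ht', fun hc => ?_⟩)
    obtain ⟨t', _, h⟩ := mem_image.1 hc
    obtain ⟨rfl, h2⟩ := pr_inj h
    cases hσ : σ t' <;> simp [hσ] at h2
  · intro t _ t' _ h
    exact (pr_inj h).1

/-- **Balanced cut.** -/
theorem exists_cut {n : ℕ} {I : Type*} [Fintype I] (S : I → Finset (Fin n)) (r : ℕ)
    (hS : ∀ i, 4 * r ≤ (S i).card) (h : (Fintype.card I : ℝ) * (16 / 27) ^ r < 1) :
    ∃ D : Finset (Fin n), D.card = n / 2 ∧
      ∀ i, r ≤ (S i ∩ D).card ∧ r ≤ (S i \ D).card := by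
  classical
  rcases Nat.eq_zero_or_pos r with rfl | hr
  · exact ⟨cut n fun _ => true, card_cut490 n _, fun i => ⟨Nat.zero_le _, Nat.zero_le _⟩⟩
  set B₁ : I → Finset (Fin (n / 2) → Bool) := fun i => univ.filter fun σ =>
    (univ.filter fun t => pr n t (σ t) ∈ S i).card < r with hB₁
  set B₂ : I → Finset (Fin (n / 2) → Bool) := fun i => univ.filter fun σ =>
    (univ.filter fun t => pr n t (!(σ t)) ∈ S i).card < r with hB₂
  have h1 : ∀ i, ((B₁ i).card : ℝ) ≤ 2 ^ (n / 2) * ((1 / 2) * (16 / 27) ^ r) := by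
    intro i
    exact cnt (pr n) (S i) r hr ((hS i).trans (cover n (S i)))
  have h2 : ∀ i, ((B₂ i).card : ℝ) ≤ 2 ^ (n / 2) * ((1 / 2) * (16 / 27) ^ r) := by
    intro i
    refine cnt (fun t c => pr n t (!c)) (S i) r hr ((hS i).trans ((cover n (S i)).trans ?_))
    refine le_of_eq ?_
    congr 1
    refine sum_congr rfl fun t _ => ?_
    rw [Fintype.sum_bool, Fintype.sum_bool]
    simp only [Bool.not_true, Bool.not_false]
    ring
  have h3 : ∃ σ : Fin (n / 2) → Bool, ∀ i, σ ∉ B₁ i ∧ σ ∉ B₂ i := by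
    by_contra hcon
    push Not at hcon
    have h4 : (univ : Finset (Fin (n / 2) → Bool)) ⊆ univ.biUnion fun i => B₁ i ∪ B₂ i := by
      intro σ _
      obtain ⟨i, hi⟩ := hcon σ
      rw [mem_biUnion]
      refine ⟨i, mem_univ _, ?_⟩
      rw [mem_union]
      by_cases h5 : σ ∈ B₁ i
      · exact Or.inl h5
      · exact Or.inr (hi h5)
    have h5 := (card_le_card h4).trans card_biUnion_le
    have h6 : (2 : ℝ) ^ (n / 2) ≤ ∑ i : I, (((B₁ i).card : ℝ) + ((B₂ i).card : ℝ)) := by
      have h7 : ((univ : Finset (Fin (n / 2) → Bool)).card : ℝ) ≤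
          ((∑ i : I, (B₁ i ∪ B₂ i).card : ℕ) : ℝ) := by exact_mod_cast h5
      rw [card_univ, Fintype.card_fun, Fintype.card_bool, Fintype.card_fin] at h7
      push_cast at h7
      refine h7.trans (sum_le_sum fun i _ => ?_)
      exact_mod_cast card_union_le _ _
    have h8 : ∑ i : I, (((B₁ i).card : ℝ) + ((B₂ i).card : ℝ)) ≤
        ∑ _i : I, (2 ^ (n / 2) * (16 / 27 : ℝ) ^ r) := by
      refine sum_le_sum fun i _ => ?_
      have := h1 i
      have := h2 i
      linarith
    rw [sum_const, card_univ, nsmul_eq_mul] at h8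
    have h9 : (0 : ℝ) < 2 ^ (n / 2) := by positivity
    nlinarith
  obtain ⟨σ, hσ⟩ := h3
  refine ⟨cut n σ, card_cut490 n σ, fun i => ⟨?_, ?_⟩⟩
  · have h4 := (hσ i).1
    simp only [hB₁, mem_filter, mem_univ, true_and, not_lt] at h4
    exact h4.trans (inter_ge n σ (S i))
  · have h4 := (hσ i).2
    simp only [hB₂, mem_filter, mem_univ, true_and, not_lt] at h4
    exact h4.trans (sdiff_ge n σ (S i))

section summed

variable {A : Type*} [AddCommGroup A] [Fintype A] [DecidableEq A]
variable {ι : Type*} [Fintype ι] [DecidableEq ι]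

open Classical in
/-- **Union over the cuts**: each vector uses one of its own good cuts. -/
theorem sum_SprA_le_cuts {M : ℕ} (hM : 8 ≤ M) (V : Finset (ι → A)) (w : (ι → A) → ι → A)
    (Dset : Finset (Finset ι)) (Bal : Finset ι → (ι → A) → Prop)
    (h : ∀ u ∈ V, ∃ D ∈ Dset, Bal D u) :
    ∑ u ∈ V, SprA u (w u) ≤ ∑ D ∈ Dset, ∑ u ∈ V.filter (fun u => Bal D u),
      BprA M (fun j : {i // i ∈ D} => u j) (fun i : {i // i ∉ D} => u i) := by
  have hB0 : ∀ (D : Finset ι) (u : ι → A), 0 ≤
      BprA M (fun j : {i // i ∈ D} => u j) (fun i : {i // i ∉ D} => u i) := by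
    intro D u
    unfold BprA
    positivity
  have h1 : ∀ u ∈ V, SprA u (w u) ≤ ∑ D ∈ Dset, if Bal D u then
      BprA M (fun j : {i // i ∈ D} => u j) (fun i : {i // i ∉ D} => u i) else 0 := by
    intro u hu
    obtain ⟨D, hD, hb⟩ := h u hu
    refine (SprA_le_BprA D hM u (w u)).trans ?_
    have h2 := single_le_sum (s := Dset) (f := fun D => if Bal D u then
      BprA M (fun j : {i // i ∈ D} => u j) (fun i : {i // i ∉ D} => u i) else 0)
      (fun D _ => by
        split_ifs
        · exact hB0 D u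
        · exact le_rfl) hD
    simp only [if_pos hb] at h2
    exact h2
  refine (sum_le_sum h1).trans (le_of_eq ?_)
  rw [sum_comm]
  refine sum_congr rfl fun D _ => ?_
  rw [sum_filter]

end summed

section prodcase

variable {I : Type*} [Fintype I] [DecidableEq I] {X : I → Type*} [∀ i, AddCommGroup (X i)]
  [∀ i, Fintype (X i)] [∀ i, DecidableEq (X i)]

/-- The support of the `i`-th component. -/
def supp {n : ℕ} (u : Fin n → ∀ i, X i) (i : I) : Finset (Fin n) := univ.filter fun j => u j i ≠ 0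

/-- `D` is balanced for `u`: both halves of every component have at least `r` nonzero entries. -/
def Bal {n : ℕ} (r : ℕ) (D : Finset (Fin n)) (u : Fin n → ∀ i, X i) : Prop :=
  ∀ i, r ≤ (supp u i ∩ D).card ∧ r ≤ (supp u i \ D).card

open Classical in
/-- **Balanced halves**: vectors over a product group all of whose components have at least
`4 r` nonzero coordinates. -/
theorem sum_SprA_le_bal {n M r : ℕ} (hM : 8 ≤ M) (V : Finset (Fin n → ∀ i, X i))
    (w : (Fin n → ∀ i, X i) → Fin n → ∀ i, X i)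
    (hV : ∀ u ∈ V, ∀ i, 4 * r ≤ (supp u i).card)
    (hr : (Fintype.card I : ℝ) * (16 / 27) ^ r < 1) :
    ∑ u ∈ V, SprA u (w u) ≤ ∑ D ∈ powersetCard (n / 2) (univ : Finset (Fin n)),
      ∑ u ∈ V.filter (fun u => Bal r D u),
        BprA M (fun j : {i // i ∈ D} => u j) (fun i : {i // i ∉ D} => u i) := by
  refine sum_SprA_le_cuts hM V w _ (Bal r) fun u hu => ?_
  obtain ⟨D, hD, h⟩ := exists_cut (supp u) r (hV u hu) hr
  exact ⟨D, mem_powersetCard.2 ⟨subset_univ _, hD⟩, h⟩

/-- At least half of the incidences (zeros) lie in `D` or outside `D`. -/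
theorem half_incid {n : ℕ} (u : Fin n → ∀ i, X i) (D : Finset (Fin n)) (I₀ : ℕ)
    (h : 2 * I₀ ≤ (univ.filter fun q : Fin n × I => u q.1 q.2 = 0).card) :
    I₀ ≤ (univ.filter fun q : {j // j ∈ D} × I => u q.1 q.2 = 0).card ∨
      I₀ ≤ (univ.filter fun q : {j // j ∉ D} × I => u q.1 q.2 = 0).card := by
  classical
  have h1 : (univ.filter fun q : Fin n × I => u q.1 q.2 = 0).card ≤
      (univ.filter fun q : {j // j ∈ D} × I => u q.1 q.2 = 0).card +
      (univ.filter fun q : {j // j ∉ D} × I => u q.1 q.2 = 0).card := by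
    have h2 : (univ.filter fun q : Fin n × I => u q.1 q.2 = 0) ⊆
        ((univ.filter fun q : {j // j ∈ D} × I => u q.1 q.2 = 0).image fun q => (q.1.1, q.2)) ∪
        ((univ.filter fun q : {j // j ∉ D} × I => u q.1 q.2 = 0).image fun q => (q.1.1, q.2)) := by
      intro q hq
      have hq' := (mem_filter.1 hq).2
      rw [mem_union, mem_image, mem_image]
      by_cases hj : q.1 ∈ D
      · left
        exact ⟨(⟨q.1, hj⟩, q.2), mem_filter.2 ⟨mem_univ _, hq'⟩, rfl⟩
      · right
        exact ⟨(⟨q.1, hj⟩, q.2), mem_filter.2 ⟨mem_univ _, hq'⟩, rfl⟩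
    exact (card_le_card h2).trans ((card_union_le _ _).trans
      (Nat.add_le_add card_image_le card_image_le))
  omega

end prodcase

end Vale.Agent.P160.Half.Cut490
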