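import Vale.Agent.P160.Half.Mid.Cut490
import Vale.Agent.P160.Half.HalfBal505

set_option linter.unusedSectionVars false

/-! # The tail over the exact half-size cuts (P160, MID)

`#ι = 2k`, `S ⊆ ι`, `4 r ≤ #S`: at most `(16/27)^r * centralBinom k` of the `k`-subsets `D` have
`#(S ∩ D) < r` or `#(S \ D) < r`. -/

namespace Vale.Agent.P160.Half.Cut490

open Finset Vale.Agent.P160 Vale.Agent.P160.Half

variable {ι : Type*} [Fintype ι] [DecidableEq ι]

/-- bad set for `S` -/
def Bad (r : ℕ) (S D : Finset ι) : Prop := (S ∩ D).card < r ∨ (S \ D).card < r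

/-- For every bijection only few selectors are bad. -/
theorem card_sel {k r : ℕ} (hr : 1 ≤ r) (S : Finset (Fin (2 * k))) (hS : 4 * r ≤ S.card) :
    ((univ.filter fun σ : Fin (2 * k / 2) → Bool =>
      (S ∩ cut (2 * k) σ).card < r ∨ (S \ cut (2 * k) σ).card < r).card : ℝ) ≤
      2 ^ (2 * k / 2) * (16 / 27) ^ r := by
  classical
  have h1 := cnt (pr (2 * k)) S r hr (hS.trans (cover (2 * k) S))
  have h2 := cnt (fun t c => pr (2 * k) t (!c)) S r hr (hS.trans ((cover (2 * k) S).trans (by
    refine le_of_eq ?_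
    congr 1
    refine sum_congr rfl fun t _ => ?_
    rw [Fintype.sum_bool, Fintype.sum_bool]
    simp only [Bool.not_true, Bool.not_false]
    ring)))
  have h3 : (univ.filter fun σ : Fin (2 * k / 2) → Bool =>
      (S ∩ cut (2 * k) σ).card < r ∨ (S \ cut (2 * k) σ).card < r) ⊆
      (univ.filter fun σ : Fin (2 * k / 2) → Bool =>
        (univ.filter fun t => pr (2 * k) t (σ t) ∈ S).card < r) ∪
      (univ.filter fun σ : Fin (2 * k / 2) → Bool =>
        (univ.filter fun t => pr (2 * k) t (!(σ t)) ∈ S).card < r) := by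
    intro σ hσ
    rw [mem_union, mem_filter, mem_filter]
    rcases (mem_filter.1 hσ).2 with h | h
    · exact Or.inl ⟨mem_univ _, (inter_ge (2 * k) σ S).trans_lt h⟩
    · exact Or.inr ⟨mem_univ _, (sdiff_ge (2 * k) σ S).trans_lt h⟩
  have h4 := (card_le_card h3).trans (card_union_le _ _)
  have h5 : ((univ.filter fun σ : Fin (2 * k / 2) → Bool =>
      (S ∩ cut (2 * k) σ).card < r ∨ (S \ cut (2 * k) σ).card < r).card : ℝ) ≤
      ((univ.filter fun σ : Fin (2 * k / 2) → Bool =>
        (univ.filter fun t => pr (2 * k) t (σ t) ∈ S).card < r).card : ℝ) +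
      ((univ.filter fun σ : Fin (2 * k / 2) → Bool =>
        (univ.filter fun t => pr (2 * k) t (!(σ t)) ∈ S).card < r).card : ℝ) := by
    exact_mod_cast h4
  linarith

/-- number of representations of a cut -/
def rep (k : ℕ) (D : Finset ι) : ℕ :=
  (univ.filter fun q : (Fin (2 * k) ≃ ι) × (Fin (2 * k / 2) → Bool) =>
    (cut (2 * k) q.2).map q.1.toEmbedding = D).card

theorem rep_const (k : ℕ) {D D' : Finset ι} (h : D.card = D'.card) : rep k D ≤ rep k D' := by
  classical
  set τ : Equiv.Perm ι := (Finset.equivOfCardEq h).extendSubtype with hτ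
  have hmap : D.map τ.toEmbedding = D' := by
    refine eq_of_subset_of_card_le ?_ (by rw [card_map, h])
    intro x hx
    obtain ⟨y, hy, rfl⟩ := mem_map.1 hx
    exact Equiv.extendSubtype_mem (Finset.equivOfCardEq h) y hy
  unfold rep
  refine card_le_card_of_injOn (fun q => (q.1.trans τ, q.2)) ?_ ?_
  · intro q hq
    have hq' := (mem_filter.1 hq).2
    refine mem_coe.2 (mem_filter.2 ⟨mem_univ _, ?_⟩)
    rw [← hmap, ← hq', map_map]
    rfl
  · intro q _ q' _ hqq
    simp only [Prod.mk.injEq] at hqq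
    refine Prod.ext ?_ hqq.2
    have h1 := hqq.1
    ext i
    have h2 := congrArg (fun e : Fin (2 * k) ≃ ι => e i) h1
    simp only [Equiv.trans_apply] at h2
    exact τ.injective h2

/-- **Hypergeometric tail.** -/
theorem card_bad_cut {k r : ℕ} (hι : Fintype.card ι = 2 * k) (S : Finset ι)
    (hS : 4 * r ≤ S.card) :
    ((univ.filter fun D : Cut ι k => (S ∩ D.1).card < r ∨ (S \ D.1).card < r).card : ℝ) ≤
      (16 / 27) ^ r * Nat.centralBinom k := by
  classical
  rcases Nat.eq_zero_or_pos r with rfl | hr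
  · have h0 : (univ.filter fun D : Cut ι k => (S ∩ D.1).card < 0 ∨ (S \ D.1).card < 0) = ∅ := by
      apply filter_eq_empty_iff.2
      intro D _ h
      rcases h with h | h <;> exact absurd h (Nat.not_lt_zero _)
    rw [h0]
    simp
  -- a reference cut
  obtain ⟨e₀⟩ : Nonempty (Fin (2 * k) ≃ ι) := ⟨(Fintype.equivFinOfCardEq hι).symm⟩
  have hcutcard : ∀ q : (Fin (2 * k) ≃ ι) × (Fin (2 * k / 2) → Bool),
      ((cut (2 * k) q.2).map q.1.toEmbedding).card = k := by
    intro q
    rw [card_map, card_cut490]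
    omega
  set D₀ : Cut ι k := ⟨(cut (2 * k) fun _ => true).map e₀.toEmbedding,
    hcutcard (e₀, fun _ => true)⟩ with hD₀
  have hrep : ∀ D : Cut ι k, rep k D.1 = rep k D₀.1 := fun D =>
    le_antisymm (rep_const k (D.2.trans D₀.2.symm)) (rep_const k (D₀.2.trans D.2.symm))
  -- double counting
  have hdc : ∀ p : Cut ι k → Prop, ∀ [DecidablePred p],
      (univ.filter p).card * rep k D₀.1 =
      (univ.filter fun q : (Fin (2 * k) ≃ ι) × (Fin (2 * k / 2) → Bool) =>
        p ⟨(cut (2 * k) q.2).map q.1.toEmbedding, hcutcard q⟩).card := by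
    intro p _
    have h1 : (univ.filter fun q : (Fin (2 * k) ≃ ι) × (Fin (2 * k / 2) → Bool) =>
        p ⟨(cut (2 * k) q.2).map q.1.toEmbedding, hcutcard q⟩).card =
        ∑ D ∈ univ.filter p, ((univ.filter fun q : (Fin (2 * k) ≃ ι) ×
          (Fin (2 * k / 2) → Bool) =>
          p ⟨(cut (2 * k) q.2).map q.1.toEmbedding, hcutcard q⟩).filter fun q =>
            (⟨(cut (2 * k) q.2).map q.1.toEmbedding, hcutcard q⟩ : Cut ι k) = D).card := by
      refine card_eq_sum_card_fiberwise fun q hq => ?_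
      exact mem_coe.2 (mem_filter.2 ⟨mem_univ _, (mem_filter.1 hq).2⟩)
    rw [h1, ← smul_eq_mul, ← sum_const]
    refine sum_congr rfl fun D hD => ?_
    rw [← hrep D, filter_filter]
    unfold rep
    congr 1
    ext q
    simp only [mem_filter, mem_univ, true_and]
    constructor
    · intro h
      have h2 : (⟨(cut (2 * k) q.2).map q.1.toEmbedding, hcutcard q⟩ : Cut ι k) = D :=
        Subtype.ext h
      exact ⟨by rw [h2]; exact (mem_filter.1 hD).2, h2⟩
    · intro h
      exact congrArg Subtype.val h.2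
  have hall := hdc (fun _ => True)
  have hbad := hdc (fun D : Cut ι k => (S ∩ D.1).card < r ∨ (S \ D.1).card < r)
  simp only [filter_true] at hall
  rw [card_univ, card_univ, card_cut k hι, Fintype.card_prod] at hall
  -- the count of the bad pairs
  have hcount : ((univ.filter fun q : (Fin (2 * k) ≃ ι) × (Fin (2 * k / 2) → Bool) =>
      (S ∩ (cut (2 * k) q.2).map q.1.toEmbedding).card < r ∨
        (S \ (cut (2 * k) q.2).map q.1.toEmbedding).card < r).card : ℝ) ≤
      Fintype.card (Fin (2 * k) ≃ ι) * (2 ^ (2 * k / 2) * (16 / 27) ^ r) := by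
    have h1 : (univ.filter fun q : (Fin (2 * k) ≃ ι) × (Fin (2 * k / 2) → Bool) =>
      (S ∩ (cut (2 * k) q.2).map q.1.toEmbedding).card < r ∨
        (S \ (cut (2 * k) q.2).map q.1.toEmbedding).card < r).card =
        ∑ π : Fin (2 * k) ≃ ι, (univ.filter fun σ : Fin (2 * k / 2) → Bool =>
          (S ∩ (cut (2 * k) σ).map π.toEmbedding).card < r ∨
            (S \ (cut (2 * k) σ).map π.toEmbedding).card < r).card := by
      simp only [card_filter]
      rw [Fintype.sum_prod_type]
    rw [h1]
    push_cast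
    rw [← nsmul_eq_mul, ← card_univ, ← sum_const]
    refine sum_le_sum fun π _ => ?_
    have h2 := card_sel hr (S.map π.symm.toEmbedding) (k := k) (by rw [card_map]; exact hS)
    refine le_trans (le_of_eq ?_) h2
    congr 2
    ext σ
    simp only [mem_filter, mem_univ, true_and]
    have h3 : (S ∩ (cut (2 * k) σ).map π.toEmbedding).card =
        (S.map π.symm.toEmbedding ∩ cut (2 * k) σ).card := by
      rw [← card_map π.toEmbedding (s := S.map π.symm.toEmbedding ∩ cut (2 * k) σ), Finset.map_inter,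
        map_map]
      congr 2
      ext x
      simp
    have h4 : (S \ (cut (2 * k) σ).map π.toEmbedding).card =
        (S.map π.symm.toEmbedding \ cut (2 * k) σ).card := by
      rw [← card_map π.toEmbedding (s := S.map π.symm.toEmbedding \ cut (2 * k) σ), Finset.map_sdiff,
        map_map]
      congr 2
      ext x
      simp
    rw [h3, h4]
  have hrep0 : 0 < rep k D₀.1 := by
    unfold rep
    exact card_pos.2 ⟨(e₀, fun _ => true), mem_filter.2 ⟨mem_univ _, rfl⟩⟩
  have h6 : ((univ.filter fun D : Cut ι k => (S ∩ D.1).card < r ∨ (S \ D.1).card < r).card : ℝ) *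
      rep k D₀.1 ≤ ((16 / 27) ^ r * Nat.centralBinom k) * rep k D₀.1 := by
    have h7 : (((univ.filter fun D : Cut ι k =>
        (S ∩ D.1).card < r ∨ (S \ D.1).card < r).card * rep k D₀.1 : ℕ) : ℝ) ≤
        Fintype.card (Fin (2 * k) ≃ ι) * (2 ^ (2 * k / 2) * (16 / 27) ^ r) := by
      rw [hbad]
      exact hcount
    have h8 : ((Nat.centralBinom k * rep k D₀.1 : ℕ) : ℝ) =
        Fintype.card (Fin (2 * k) ≃ ι) * 2 ^ (2 * k / 2) := by
      rw [hall, Fintype.card_fun, Fintype.card_bool, Fintype.card_fin]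
      push_cast
      ring
    push_cast at h7 h8
    calc _ ≤ _ := h7
      _ = (16 / 27) ^ r * ((Fintype.card (Fin (2 * k) ≃ ι) : ℝ) * 2 ^ (2 * k / 2)) := by ring
      _ = _ := by rw [← h8]; ring
  exact le_of_mul_le_mul_right h6 (by exact_mod_cast hrep0)

open Classical in
/-- **Hypergeometric tail for a family.** -/
theorem card_bad_cut_family {I : Type*} [Fintype I] {k r : ℕ} (hι : Fintype.card ι = 2 * k)
    (S : I → Finset ι) (hS : ∀ i, 4 * r ≤ (S i).card) :
    ((univ.filter fun D : Cut ι k => ∃ i, (S i ∩ D.1).card < r ∨ (S i \ D.1).card < r).card : ℝ) ≤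
      Fintype.card I * ((16 / 27) ^ r * Nat.centralBinom k) := by
  have h1 : (univ.filter fun D : Cut ι k =>
      ∃ i, (S i ∩ D.1).card < r ∨ (S i \ D.1).card < r) ⊆
      univ.biUnion fun i => univ.filter fun D : Cut ι k =>
        (S i ∩ D.1).card < r ∨ (S i \ D.1).card < r := by
    intro D hD
    obtain ⟨i, hi⟩ := (mem_filter.1 hD).2
    exact mem_biUnion.2 ⟨i, mem_univ _, mem_filter.2 ⟨mem_univ _, hi⟩⟩
  have h2 := (card_le_card h1).trans card_biUnion_le
  have h3 : ((univ.filter fun D : Cut ι k =>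
      ∃ i, (S i ∩ D.1).card < r ∨ (S i \ D.1).card < r).card : ℝ) ≤
      ∑ i : I, ((univ.filter fun D : Cut ι k =>
        (S i ∩ D.1).card < r ∨ (S i \ D.1).card < r).card : ℝ) := by
    exact_mod_cast h2
  refine h3.trans ?_
  rw [← nsmul_eq_mul, ← card_univ, ← sum_const]
  refine sum_le_sum fun i _ => ?_
  convert card_bad_cut hι (S i) (hS i)

end Vale.Agent.P160.Half.Cut490
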