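import Vale.Agent.P160.Half.HalfEx338

set_option linter.unusedSectionVars false

/-! # P160/Half: half size reduction, exact law `(1/4, 1/2, 1/4)`, only over GOOD cuts

`good v D`: the cut `D` is good for the vector `v`; if for every `v ∈ V` one has `L * #bad ≤ #good`, then
`∑_{v ∈ V} P(S v = w v) ≤ e |A| Y^(1-1/(2k)) + |A|^(2k) e^(-L)`, `Y ≥ ∑_{v ∈ V, good v D} P(Ξ v_D = 0 ∧ Ξᵀ v_{Dᶜ} = 0)` for every cut.
-/

namespace Vale.Agent.P160.Half.Fair514

open Finset Vale.Agent.P160 Vale.Agent.P160.Half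

variable {A : Type*} [AddCommGroup A] [Fintype A] [DecidableEq A]
variable {ι : Type*} [Fintype ι] [DecidableEq ι]

/-- the pointwise bound for one character, with weights on the cuts -/
lemma prod_le_good (k : ℕ) (hk : 0 < k) (hι : Fintype.card ι = 2 * k) (c : Sym2 ι → ι → A)
    (ψ : AddChar (ι → A) ℂ) (good : Cut ι k → Prop) [DecidablePred good] {L : ℝ}
    (hL : L * ((univ.filter (fun D => ¬ good D)).card : ℝ) ≤ ((univ.filter good).card : ℝ)) :
    ∏ e, ‖(1 + ψ (c e)) / 2‖ ≤
      (Real.exp 1 * ∑ D ∈ univ.filter good, (∏ p, cfL 1 4 (ψ (c (offp D.1 p)))) ^ tau k) /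
        Nat.centralBinom k + Real.exp (-L) := by
  classical
  have hne : Nonempty (Cut ι k) := by
    have : 0 < Fintype.card (Cut ι k) := by rw [card_cut k hι]; exact Nat.centralBinom_pos k
    exact Fintype.card_pos_iff.1 this
  have hcard : (Fintype.card (Cut ι k) : ℝ) = Nat.centralBinom k := by rw [card_cut k hι]
  have hT : (0 : ℝ) < Nat.centralBinom k := by exact_mod_cast Nat.centralBinom_pos k
  have hk0 : ∀ e, 0 ≤ ‖(1 + ψ (c e)) / 2‖ := fun e => norm_nonneg _
  have hk1 : ∀ e, ‖(1 + ψ (c e)) / 2‖ ≤ 1 := fun e => norm_half_le_one (norm_addChar _ _)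
  have hcf : ∀ e, 0 ≤ cfL 1 4 (ψ (c e)) := fun e => by
    rw [cfL_one_four (norm_addChar _ _)]; positivity
  have hcf1 : ∀ e, cfL 1 4 (ψ (c e)) ≤ 1 := fun e => by
    rw [cfL_one_four (norm_addChar _ _)]
    exact pow_le_one₀ (hk0 _) (hk1 _)
  have h3 := amgm_core (T := Cut ι k) (fun e => ‖(1 + ψ (c e)) / 2‖) hk0
    (fun D => if good D then Real.exp 1 else Real.exp (-L))
    (fun D => by split_ifs <;> exact (Real.exp_pos _).le) (by
      rw [Finset.prod_ite, prod_const, prod_const, ← Real.exp_nat_mul, ← Real.exp_nat_mul,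
        ← Real.exp_add]
      apply Real.one_le_exp
      linarith)
    (fun D e => if ∃ p, offp D.1 p = e then cfL 1 4 (ψ (c e)) ^ tau k else 1)
    (fun D e => by
      split_ifs
      · exact Real.rpow_nonneg (hcf e) _
      · exact zero_le_one)
    (by
      intro e
      rw [card_cut k hι]
      have hprod : ∏ D : Cut ι k, (if ∃ p, offp D.1 p = e then
          cfL 1 4 (ψ (c e)) ^ tau k else 1) =
          (cfL 1 4 (ψ (c e)) ^ tau k) ^
            (univ.filter fun D : Cut ι k => ∃ p, offp D.1 p = e).card := by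
        rw [← Finset.prod_const, Finset.prod_filter]
      rw [hprod]
      induction e using Sym2.ind with
      | _ i j =>
      by_cases hij : i = j
      · have h0 : (univ.filter fun D : Cut ι k => ∃ p, offp D.1 p = s(i, j)) = ∅ := by
          rw [filter_eq_empty_iff]
          intro D _
          rw [sep_iff, hij]
          tauto
        rw [h0, card_empty, pow_zero]
        exact pow_le_one₀ (hk0 _) (hk1 _)
      · rw [card_sep2 k hk hι hij, cfL_one_four (norm_addChar _ _)]
        exact (pow_centralBinom_eq k hk (hk0 _)).le)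
  rw [hcard] at h3
  refine h3.trans ?_
  have h4 : ∀ D : Cut ι k, ∏ e, (if ∃ p, offp D.1 p = e then
      cfL 1 4 (ψ (c e)) ^ tau k else 1) = (∏ p, cfL 1 4 (ψ (c (offp D.1 p)))) ^ tau k := by
    intro D
    rw [← prod_comp_eq (offp D.1) (offp_injective D.1)
      (fun e => cfL 1 4 (ψ (c e)) ^ tau k), Real.finsetProd_rpow _ _ (fun p _ => hcf _)]
  rw [sum_congr rfl fun D _ => by rw [h4 D]]
  have hF0 : ∀ D : Cut ι k, 0 ≤ (∏ p, cfL 1 4 (ψ (c (offp D.1 p)))) ^ tau k := fun D =>
    Real.rpow_nonneg (prod_nonneg fun p _ => hcf _) _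
  have hF1 : ∀ D : Cut ι k, (∏ p, cfL 1 4 (ψ (c (offp D.1 p)))) ^ tau k ≤ 1 := fun D =>
    Real.rpow_le_one (prod_nonneg fun p _ => hcf _)
      (Finset.prod_le_one (fun p _ => hcf _) (fun p _ => hcf1 _)) (tau_pos hk).le
  rw [← Finset.sum_filter_add_sum_filter_not univ good, add_div]
  apply add_le_add
  · apply le_of_eq
    congr 1
    rw [mul_sum]
    refine sum_congr rfl fun D hD => ?_
    rw [if_pos (mem_filter.1 hD).2]
  · rw [div_le_iff₀ hT]
    calc ∑ D ∈ univ.filter (fun D => ¬ good D), (if good D then Real.exp 1 else Real.exp (-L)) *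
          (∏ p, cfL 1 4 (ψ (c (offp D.1 p)))) ^ tau k
        ≤ ∑ _D ∈ univ.filter (fun D => ¬ good D), Real.exp (-L) := by
          refine sum_le_sum fun D hD => ?_
          rw [if_neg (mem_filter.1 hD).2]
          calc Real.exp (-L) * (∏ p, cfL 1 4 (ψ (c (offp D.1 p)))) ^ tau k
              ≤ Real.exp (-L) * 1 := mul_le_mul_of_nonneg_left (hF1 D) (Real.exp_pos _).le
            _ = _ := mul_one _
      _ = ((univ.filter (fun D => ¬ good D)).card : ℝ) * Real.exp (-L) := by
          rw [sum_const, nsmul_eq_mul]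
      _ ≤ (Nat.centralBinom k : ℝ) * Real.exp (-L) := by
          apply mul_le_mul_of_nonneg_right _ (Real.exp_pos _).le
          rw [← hcard]
          exact_mod_cast Finset.card_le_univ _
      _ = Real.exp (-L) * Nat.centralBinom k := mul_comm _ _

/-- one vector: `P(S v = w) ≤ (e / C) ∑_{D good} P(Ξ v_D = 0 ∧ Ξᵀ v_{Dᶜ} = 0)^τ + e^(-L)` -/
theorem SprA_le_good (k : ℕ) (hk : 0 < k) (hι : Fintype.card ι = 2 * k) (v w : ι → A)
    (good : Cut ι k → Prop) [DecidablePred good] {L : ℝ}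
    (hL : L * ((univ.filter (fun D => ¬ good D)).card : ℝ) ≤ ((univ.filter good).card : ℝ)) :
    SprA v w ≤ (Real.exp 1 * ∑ D ∈ univ.filter good, (BprL 1 4 (fun j : {i // i ∈ D.1} => v j)
        (fun i : {i // i ∉ D.1} => v i)) ^ tau k) / Nat.centralBinom k + Real.exp (-L) := by
  classical
  have hG : (0 : ℝ) < Fintype.card (ι → A) := by exact_mod_cast Fintype.card_pos
  have hT : (0 : ℝ) < Nat.centralBinom k := by exact_mod_cast Nat.centralBinom_pos k
  have hcf : ∀ (ψ : AddChar (ι → A) ℂ) (e : Sym2 ι), 0 ≤ cfL 1 4 (ψ (symc v e)) :=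
    fun ψ e => by rw [cfL_one_four (norm_addChar _ _)]; positivity
  have hcardψ : ((univ : Finset (AddChar (ι → A) ℂ)).card : ℝ) = Fintype.card (ι → A) := by
    rw [card_univ, AddChar.card_eq]
  -- Jensen in the characters, for one cut
  have hJ : ∀ D : Cut ι k, ∑ ψ : AddChar (ι → A) ℂ,
      (∏ p, cfL 1 4 (ψ (symc v (offp D.1 p)))) ^ tau k ≤
      Fintype.card (ι → A) * (BprL 1 4 (fun j : {i // i ∈ D.1} => v j)
        (fun i : {i // i ∉ D.1} => v i)) ^ tau k := by
    intro D
    have h := mean_rpow_le (univ : Finset (AddChar (ι → A) ℂ)) univ_nonempty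
      (fun ψ => ∏ p, cfL 1 4 (ψ (symc v (offp D.1 p)))) (fun ψ _ => prod_nonneg fun p _ => hcf _ _)
      (tau_pos hk) tau_le
    rw [hcardψ] at h
    have h2 : (∑ ψ : AddChar (ι → A) ℂ, ∏ p, cfL 1 4 (ψ (symc v (offp D.1 p)))) =
        Fintype.card (ι → A) * BprL 1 4 (fun j : {i // i ∈ D.1} => v j)
        (fun i : {i // i ∉ D.1} => v i) := by
      rw [← prL_offp, prL_zero_eq (by norm_num) (by norm_num)]
    rw [h2, mul_div_cancel_left₀ _ hG.ne', div_le_iff₀ hG] at h
    linarith
  have h1 := card_mul_SprA_le v w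
  have h2 : ∑ ψ : AddChar (ι → A) ℂ, ∏ e, ‖(1 + ψ (symc v e)) / 2‖ ≤
      ∑ ψ : AddChar (ι → A) ℂ, ((Real.exp 1 * ∑ D ∈ univ.filter good,
        (∏ p, cfL 1 4 (ψ (symc v (offp D.1 p)))) ^ tau k) / Nat.centralBinom k + Real.exp (-L)) :=
    sum_le_sum fun ψ _ => prod_le_good k hk hι (symc v) ψ good hL
  have h3 : ∑ ψ : AddChar (ι → A) ℂ, ((Real.exp 1 * ∑ D ∈ univ.filter good,
        (∏ p, cfL 1 4 (ψ (symc v (offp D.1 p)))) ^ tau k) / Nat.centralBinom k + Real.exp (-L)) ≤
      Fintype.card (ι → A) * ((Real.exp 1 * ∑ D ∈ univ.filter good,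
        (BprL 1 4 (fun j : {i // i ∈ D.1} => v j) (fun i : {i // i ∉ D.1} => v i)) ^ tau k) /
          Nat.centralBinom k + Real.exp (-L)) := by
    rw [sum_add_distrib, sum_const, nsmul_eq_mul, hcardψ, mul_add]
    apply add_le_add _ le_rfl
    rw [← sum_div, ← mul_sum, sum_comm, mul_div_assoc', mul_left_comm]
    gcongr
    rw [mul_sum]
    exact sum_le_sum fun D _ => hJ D
  exact le_of_mul_le_mul_left ((h1.trans h2).trans h3) hG

open Classical in
/-- **Half size reduction, exact law, good cuts only.** -/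
theorem sum_SprA_le_good (k : ℕ) (hk : 0 < k) (hι : Fintype.card ι = 2 * k)
    (V : Finset (ι → A)) (w : (ι → A) → ι → A) (good : (ι → A) → Cut ι k → Prop) {L : ℝ}
    (hL : ∀ v ∈ V, L * ((univ.filter (fun D => ¬ good v D)).card : ℝ) ≤
      ((univ.filter (good v)).card : ℝ)) (Y : ℝ)
    (hY : ∀ D : Cut ι k, ∑ v ∈ V.filter (fun v => good v D), BprL 1 4 (fun j : {i // i ∈ D.1} => v j)
        (fun i : {i // i ∉ D.1} => v i) ≤ Y) :
    ∑ v ∈ V, SprA v (w v) ≤
      Real.exp 1 * Fintype.card A * Y ^ (1 - 1 / (2 * k) : ℝ) +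
        (Fintype.card A : ℝ) ^ (2 * k) * Real.exp (-L) := by
  have hA : (0 : ℝ) < Fintype.card A := by exact_mod_cast Fintype.card_pos
  have hG2 : (Fintype.card (ι → A) : ℝ) = (Fintype.card A : ℝ) ^ (2 * k) := by
    rw [Fintype.card_fun, hι]; push_cast; ring
  have hT : (0 : ℝ) < Nat.centralBinom k := by exact_mod_cast Nat.centralBinom_pos k
  have hcard : ((univ : Finset (Cut ι k)).card : ℝ) = Nat.centralBinom k := by
    rw [card_univ, card_cut k hι]
  have hB0 : ∀ (D : Cut ι k) (v : ι → A), 0 ≤ BprL 1 4 (fun j : {i // i ∈ D.1} => v j)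
        (fun i : {i // i ∉ D.1} => v i) := fun D v => by
    unfold BprL; positivity
  have hY0 : 0 ≤ Y := by
    have hne : Nonempty (Cut ι k) := by
      have : 0 < Fintype.card (Cut ι k) := by rw [card_cut k hι]; exact Nat.centralBinom_pos k
      exact Fintype.card_pos_iff.1 this
    obtain ⟨D⟩ := hne
    exact (sum_nonneg fun v _ => hB0 D v).trans (hY D)
  have hVc : (V.card : ℝ) ≤ (Fintype.card A : ℝ) ^ (2 * k) := by
    rw [← hG2]; exact_mod_cast card_le_univ V
  have h1 : ∑ v ∈ V, SprA v (w v) ≤ ∑ v ∈ V, ((Real.exp 1 * ∑ D ∈ univ.filter (good v),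
      (BprL 1 4 (fun j : {i // i ∈ D.1} => v j) (fun i : {i // i ∉ D.1} => v i)) ^ tau k) /
        Nat.centralBinom k + Real.exp (-L)) :=
    sum_le_sum fun v hv => SprA_le_good k hk hι v (w v) (good v) (hL v hv)
  refine h1.trans ?_
  rw [sum_add_distrib, sum_const, nsmul_eq_mul]
  apply add_le_add
  · rw [← sum_div, ← mul_sum, div_le_iff₀ hT]
    have h2 : ∑ v ∈ V, ∑ D ∈ univ.filter (good v), (BprL 1 4 (fun j : {i // i ∈ D.1} => v j)
        (fun i : {i // i ∉ D.1} => v i)) ^ tau k =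
        ∑ D : Cut ι k, ∑ v ∈ V.filter (fun v => good v D),
          (BprL 1 4 (fun j : {i // i ∈ D.1} => v j) (fun i : {i // i ∉ D.1} => v i)) ^ tau k := by
      simp only [sum_filter]
      rw [sum_comm]
    have h3 : ∀ D : Cut ι k, ∑ v ∈ V.filter (fun v => good v D),
          (BprL 1 4 (fun j : {i // i ∈ D.1} => v j) (fun i : {i // i ∉ D.1} => v i)) ^ tau k ≤
        Fintype.card A * Y ^ tau k := by
      intro D
      have h4 := sum_rpow_le (V.filter (fun v => good v D))
        (fun v => BprL 1 4 (fun j : {i // i ∈ D.1} => v j) (fun i : {i // i ∉ D.1} => v i))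
        (fun v _ => hB0 D v) (tau_pos hk) tau_le
      refine h4.trans ?_
      apply mul_le_mul
      · have h5 : ((V.filter (fun v => good v D)).card : ℝ) ≤ (Fintype.card A : ℝ) ^ (2 * k) := by
          refine le_trans ?_ hVc
          exact_mod_cast card_filter_le _ _
        have h6 : 0 ≤ 1 - tau k := by linarith [tau_le (k := k)]
        refine (Real.rpow_le_rpow (Nat.cast_nonneg _) h5 h6).trans (le_of_eq ?_)
        rw [← Real.rpow_natCast, ← Real.rpow_mul hA.le]
        have hk' : (0 : ℝ) < k := by exact_mod_cast hk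
        have h7 : (((2 * k : ℕ) : ℝ)) * (1 - tau k) = 1 := by
          unfold tau
          push_cast
          field_simp
          ring
        rw [h7, Real.rpow_one]
      · exact Real.rpow_le_rpow (sum_nonneg fun v _ => hB0 D v) (hY D) (tau_pos hk).le
      · exact Real.rpow_nonneg (sum_nonneg fun v _ => hB0 D v) _
      · exact hA.le
    rw [h2]
    calc Real.exp 1 * ∑ D : Cut ι k, ∑ v ∈ V.filter (fun v => good v D),
          (BprL 1 4 (fun j : {i // i ∈ D.1} => v j) (fun i : {i // i ∉ D.1} => v i)) ^ tau k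
        ≤ Real.exp 1 * ∑ _D : Cut ι k, (Fintype.card A * Y ^ tau k) := by
          apply mul_le_mul_of_nonneg_left (sum_le_sum fun D _ => h3 D) (Real.exp_pos _).le
      _ = Real.exp 1 * Fintype.card A * Y ^ (1 - 1 / (2 * k) : ℝ) * Nat.centralBinom k := by
          rw [sum_const, nsmul_eq_mul, hcard]
          unfold tau
          ring
  · exact mul_le_mul_of_nonneg_right hVc (Real.exp_pos _).le

end Vale.Agent.P160.Half.Fair514
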