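import Vale.Agent.P160.Half.HalfSize505

/-! # P160 MID, leaf L2: choice of the halves and the half size reduction, reindexed to `Fin k` -/

set_option linter.unusedSectionVars false

namespace Vale.Agent.P160.Half.Mid.H947

open Finset Vale.Agent.P160

section halve

/-- the half of `Fin k × Bool` picked by `c` -/
def hf {k : ℕ} (c : Fin k → Bool) : Finset (Fin k × Bool) := univ.filter (fun q => q.2 = c q.1)

lemma card_hf {k : ℕ} (c : Fin k → Bool) : (hf c).card = k := by
  have h : hf c = univ.image (fun j => (j, c j)) := by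
    ext ⟨j, b⟩
    simp only [hf, mem_filter, mem_univ, true_and, mem_image, Prod.mk.injEq]
    constructor
    · intro h; exact ⟨j, rfl, h.symm⟩
    · rintro ⟨i, h1, h2⟩; subst h1; exact h2.symm
  rw [h, card_image_of_injective _ (fun a b h => (Prod.mk.inj h).1), card_univ, Fintype.card_fin]

lemma card_inter_hf {k : ℕ} (T : Finset (Fin k × Bool)) (c : Fin k → Bool) :
    (T ∩ hf c).card = (univ.filter (fun j => (j, c j) ∈ T)).card := by
  have h : T ∩ hf c = (univ.filter (fun j => (j, c j) ∈ T)).image (fun j => (j, c j)) := by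
    ext ⟨j, b⟩
    simp only [mem_inter, hf, mem_filter, mem_univ, true_and, mem_image, Prod.mk.injEq]
    constructor
    · rintro ⟨h1, h2⟩; subst h2; exact ⟨j, h1, rfl, rfl⟩
    · rintro ⟨i, h1, h2, h3⟩; subst h2; subst h3; exact ⟨h1, rfl⟩
  rw [h, card_image_of_injective _ (fun a b h => (Prod.mk.inj h).1)]

lemma sum_half_pow {k : ℕ} (T : Finset (Fin k × Bool)) :
    ∑ c : Fin k → Bool, ((1 : ℝ) / 2) ^ (T ∩ hf c).card ≤ 2 ^ k * (3 / 4) ^ T.card := by
  have h1 : ∀ c : Fin k → Bool, ((1 : ℝ) / 2) ^ (T ∩ hf c).card =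
      ∏ j, (if (j, c j) ∈ T then (1 / 2 : ℝ) else 1) := by
    intro c
    rw [card_inter_hf, prod_ite, prod_const, prod_const_one, mul_one]
  simp_rw [h1]
  have h2 := (Finset.prod_univ_sum (fun _ : Fin k => (univ : Finset Bool))
    (fun j b => (if (j, b) ∈ T then (1 / 2 : ℝ) else 1)))
  rw [Fintype.piFinset_univ] at h2
  rw [← h2]
  have h3 : T.card = ∑ j : Fin k, ((if (j, true) ∈ T then 1 else 0) + if (j, false) ∈ T then 1 else 0) := by
    have : T.card = (univ.filter (fun q => q ∈ T)).card := by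
      congr 1; ext q; simp
    rw [this, card_filter, Fintype.sum_prod_type]
    refine sum_congr rfl fun j _ => ?_
    rw [Fintype.sum_bool]
  have h4 : (2 : ℝ) ^ k * (3 / 4) ^ T.card = ∏ j : Fin k, (2 * (3 / 4 : ℝ) ^
      ((if (j, true) ∈ T then 1 else 0) + if (j, false) ∈ T then 1 else 0)) := by
    rw [prod_mul_distrib, prod_const, card_univ, Fintype.card_fin, prod_pow_eq_pow_sum, ← h3]
  rw [h4]
  refine prod_le_prod (fun j _ => ?_) (fun j _ => ?_)
  · exact sum_nonneg fun b _ => by split_ifs <;> norm_num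
  · rw [Fintype.sum_bool]
    split_ifs <;> norm_num

lemma card_bad {k r : ℕ} (T : Finset (Fin k × Bool)) (hT : 4 * r ≤ T.card) :
    ((univ.filter (fun c : Fin k → Bool => (T ∩ hf c).card < r)).card : ℝ) ≤
      2 ^ k * (81 / 128) ^ r := by
  have h1 : ((univ.filter (fun c : Fin k → Bool => (T ∩ hf c).card < r)).card : ℝ) * (1 / 2) ^ r ≤
      2 ^ k * (3 / 4) ^ (4 * r) := by
    calc ((univ.filter (fun c : Fin k → Bool => (T ∩ hf c).card < r)).card : ℝ) * (1 / 2) ^ r
        = ∑ c ∈ univ.filter (fun c : Fin k → Bool => (T ∩ hf c).card < r), ((1 : ℝ) / 2) ^ r := by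
          rw [sum_const, nsmul_eq_mul]
      _ ≤ ∑ c ∈ univ.filter (fun c : Fin k → Bool => (T ∩ hf c).card < r),
            ((1 : ℝ) / 2) ^ (T ∩ hf c).card := by
          refine sum_le_sum fun c hc => ?_
          exact pow_le_pow_of_le_one (by norm_num) (by norm_num) (mem_filter.1 hc).2.le
      _ ≤ ∑ c : Fin k → Bool, ((1 : ℝ) / 2) ^ (T ∩ hf c).card :=
          sum_le_sum_of_subset_of_nonneg (filter_subset _ _) fun c _ _ => by positivity
      _ ≤ 2 ^ k * (3 / 4) ^ T.card := sum_half_pow T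
      _ ≤ 2 ^ k * (3 / 4) ^ (4 * r) := by
          gcongr ?_ * ?_
          exact pow_le_pow_of_le_one (by norm_num) (by norm_num) hT
  have h2 : ((81 : ℝ) / 128) ^ r * (1 / 2) ^ r = (3 / 4) ^ (4 * r) := by
    rw [← mul_pow, pow_mul]; norm_num
  have h3 : (0 : ℝ) < (1 / 2) ^ r := by positivity
  refine le_of_mul_le_mul_right ?_ h3
  rw [mul_assoc, h2]
  exact h1

lemma sdiff_hf {k : ℕ} (T : Finset (Fin k × Bool)) (c : Fin k → Bool) :
    T \ hf c = T ∩ hf (fun j => !c j) := by
  ext ⟨j, b⟩
  simp only [mem_sdiff, mem_inter, hf, mem_filter, mem_univ, true_and]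
  refine and_congr_right fun _ => ?_
  cases b <;> cases c j <;> simp

lemma card_bad' {k r : ℕ} (T : Finset (Fin k × Bool)) (hT : 4 * r ≤ T.card) :
    ((univ.filter (fun c : Fin k → Bool => (T \ hf c).card < r)).card : ℝ) ≤
      2 ^ k * (81 / 128) ^ r := by
  refine le_trans (le_of_eq ?_) (card_bad T hT)
  congr 1
  refine card_bij (fun c _ => fun j => !c j) (fun c hc => ?_) (fun c _ c' _ h => ?_) (fun c hc => ?_)
  · simp only [mem_filter, mem_univ, true_and] at hc ⊢
    rwa [sdiff_hf] at hc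
  · funext j
    have := congrFun h j
    simpa using this
  · refine ⟨fun j => !c j, ?_, by funext j; simp⟩
    simp only [mem_filter, mem_univ, true_and] at hc ⊢
    rw [sdiff_hf]
    simpa using hc

/-- every small family of large sets is split by one balanced cut -/
theorem exists_halves {ι τ : Type*} [Fintype ι] [DecidableEq ι] {k : ℕ}
    (hι : Fintype.card ι = 2 * k) (P : Finset τ) (T : τ → Finset ι) (r : ℕ)
    (hT : ∀ i ∈ P, 4 * r ≤ (T i).card) (hP : 2 * (P.card : ℝ) * (81 / 128) ^ r < 1) :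
    ∃ D : Finset ι, D.card = k ∧ ∀ i ∈ P, r ≤ (T i ∩ D).card ∧ r ≤ (T i \ D).card := by
  classical
  have hcard : Fintype.card ι = Fintype.card (Fin k × Bool) := by
    rw [hι, Fintype.card_prod, Fintype.card_fin, Fintype.card_bool, mul_comm]
  obtain ⟨e⟩ : Nonempty (ι ≃ Fin k × Bool) := Fintype.card_eq.1 hcard
  set T' : τ → Finset (Fin k × Bool) := fun i => (T i).map e.toEmbedding with hT'
  have hT'c : ∀ i ∈ P, 4 * r ≤ (T' i).card := fun i hi => by
    rw [hT']; simp only [card_map]; exact hT i hi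
  set bad : Finset (Fin k → Bool) := P.biUnion (fun i =>
    univ.filter (fun c : Fin k → Bool => (T' i ∩ hf c).card < r) ∪
      univ.filter (fun c : Fin k → Bool => (T' i \ hf c).card < r)) with hbad
  have h1 : (bad.card : ℝ) < (univ : Finset (Fin k → Bool)).card := by
    have h2 : (bad.card : ℝ) ≤ ∑ i ∈ P, (2 * (2 ^ k * (81 / 128) ^ r) : ℝ) := by
      have h5 : bad.card ≤ ∑ i ∈ P, ((univ.filter (fun c : Fin k → Bool => (T' i ∩ hf c).card < r)).card +
          (univ.filter (fun c : Fin k → Bool => (T' i \ hf c).card < r)).card) :=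
        card_biUnion_le.trans (sum_le_sum fun i _ => card_union_le _ _)
      have h6 : (bad.card : ℝ) ≤ ∑ i ∈ P, (((univ.filter (fun c : Fin k → Bool =>
          (T' i ∩ hf c).card < r)).card : ℝ) +
          (univ.filter (fun c : Fin k → Bool => (T' i \ hf c).card < r)).card) := by
        exact_mod_cast h5
      refine h6.trans (sum_le_sum fun i hi => ?_)
      rw [two_mul]
      exact add_le_add (card_bad _ (hT'c i hi)) (card_bad' _ (hT'c i hi))
    refine h2.trans_lt ?_
    rw [sum_const, nsmul_eq_mul, card_univ, Fintype.card_fun, Fintype.card_bool, Fintype.card_fin]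
    push_cast
    have h3 : (0 : ℝ) < 2 ^ k := by positivity
    nlinarith
  obtain ⟨c, -, hc⟩ : ∃ c ∈ (univ : Finset (Fin k → Bool)), c ∉ bad := by
    by_contra hcon
    push Not at hcon
    have : (univ : Finset (Fin k → Bool)) ⊆ bad := fun c hc => hcon c hc
    have h4 : ((univ : Finset (Fin k → Bool)).card : ℝ) ≤ bad.card := by
      exact_mod_cast card_le_card this
    linarith
  refine ⟨(hf c).map e.symm.toEmbedding, by rw [card_map, card_hf], fun i hi => ?_⟩
  have hc' : ¬ ((T' i ∩ hf c).card < r) ∧ ¬ ((T' i \ hf c).card < r) := by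
    constructor
    · intro h
      exact hc (mem_biUnion.2 ⟨i, hi, mem_union_left _ (by simpa using h)⟩)
    · intro h
      exact hc (mem_biUnion.2 ⟨i, hi, mem_union_right _ (by simpa using h)⟩)
  have e1 : T i ∩ (hf c).map e.symm.toEmbedding = (T' i ∩ hf c).map e.symm.toEmbedding := by
    rw [map_inter]
    congr 1
    rw [hT']
    ext x; simp
  have e2 : T i \ (hf c).map e.symm.toEmbedding = (T' i \ hf c).map e.symm.toEmbedding := by
    ext x
    simp only [hT', mem_sdiff, mem_map_equiv, Equiv.symm_symm, Equiv.symm_apply_apply]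
  rw [e1, e2, card_map, card_map]
  exact ⟨not_lt.1 hc'.1, not_lt.1 hc'.2⟩

end halve

section reindex

variable {A : Type*} [AddCommGroup A] [Fintype A] [DecidableEq A]

lemma gwalk_comp {α α' : Type*} [Fintype α] [Fintype α'] (e : α ≃ α') {M : ℕ} (ω : α' → Fin M)
    (x : α' → A) : gwalk (fun a => ω (e a)) (fun a => x (e a)) = gwalk ω x := by
  unfold gwalk
  exact Equiv.sum_comp e (fun a => st (ω a) • x a)

lemma BprA_comp {α β α' β' : Type*} [Fintype α] [Fintype β] [DecidableEq α] [DecidableEq β]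
    [Fintype α'] [Fintype β'] [DecidableEq α'] [DecidableEq β'] (e : α ≃ α') (e' : β ≃ β')
    (M : ℕ) (x : α' → A) (z : β' → A) :
    BprA M (fun a => x (e a)) (fun b => z (e' b)) = BprA M x z := by
  unfold BprA
  have h1 : (univ.filter (fun ω : β → α → Fin M =>
      (∀ i, gwalk (ω i) (fun a => x (e a)) = 0) ∧
        ∀ j, gwalk (fun i => ω i j) (fun b => z (e' b)) = 0)).card =
      (univ.filter (fun ω : β' → α' → Fin M =>
        (∀ i, gwalk (ω i) x = 0) ∧ ∀ j, gwalk (fun i => ω i j) z = 0)).card := by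
    symm
    refine card_bij (fun ω _ => fun b a => ω (e' b) (e a)) (fun ω hω => ?_)
      (fun ω _ ω' _ h => ?_) (fun ω hω => ?_)
    · simp only [mem_filter, mem_univ, true_and] at hω ⊢
      refine ⟨fun i => ?_, fun j => ?_⟩
      · rw [gwalk_comp e (ω (e' i)) x]; exact hω.1 _
      · rw [gwalk_comp e' (fun i => ω i (e j)) z]; exact hω.2 _
    · funext b a
      have := congrFun (congrFun h (e'.symm b)) (e.symm a)
      simpa using this
    · simp only [mem_filter, mem_univ, true_and] at hω ⊢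
      refine ⟨fun b a => ω (e'.symm b) (e.symm a), ⟨fun i => ?_, fun j => ?_⟩, ?_⟩
      · have := hω.1 (e'.symm i)
        rw [← gwalk_comp e (fun a => ω (e'.symm i) (e.symm a)) x]
        simpa using this
      · have := hω.2 (e.symm j)
        rw [← gwalk_comp e' (fun b => ω (e'.symm b) (e.symm j)) z]
        simpa using this
      · funext b a; simp
  rw [h1, Fintype.card_congr e, Fintype.card_congr e']

end reindex

section main

variable {τ : Type*} [Fintype τ] [DecidableEq τ] (p : τ → ℕ) [∀ i, NeZero (p i)]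

/-- every component has at least `r` nonzero coordinates -/
def NS {α : Type*} [Fintype α] (r : ℕ) (x : α → ∀ i, ZMod (p i)) : Prop :=
  ∀ i, r ≤ (univ.filter fun c => x c i ≠ 0).card

/-- total number of zero coordinates of the components -/
def Zc {α : Type*} [Fintype α] (x : α → ∀ i, ZMod (p i)) : ℕ :=
  ∑ i, (univ.filter fun c => x c i = 0).card

lemma card_filter_sub {ι : Type*} [Fintype ι] [DecidableEq ι] (D : Finset ι) (q : ι → Prop)
    [DecidablePred q] :
    (univ.filter fun c : {i // i ∈ D} => q c).card = ((univ.filter q) ∩ D).card := by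
  rw [← card_map (Function.Embedding.subtype fun i => i ∈ D)]
  congr 1
  ext x
  simp only [mem_map, mem_filter, mem_univ, true_and, Function.Embedding.coe_subtype,
    Subtype.exists, mem_inter]
  constructor
  · rintro ⟨a, ha, h1, h2⟩; subst h2; exact ⟨h1, ha⟩
  · rintro ⟨h1, h2⟩; exact ⟨x, h2, h1, rfl⟩

lemma card_filter_sub' {ι : Type*} [Fintype ι] [DecidableEq ι] (D : Finset ι) (q : ι → Prop)
    [DecidablePred q] :
    (univ.filter fun c : {i // i ∉ D} => q c).card = ((univ.filter q) \ D).card := by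
  rw [← card_map (Function.Embedding.subtype fun i => i ∉ D)]
  congr 1
  ext x
  simp only [mem_map, mem_filter, mem_univ, true_and, Function.Embedding.coe_subtype,
    Subtype.exists, mem_sdiff]
  constructor
  · rintro ⟨a, ha, h1, h2⟩; subst h2; exact ⟨h1, ha⟩
  · rintro ⟨h1, h2⟩; exact ⟨x, h2, h1, rfl⟩

lemma card_filter_comp {α α' : Type*} [Fintype α] [Fintype α'] (e : α ≃ α') (q : α' → Prop)
    [DecidablePred q] : (univ.filter fun c => q (e c)).card = (univ.filter q).card := by
  rw [← card_map e.toEmbedding]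
  congr 1
  ext x
  simp only [mem_map_equiv, mem_filter, mem_univ, true_and, Equiv.apply_symm_apply]

/-- **L2, even size.**  First moment over kernel vectors all of whose components have at least
`4 r` nonzero coordinates and with at least `I0` zero coordinates in total. -/
theorem halves {ι : Type*} [Fintype ι] [DecidableEq ι] {k r I0 : ℕ}
    (hι : Fintype.card ι = 2 * k) (hr : 2 * (Fintype.card τ : ℝ) * (81 / 128) ^ r < 1)
    (V : Finset (ι → ∀ i, ZMod (p i))) (w : (ι → ∀ i, ZMod (p i)) → ι → ∀ i, ZMod (p i))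
    (hV1 : ∀ u ∈ V, NS p (4 * r) u) (hV2 : ∀ u ∈ V, I0 ≤ Zc p u)
    (W : Finset ((Fin k → ∀ i, ZMod (p i)) × (Fin k → ∀ i, ZMod (p i))))
    (hW : ∀ q : (Fin k → ∀ i, ZMod (p i)) × (Fin k → ∀ i, ZMod (p i)),
      NS p r q.1 → NS p r q.2 → I0 ≤ Zc p q.1 + Zc p q.2 → q ∈ W) :
    ∑ u ∈ V, SprA u (w u) ≤ 2 ^ (2 * k) * ∑ q ∈ W, BprA 8 q.1 q.2 := by
  classical
  have hex : ∀ u : V, ∃ D : Finset ι, D.card = k ∧ ∀ i : τ,
      r ≤ ((univ.filter fun c => u.1 c i ≠ 0) ∩ D).card ∧
      r ≤ ((univ.filter fun c => u.1 c i ≠ 0) \ D).card := by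
    intro u
    obtain ⟨D, h1, h2⟩ := exists_halves hι (univ : Finset τ)
      (fun i => univ.filter fun c => u.1 c i ≠ 0) r (fun i _ => hV1 u.1 u.2 i)
      (by rw [card_univ]; exact hr)
    exact ⟨D, h1, fun i => h2 i (mem_univ i)⟩
  choose D hD1 hD2 using hex
  have hcD : ∀ E : Finset ι, E.card = k → Fintype.card {i // i ∈ E} = k := fun E hE => by
    rw [Fintype.card_coe, hE]
  have hcD' : ∀ E : Finset ι, E.card = k → Fintype.card {i // i ∉ E} = k := fun E hE => by
    have := Fintype.card_subtype_compl (fun i => i ∈ E)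
    rw [this, Fintype.card_coe, hE, hι]; omega
  have hne1 : ∀ E : {E : Finset ι // E.card = k}, Nonempty ({i // i ∈ E.1} ≃ Fin k) := fun E =>
    Fintype.card_eq.1 (by rw [hcD E.1 E.2, Fintype.card_fin])
  have hne2 : ∀ E : {E : Finset ι // E.card = k}, Nonempty ({i // i ∉ E.1} ≃ Fin k) := fun E =>
    Fintype.card_eq.1 (by rw [hcD' E.1 E.2, Fintype.card_fin])
  let e1 : ∀ E : {E : Finset ι // E.card = k}, {i // i ∈ E.1} ≃ Fin k := fun E => (hne1 E).some
  let e2 : ∀ E : {E : Finset ι // E.card = k}, {i // i ∉ E.1} ≃ Fin k := fun E => (hne2 E).some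
  let psi : {E : Finset ι // E.card = k} → (ι → ∀ i, ZMod (p i)) →
      (Fin k → ∀ i, ZMod (p i)) × (Fin k → ∀ i, ZMod (p i)) := fun E u =>
    (fun j => u ((e1 E).symm j), fun j => u ((e2 E).symm j))
  have psi_inj : ∀ E, Function.Injective (psi E) := by
    intro E u v h
    have h1 : (psi E u).1 = (psi E v).1 := by rw [h]
    have h2 : (psi E u).2 = (psi E v).2 := by rw [h]
    funext x
    by_cases hx : x ∈ E.1
    · have := congrFun h1 (e1 E ⟨x, hx⟩)
      simpa [psi] using this
    · have := congrFun h2 (e2 E ⟨x, hx⟩)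
      simpa [psi] using this
  let phi : V → {E : Finset ι // E.card = k} ×
      ((Fin k → ∀ i, ZMod (p i)) × (Fin k → ∀ i, ZMod (p i))) := fun u =>
    (⟨D u, hD1 u⟩, psi ⟨D u, hD1 u⟩ u.1)
  have phi_inj : Function.Injective phi := by
    intro u v h
    have h1 : (⟨D u, hD1 u⟩ : {E : Finset ι // E.card = k}) = ⟨D v, hD1 v⟩ := congrArg Prod.fst h
    have h2 : psi ⟨D u, hD1 u⟩ u.1 = psi ⟨D v, hD1 v⟩ v.1 := congrArg Prod.snd h
    rw [h1] at h2
    exact Subtype.ext (psi_inj _ h2)
  have hspr : ∀ u : V, SprA u.1 (w u.1) ≤ BprA 8 (phi u).2.1 (phi u).2.2 := by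
    intro u
    have h := SprA_le_BprA (D u) (le_refl 8) u.1 (w u.1)
    refine h.trans (le_of_eq ?_)
    rw [← BprA_comp (e1 ⟨D u, hD1 u⟩) (e2 ⟨D u, hD1 u⟩) 8 (phi u).2.1 (phi u).2.2]
    congr 1
    · funext a; simp [phi, psi]
    · funext a; simp [phi, psi]
  have hmem : ∀ u : V, (phi u).2 ∈ W := by
    intro u
    have ha : ∀ (q : (∀ i, ZMod (p i)) → Prop) [DecidablePred q],
        (univ.filter fun c => q ((phi u).2.1 c)).card =
          ((univ.filter fun c => q (u.1 c)) ∩ D u).card := by
      intro q _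
      rw [← card_filter_sub (D u) (fun c => q (u.1 c)),
        ← card_filter_comp (e1 ⟨D u, hD1 u⟩) (fun c => q ((phi u).2.1 c))]
      congr 1
      ext a
      simp [phi, psi]
    have hb : ∀ (q : (∀ i, ZMod (p i)) → Prop) [DecidablePred q],
        (univ.filter fun c => q ((phi u).2.2 c)).card =
          ((univ.filter fun c => q (u.1 c)) \ D u).card := by
      intro q _
      rw [← card_filter_sub' (D u) (fun c => q (u.1 c)),
        ← card_filter_comp (e2 ⟨D u, hD1 u⟩) (fun c => q ((phi u).2.2 c))]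
      congr 1
      ext a
      simp [phi, psi]
    apply hW
    · intro i
      rw [ha (fun y => y i ≠ 0)]
      exact (hD2 u i).1
    · intro i
      rw [hb (fun y => y i ≠ 0)]
      exact (hD2 u i).2
    · refine (hV2 u.1 u.2).trans (le_of_eq ?_)
      unfold Zc
      rw [← sum_add_distrib]
      refine sum_congr rfl fun i _ => ?_
      rw [ha (fun y => y i = 0), hb (fun y => y i = 0), card_inter_add_card_sdiff]
  have hB : ∀ q : (Fin k → ∀ i, ZMod (p i)) × (Fin k → ∀ i, ZMod (p i)), 0 ≤ BprA 8 q.1 q.2 :=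
    fun q => by unfold BprA; positivity
  calc ∑ u ∈ V, SprA u (w u) = ∑ u ∈ V.attach, SprA u.1 (w u.1) := (sum_attach V _).symm
    _ ≤ ∑ u ∈ V.attach, BprA 8 (phi u).2.1 (phi u).2.2 := sum_le_sum fun u _ => hspr u
    _ = ∑ y ∈ V.attach.image phi, BprA 8 y.2.1 y.2.2 := by
        rw [sum_image fun a _ b _ h => phi_inj h]
    _ ≤ ∑ y ∈ (univ : Finset {E : Finset ι // E.card = k}) ×ˢ W, BprA 8 y.2.1 y.2.2 := by
        refine sum_le_sum_of_subset_of_nonneg ?_ fun y _ _ => hB y.2
        intro y hy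
        obtain ⟨u, -, rfl⟩ := mem_image.1 hy
        exact mem_product.2 ⟨mem_univ _, hmem u⟩
    _ = (Fintype.card {E : Finset ι // E.card = k} : ℝ) * ∑ q ∈ W, BprA 8 q.1 q.2 := by
        rw [sum_product]; simp only [sum_const, card_univ, nsmul_eq_mul]
    _ ≤ 2 ^ (2 * k) * ∑ q ∈ W, BprA 8 q.1 q.2 := by
        refine mul_le_mul_of_nonneg_right ?_ (sum_nonneg fun q _ => hB q)
        have h1 : Fintype.card {E : Finset ι // E.card = k} ≤ Fintype.card (Finset ι) :=
          Fintype.card_subtype_le _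
        rw [Fintype.card_finset, hι] at h1
        exact_mod_cast h1

/-- the first moment on the right side as an expectation over the lazy `k × k` matrix -/
theorem sum_BprA_eq {A : Type*} [AddCommGroup A] [Fintype A] [DecidableEq A] (k M : ℕ)
    (W : Finset ((Fin k → A) × (Fin k → A))) :
    ∑ q ∈ W, BprA M q.1 q.2 =
      (∑ ω : Fin k → Fin k → Fin M, ((W.filter fun q => (∀ i, gwalk (ω i) q.1 = 0) ∧
        ∀ j, gwalk (fun i => ω i j) q.2 = 0).card : ℝ)) / (M : ℝ) ^ (k * k) := by
  unfold BprA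
  rw [← sum_div, Fintype.card_fin]
  congr 1
  simp only [card_filter, Nat.cast_sum, Nat.cast_ite, Nat.cast_one, Nat.cast_zero]
  rw [sum_comm]

end main

section odd

variable {A : Type*} [AddCommGroup A] [Fintype A] [DecidableEq A]

/-- conditioning on the last row and column -/
theorem SprA_option_le {ι : Type*} [Fintype ι] [DecidableEq ι] (v w : Option ι → A) {B : ℝ}
    (hB : ∀ w' : ι → A, SprA (fun i => v (some i)) w' ≤ B) : SprA v w ≤ B := by
  classical
  have hinj : Function.Injective (Sym2.map (some : ι → Option ι)) :=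
    Sym2.map.injective (Option.some_injective ι)
  set R : Type _ := {e : Sym2 (Option ι) // e ∉ Set.range (Sym2.map (some : ι → Option ι))} with hR
  have hnone : ∀ i : ι, s(some i, (none : Option ι)) ∉
      Set.range (Sym2.map (some : ι → Option ι)) := by
    rintro i ⟨e, he⟩
    induction e using Sym2.ind with
    | _ a b =>
      rw [Sym2.map_mk, Sym2.eq_iff] at he
      rcases he with h | h
      · exact absurd h.2 (by simp)
      · exact absurd h.1 (by simp)
  let wc : (R → Bool) → ι → A := fun c i =>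
    w (some i) - (if c ⟨s(some i, none), hnone i⟩ then v none else 0)
  have h1 : (univ.filter (fun b : Sym2 (Option ι) → Bool => smul2 b v = w)).card ≤
      (univ.filter (fun q : (R → Bool) × (Sym2 ι → Bool) =>
        smul2 q.2 (fun i => v (some i)) = wc q.1)).card := by
    refine card_le_card_of_injOn (fun b => (fun e => b e.1, fun e => b (Sym2.map some e)))
      (fun b hb => ?_) (fun b _ b' _ h => ?_)
    · have hb' : smul2 b v = w := (mem_filter.1 (mem_coe.1 hb)).2
      refine mem_coe.2 (mem_filter.2 ⟨mem_univ _, ?_⟩)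
      funext i
      have h2 := congrFun hb' (some i)
      unfold smul2 at h2 ⊢
      rw [Fintype.sum_option] at h2
      simp only [wc]
      rw [← h2]
      simp only [Sym2.map_mk]
      rw [add_sub_cancel_left]
      rfl
    · funext e
      by_cases he : e ∈ Set.range (Sym2.map (some : ι → Option ι))
      · obtain ⟨e', rfl⟩ := he
        exact congrFun (Prod.mk.inj h).2 e'
      · exact congrFun (Prod.mk.inj h).1 ⟨e, he⟩
  have h3 : ((univ.filter (fun q : (R → Bool) × (Sym2 ι → Bool) =>
        smul2 q.2 (fun i => v (some i)) = wc q.1)).card : ℝ) ≤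
      2 ^ Fintype.card R * (2 ^ Fintype.card (Sym2 ι) * B) := by
    have h4 : (univ.filter (fun q : (R → Bool) × (Sym2 ι → Bool) =>
        smul2 q.2 (fun i => v (some i)) = wc q.1)).card =
        ∑ c : R → Bool, (univ.filter (fun b : Sym2 ι → Bool =>
          smul2 b (fun i => v (some i)) = wc c)).card := by
      simp only [card_filter]
      rw [Fintype.sum_prod_type]
    rw [h4]
    push_cast
    have h5 : ∀ c : R → Bool, ((univ.filter (fun b : Sym2 ι → Bool =>
          smul2 b (fun i => v (some i)) = wc c)).card : ℝ) ≤ 2 ^ Fintype.card (Sym2 ι) * B := by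
      intro c
      have := hB (wc c)
      unfold SprA at this
      rw [div_le_iff₀ (by positivity)] at this
      linarith
    refine (sum_le_sum fun c _ => h5 c).trans (le_of_eq ?_)
    rw [sum_const, card_univ, Fintype.card_fun, Fintype.card_bool, nsmul_eq_mul]
    push_cast
    ring
  have h6 : Fintype.card R + Fintype.card (Sym2 ι) = Fintype.card (Sym2 (Option ι)) := by
    have h7 : Fintype.card {e : Sym2 (Option ι) // e ∈ Set.range (Sym2.map (some : ι → Option ι))} =
        Fintype.card (Sym2 ι) :=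
      (Fintype.card_congr (Equiv.ofInjective _ hinj)).symm
    have h8 := Fintype.card_subtype_compl
      (fun e : Sym2 (Option ι) => e ∈ Set.range (Sym2.map (some : ι → Option ι)))
    have h9 : Fintype.card {e : Sym2 (Option ι) // e ∈ Set.range (Sym2.map (some : ι → Option ι))} ≤
        Fintype.card (Sym2 (Option ι)) := Fintype.card_subtype_le _
    have h10 : Fintype.card R = Fintype.card {x : Sym2 (Option ι) //
        x ∉ Set.range (Sym2.map (some : ι → Option ι))} := Fintype.card_congr (Equiv.refl _)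
    omega
  unfold SprA
  rw [div_le_iff₀ (by positivity), ← h6, pow_add]
  calc ((univ.filter (fun b : Sym2 (Option ι) → Bool => smul2 b v = w)).card : ℝ)
      ≤ _ := by exact_mod_cast h1
    _ ≤ _ := h3
    _ = B * (2 ^ Fintype.card R * 2 ^ Fintype.card (Sym2 ι)) := by ring

variable {τ : Type*} [Fintype τ] [DecidableEq τ] (p : τ → ℕ) [∀ i, NeZero (p i)]

lemma NS_option {ι : Type*} [Fintype ι] {r : ℕ} (u : Option ι → ∀ i, ZMod (p i))
    (h : NS p (r + 1) u) : NS p r (fun i => u (some i)) := by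
  intro i
  have h1 := h i
  rw [card_filter, Fintype.sum_option] at h1
  rw [card_filter]
  have h2 : ∀ a b : ℕ, r + 1 ≤ (if u none i ≠ 0 then 1 else 0) + a → a = b → r ≤ b := by
    intro a b hab he
    split_ifs at hab <;> omega
  exact h2 _ _ h1 rfl

lemma Zc_option {ι : Type*} [Fintype ι] (u : Option ι → ∀ i, ZMod (p i)) :
    Zc p u ≤ Zc p (fun i => u (some i)) + Fintype.card τ := by
  unfold Zc
  have h1 : ∑ i : τ, ((univ.filter fun c : Option ι => u c i = 0).card) ≤
      ∑ i : τ, ((univ.filter fun c : ι => u (some c) i = 0).card + 1) := by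
    refine sum_le_sum fun i _ => ?_
    rw [card_filter, Fintype.sum_option, card_filter]
    split_ifs <;> omega
  refine h1.trans (le_of_eq ?_)
  rw [sum_add_distrib, sum_const, card_univ, smul_eq_mul, mul_one]

/-- **L2, odd size.** -/
theorem halves_odd {ι : Type*} [Fintype ι] [DecidableEq ι] {k r I0 : ℕ}
    (hι : Fintype.card ι = 2 * k) (hr : 2 * (Fintype.card τ : ℝ) * (81 / 128) ^ r < 1)
    (V : Finset (Option ι → ∀ i, ZMod (p i)))
    (hV1 : ∀ u ∈ V, NS p (4 * r + 1) u) (hV2 : ∀ u ∈ V, I0 + Fintype.card τ ≤ Zc p u)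
    (W : Finset ((Fin k → ∀ i, ZMod (p i)) × (Fin k → ∀ i, ZMod (p i))))
    (hW : ∀ q : (Fin k → ∀ i, ZMod (p i)) × (Fin k → ∀ i, ZMod (p i)),
      NS p r q.1 → NS p r q.2 → I0 ≤ Zc p q.1 + Zc p q.2 → q ∈ W) :
    ∑ u ∈ V, SprA u 0 ≤ (∏ i, (p i : ℝ)) * (2 ^ (2 * k) * ∑ q ∈ W, BprA 8 q.1 q.2) := by
  classical
  have hmax : ∀ u' : ι → ∀ i, ZMod (p i), ∃ w : ι → ∀ i, ZMod (p i), ∀ w', SprA u' w' ≤ SprA u' w := by
    intro u'
    obtain ⟨w, -, hw⟩ := exists_max_image (univ : Finset (ι → ∀ i, ZMod (p i)))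
      (fun w => SprA u' w) ⟨0, mem_univ _⟩
    exact ⟨w, fun w' => hw w' (mem_univ _)⟩
  choose ws hws using hmax
  have h1 : ∀ u ∈ V, SprA u 0 ≤ SprA (fun i => u (some i)) (ws (fun i => u (some i))) :=
    fun u _ => SprA_option_le u 0 (hws _)
  set V' : Finset (ι → ∀ i, ZMod (p i)) := V.image (fun u i => u (some i)) with hV'
  have h2 := halves p hι hr V' ws
    (fun u' hu' => by
      obtain ⟨u, hu, rfl⟩ := mem_image.1 hu'
      exact NS_option p u (hV1 u hu))
    (fun u' hu' => by
      obtain ⟨u, hu, rfl⟩ := mem_image.1 hu'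
      have := Zc_option p u
      have := hV2 u hu
      omega) W hW
  have hcard : (Fintype.card (∀ i, ZMod (p i)) : ℝ) = ∏ i, (p i : ℝ) := by
    rw [Fintype.card_pi]
    push_cast
    exact prod_congr rfl fun i _ => by rw [ZMod.card]
  have hS : ∀ u' w : ι → ∀ i, ZMod (p i), 0 ≤ SprA u' w := fun u' w => by
    unfold SprA; positivity
  calc ∑ u ∈ V, SprA u 0 ≤ ∑ u ∈ V, SprA (fun i => u (some i)) (ws (fun i => u (some i))) :=
        sum_le_sum h1
    _ ≤ ∑ y ∈ (univ : Finset (∀ i, ZMod (p i))) ×ˢ V', SprA y.2 (ws y.2) := by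
        have hinj : Set.InjOn (fun u : Option ι → ∀ i, ZMod (p i) =>
            (u none, fun i => u (some i))) (V : Set (Option ι → ∀ i, ZMod (p i))) := by
          intro u _ v _ h
          funext x
          cases x with
          | none => exact (Prod.mk.inj h).1
          | some i => exact congrFun (Prod.mk.inj h).2 i
        rw [← sum_image (f := fun y : (∀ i, ZMod (p i)) × (ι → ∀ i, ZMod (p i)) =>
          SprA y.2 (ws y.2)) hinj]
        refine sum_le_sum_of_subset_of_nonneg ?_ fun y _ _ => hS _ _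
        intro y hy
        obtain ⟨u, hu, rfl⟩ := mem_image.1 hy
        exact mem_product.2 ⟨mem_univ _, mem_image.2 ⟨u, hu, rfl⟩⟩
    _ = (Fintype.card (∀ i, ZMod (p i)) : ℝ) * ∑ u' ∈ V', SprA u' (ws u') := by
        rw [sum_product]; simp only [sum_const, card_univ, nsmul_eq_mul]
    _ ≤ (∏ i, (p i : ℝ)) * (2 ^ (2 * k) * ∑ q ∈ W, BprA 8 q.1 q.2) := by
        rw [hcard]
        exact mul_le_mul_of_nonneg_left h2 (by positivity)

end odd

end Vale.Agent.P160.Half.Mid.H947
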