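import Vale.Agent.P160.Half.Mid.MainB184

set_option linter.unusedSectionVars false

/-! # P160, rate 1/2, MID: the assembly (helper184)

`StmtSparse → StmtPig → StmtHalf → StmtBlock → StmtMid`. -/

namespace Vale.Agent.P160.Half.Mid184

open Finset Matrix Vale.Agent.P160 Vale.Agent.P160.Half Vale.Agent.P160.Half.Mid

/-- `I` incidences are enough for the block estimate -/
def Enough (g : ℝ) (n : ℕ) (P : Finset ℕ) (I : ℕ) : Prop :=
  (n : ℝ) ^ (1 + 2 * g) ≤ I ∧ ∀ q ∈ P, (n : ℝ) ^ (2 * g) * (n * P.card) ≤ (I : ℝ) * q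

/-- the bad event of a block -/
def BadP (g d : ℝ) (n : ℕ) (P : Finset ℕ) (b : Sym2 (Fin n) → Bool) : Prop :=
  ∃ I : ℕ, Enough g n P I ∧ ∃ v : Fin n → ℤ,
    (∀ q ∈ P, (n : ℝ) ^ (1 - d) ≤ ((univ.filter fun j => ¬ (q : ℤ) ∣ v j).card : ℝ)) ∧
    I ≤ ∑ q ∈ P, (univ.filter fun j => (q : ℤ) ∣ v j).card ∧ matZ b *ᵥ v = 0

theorem smul2_cast {n t : ℕ} (p : Fin t → ℕ) (b : Sym2 (Fin n) → Bool) (v : Fin n → ℤ)
    (h : matZ b *ᵥ v = 0) : smul2 b (fun j => (fun i => (v j : ZMod (p i)) : GG p)) = 0 := by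
  funext i
  funext l
  have h1 := congrFun h i
  simp only [Matrix.mulVec, dotProduct, Pi.zero_apply] at h1
  unfold smul2
  rw [Finset.sum_apply]
  have h2 : ∀ j, (if b s(i, j) then (fun i => (v j : ZMod (p i)) : GG p) else 0) l =
      ((matZ b i j * v j : ℤ) : ZMod (p l)) := by
    intro j
    have h3 : matZ b i j = if b s(i, j) then 1 else 0 := rfl
    rw [h3]
    split_ifs <;> simp
  rw [sum_congr rfl fun j _ => h2 j, ← Int.cast_sum, h1]
  simp

open Classical in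
theorem block' (g d : ℝ) (n : ℕ)
    (h : ∀ (t : ℕ) (p : Fin t → ℕ) (_ : ∀ j, NeZero (p j)),
      (∀ j, (p j).Prime) → Function.Injective p → (∀ j, n ≤ p j) → (∀ j, p j ≤ n ^ 2) →
      ((∏ j, p j : ℕ) : ℝ) ≤ (2 : ℝ) ^ ((n : ℝ) ^ (1 - 2 * g)) →
      ∀ I : ℕ, (n : ℝ) ^ (1 + 2 * g) ≤ I → (∀ j, (n : ℝ) ^ (2 * g) * (n * t) ≤ (I : ℝ) * p j) →
      ((univ.filter fun b : Sym2 (Fin n) → Bool => ∃ u : Fin n → GG p,
        NS p ((n : ℝ) ^ (1 - d)) u ∧ I ≤ Zr p u ∧ smul2 b u = 0).card : ℝ) ≤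
        (2 : ℝ) ^ (-(2 * n : ℝ)) * 2 ^ Fintype.card (Sym2 (Fin n)))
    (P : Finset ℕ) (hP : ∀ q ∈ P, q.Prime ∧ n ≤ q ∧ q ≤ n ^ 2)
    (hprod : ((∏ q ∈ P, q : ℕ) : ℝ) ≤ (2 : ℝ) ^ ((n : ℝ) ^ (1 - 2 * g))) :
    ((univ.filter fun b : Sym2 (Fin n) → Bool => BadP g d n P b).card : ℝ) ≤
      (2 : ℝ) ^ (-(2 * n : ℝ)) * 2 ^ Fintype.card (Sym2 (Fin n)) := by
  by_cases hex : ∃ I, Enough g n P I
  · set I := Nat.find hex with hI
    have hIs : Enough g n P I := Nat.find_spec hex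
    set p : Fin P.card → ℕ := fun i => (P.equivFin.symm i : ℕ) with hp
    have hpm : ∀ j, p j ∈ P := fun j => (P.equivFin.symm j).2
    have hNZ : ∀ j, NeZero (p j) := fun j => ⟨(hP _ (hpm j)).1.ne_zero⟩
    have hinj : Function.Injective p := fun i j hij => P.equivFin.symm.injective (Subtype.ext hij)
    have hpr : ∏ j, p j = ∏ q ∈ P, q := by
      rw [← Finset.prod_coe_sort P (fun q => q)]
      exact Equiv.prod_comp P.equivFin.symm (fun q : P => (q : ℕ))
    have h1 := h P.card p hNZ (fun j => (hP _ (hpm j)).1) hinj (fun j => (hP _ (hpm j)).2.1)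
      (fun j => (hP _ (hpm j)).2.2) (by rw [hpr]; exact hprod) I hIs.1 (fun j => hIs.2 _ (hpm j))
    refine le_trans ?_ h1
    have h2 : (univ.filter fun b : Sym2 (Fin n) → Bool => BadP g d n P b) ⊆
        (univ.filter fun b : Sym2 (Fin n) → Bool => ∃ u : Fin n → GG p,
        NS p ((n : ℝ) ^ (1 - d)) u ∧ I ≤ Zr p u ∧ smul2 b u = 0) := by
      intro b hb
      rw [mem_filter] at hb ⊢
      obtain ⟨J, hJ, v, hv1, hv2, hv3⟩ := hb.2
      refine ⟨mem_univ _, fun j => (fun i => (v j : ZMod (p i)) : GG p), ?_, ?_, smul2_cast p b v hv3⟩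
      · intro l
        refine (hv1 _ (hpm l)).trans (le_of_eq ?_)
        congr 2
        ext j
        simp only [mem_filter, mem_univ, true_and]
        rw [not_iff_not]
        exact (ZMod.intCast_zmod_eq_zero_iff_dvd (v j) (p l)).symm
      · have h3 : I ≤ J := Nat.find_min' hex hJ
        refine h3.trans (hv2.trans (le_of_eq ?_))
        unfold Zr
        rw [card_filter, Fintype.sum_prod_type_right, ← Finset.sum_coe_sort P
          (fun q => (univ.filter fun j => (q : ℤ) ∣ v j).card)]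
        rw [← Equiv.sum_comp P.equivFin.symm
          (fun q : P => (univ.filter fun j => ((q : ℕ) : ℤ) ∣ v j).card)]
        refine sum_congr rfl fun l _ => ?_
        rw [card_filter]
        refine sum_congr rfl fun j _ => ?_
        have h4 := ZMod.intCast_zmod_eq_zero_iff_dvd (v j) (p l)
        by_cases h5 : ((p l : ℕ) : ℤ) ∣ v j
        · rw [if_pos h5, if_pos (h4.2 h5)]
        · rw [if_neg h5, if_neg (fun h6 => h5 (h4.1 h6))]
    exact_mod_cast card_le_card h2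
  · have h2 : (univ.filter fun b : Sym2 (Fin n) → Bool => BadP g d n P b) = ∅ := by
      refine filter_eq_empty_iff.2 fun b _ hb => ?_
      obtain ⟨J, hJ, _⟩ := hb
      exact hex ⟨J, hJ⟩
    rw [h2, card_empty, Nat.cast_zero]
    positivity

theorem pow_four_le (n : ℕ) (hn : 16 ≤ n) : n ^ 4 ≤ 2 ^ n := by
  induction n, hn using Nat.le_induction with
  | base => norm_num
  | succ m hm ih =>
    rw [pow_succ 2 m]
    have h1 : (m + 1) ^ 4 ≤ m ^ 4 * 2 := by
      have h2 : (m + 1) ^ 4 = m ^ 4 + (4 * m ^ 3 + 6 * m ^ 2 + 4 * m + 1) := by ring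
      have h3 : m ^ 2 ≤ m ^ 3 := Nat.pow_le_pow_right (by omega) (by norm_num)
      have h4 : m ≤ m ^ 3 := by
        calc m = m ^ 1 := (pow_one m).symm
          _ ≤ m ^ 3 := Nat.pow_le_pow_right (by omega) (by norm_num)
      have h5 : 1 ≤ m ^ 3 := Nat.one_le_pow _ _ (by omega)
      have h6 : 16 * m ^ 3 ≤ m ^ 4 := by
        rw [pow_succ m 3, mul_comm (m ^ 3)]
        exact Nat.mul_le_mul_right _ hm
      omega
    exact h1.trans (Nat.mul_le_mul_right 2 ih)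

open Classical in
/-- **MID** from its leaves -/
theorem midMain (hS : StmtSparse) (hP : StmtPig) (hH : StmtHalf) (hB : StmtBlock) : StmtMid := by
  intro ε θ η hε hθ hη
  set η' : ℝ := min η (1 / 2) with hη'
  have hη'0 : 0 < η' := lt_min hη (by norm_num)
  have hη'1 : η' < 1 := lt_of_le_of_lt (min_le_right _ _) (by norm_num)
  obtain ⟨g, hg, hg4, n₁, h₁⟩ := hP ε θ η' hε hθ hη'0 hη'1
  obtain ⟨d, hd, hd8, n₂, h₂⟩ := block hH hB g hg hg4
  obtain ⟨n₃, h₃⟩ := hS 2 d (ε / 2) hd (by positivity)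
  refine ⟨n₁ + n₂ + n₃ + ⌈2 / ε⌉₊ + 16, fun n hn => ?_⟩
  have hn1 : n₁ ≤ n := by omega
  have hn2 : n₂ ≤ n := by omega
  have hn3 : n₃ ≤ n := by omega
  have hn16 : 16 ≤ n := by omega
  have hnε : 2 / ε ≤ n := by
    refine (Nat.le_ceil _).trans ?_
    exact_mod_cast (by omega : ⌈2 / ε⌉₊ ≤ n)
  have hn0 : (0 : ℝ) < n := by exact_mod_cast (by omega : 0 < n)
  obtain ⟨B, hBc, hBP, hBZ⟩ := h₁ n hn1
  set S : Finset (Sym2 (Fin n) → Bool) := (univ : Finset (Sym2 (Fin n) → Bool)).filter fun b =>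
    ∃ p : ℕ, p.Prime ∧ (p : ℝ) ≤ (n : ℝ) ^ (2 : ℝ) ∧
      ∃ u : Fin n → ZMod p, u ≠ 0 ∧ ((univ.filter fun i => u i ≠ 0).card : ℝ) ≤ (n : ℝ) ^ (1 - d) ∧
        (matZ b).map (Int.cast : ℤ → ZMod p) *ᵥ u = 0 with hSd
  have hSc := h₃ n hn3
  have hsub : ((univ : Finset (Sym2 (Fin n) → Bool)).filter fun b => ∃ v : Fin n → ℤ,
      (∀ p : ℕ, p.Prime → ∃ j, ¬ (p : ℤ) ∣ v j) ∧ matZ b *ᵥ v = 0 ∧
      θ * n < ((univ.filter fun j : Fin n =>
        ε * n < (((range (n ^ 2 + 1)).filter fun q => q.Prime ∧ n ≤ q ∧ (q : ℝ) ≤ (n : ℝ) ^ (2 - η) ∧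
          (q : ℤ) ∣ v j).card : ℝ)).card : ℝ)) ⊆
      S ∪ B.biUnion fun P => univ.filter fun b : Sym2 (Fin n) → Bool => BadP g d n P b := by
    intro b hb
    rw [mem_filter] at hb
    obtain ⟨v, hv1, hv2, hv3⟩ := hb.2
    by_cases hbS : b ∈ S
    · exact mem_union_left _ hbS
    · refine mem_union_right _ ?_
      obtain ⟨P, hPB, hP1, hP2⟩ := hBZ (fun q => univ.filter fun j => (q : ℤ) ∣ v j) (by
        refine lt_of_lt_of_le hv3 ?_
        have h1 : (univ.filter fun j : Fin n =>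
            ε * n < (((range (n ^ 2 + 1)).filter fun q => q.Prime ∧ n ≤ q ∧ (q : ℝ) ≤ (n : ℝ) ^ (2 - η) ∧
              (q : ℤ) ∣ v j).card : ℝ)) ⊆ (univ.filter fun j : Fin n =>
            ε * n < (((range (n ^ 2 + 1)).filter fun q => q.Prime ∧ n ≤ q ∧ (q : ℝ) ≤ (n : ℝ) ^ (2 - η') ∧
              j ∈ (univ.filter fun j => (q : ℤ) ∣ v j)).card : ℝ)) := by
          intro j hj
          rw [mem_filter] at hj ⊢
          refine ⟨mem_univ _, lt_of_lt_of_le hj.2 ?_⟩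
          have h2 : ((range (n ^ 2 + 1)).filter fun q => q.Prime ∧ n ≤ q ∧ (q : ℝ) ≤ (n : ℝ) ^ (2 - η) ∧
              (q : ℤ) ∣ v j) ⊆ ((range (n ^ 2 + 1)).filter fun q => q.Prime ∧ n ≤ q ∧
              (q : ℝ) ≤ (n : ℝ) ^ (2 - η') ∧ j ∈ (univ.filter fun j => (q : ℤ) ∣ v j)) := by
            intro q hq
            rw [mem_filter] at hq ⊢
            obtain ⟨hq0, hq1, hq2, hq3, hq4⟩ := hq
            refine ⟨hq0, hq1, hq2, hq3.trans ?_, mem_filter.2 ⟨mem_univ _, hq4⟩⟩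
            refine Real.rpow_le_rpow_of_exponent_le ?_ ?_
            · exact_mod_cast (by omega : 1 ≤ n)
            · have := min_le_left η (1 / 2)
              linarith
          exact_mod_cast card_le_card h2
        exact_mod_cast card_le_card h1)
      obtain ⟨hPq, -⟩ := hBP P hPB
      rw [mem_biUnion]
      refine ⟨P, hPB, mem_filter.2 ⟨mem_univ _, ?_⟩⟩
      refine ⟨∑ q ∈ P, (univ.filter fun j => (q : ℤ) ∣ v j).card, ⟨?_, ?_⟩, v, ?_, le_rfl, hv2⟩
      · push_cast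
        push_cast at hP1
        exact hP1
      · intro q hq
        have := hP2 q hq
        push_cast
        push_cast at this
        exact this
      · intro q hq
        obtain ⟨hq1, hq2, hq3⟩ := hPq q hq
        by_contra hcon
        rw [not_le] at hcon
        apply hbS
        rw [hSd, mem_filter]
        haveI : NeZero q := ⟨hq1.ne_zero⟩
        refine ⟨mem_univ _, q, hq1, ?_, fun j => (v j : ZMod q), ?_, ?_, ?_⟩
        · have h4 : (q : ℝ) ≤ (n : ℝ) ^ (2 : ℕ) := by exact_mod_cast hq3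
          rw [← Real.rpow_natCast] at h4
          exact_mod_cast h4
        · obtain ⟨j, hj⟩ := hv1 q hq1
          intro h5
          apply hj
          exact (ZMod.intCast_zmod_eq_zero_iff_dvd (v j) q).1 (congrFun h5 j)
        · refine le_trans (le_of_eq ?_) hcon.le
          congr 2
          ext j
          simp only [mem_filter, mem_univ, true_and]
          rw [not_iff_not]
          exact ZMod.intCast_zmod_eq_zero_iff_dvd (v j) q
        · funext i
          have h6 := congrFun hv2 i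
          simp only [Matrix.mulVec, dotProduct, Pi.zero_apply, Matrix.map_apply] at h6 ⊢
          rw [← Int.cast_zero, ← h6, Int.cast_sum]
          refine sum_congr rfl fun j _ => ?_
          rw [Int.cast_mul]
  have hcB : ((B.biUnion fun P => univ.filter fun b : Sym2 (Fin n) → Bool => BadP g d n P b).card : ℝ) ≤
      (n : ℝ) ^ 4 * ((2 : ℝ) ^ (-(2 * n : ℝ)) * 2 ^ Fintype.card (Sym2 (Fin n))) := by
    have h1 : ((B.biUnion fun P => univ.filter fun b : Sym2 (Fin n) → Bool => BadP g d n P b).card : ℝ) ≤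
        ∑ P ∈ B, ((univ.filter fun b : Sym2 (Fin n) → Bool => BadP g d n P b).card : ℝ) := by
      exact_mod_cast card_biUnion_le
    refine h1.trans ?_
    have h2 : ∀ P ∈ B, ((univ.filter fun b : Sym2 (Fin n) → Bool => BadP g d n P b).card : ℝ) ≤
        (2 : ℝ) ^ (-(2 * n : ℝ)) * 2 ^ Fintype.card (Sym2 (Fin n)) := fun P hPB =>
      block' g d n (h₂ n hn2) P (hBP P hPB).1 (hBP P hPB).2
    refine (sum_le_sum h2).trans ?_
    rw [sum_const, nsmul_eq_mul]
    exact mul_le_mul_of_nonneg_right hBc (by positivity)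
  have hc : (((univ : Finset (Sym2 (Fin n) → Bool)).filter fun b => ∃ v : Fin n → ℤ,
      (∀ p : ℕ, p.Prime → ∃ j, ¬ (p : ℤ) ∣ v j) ∧ matZ b *ᵥ v = 0 ∧
      θ * n < ((univ.filter fun j : Fin n =>
        ε * n < (((range (n ^ 2 + 1)).filter fun q => q.Prime ∧ n ≤ q ∧ (q : ℝ) ≤ (n : ℝ) ^ (2 - η) ∧
          (q : ℤ) ∣ v j).card : ℝ)).card : ℝ)).card : ℝ) ≤
      (2 : ℝ) ^ (-((1 - ε / 2) * n)) * 2 ^ Fintype.card (Sym2 (Fin n)) +
      (n : ℝ) ^ 4 * ((2 : ℝ) ^ (-(2 * n : ℝ)) * 2 ^ Fintype.card (Sym2 (Fin n))) := by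
    have h1 := (card_le_card hsub).trans (card_union_le _ _)
    have h2 : (((univ : Finset (Sym2 (Fin n) → Bool)).filter fun b => ∃ v : Fin n → ℤ,
      (∀ p : ℕ, p.Prime → ∃ j, ¬ (p : ℤ) ∣ v j) ∧ matZ b *ᵥ v = 0 ∧
      θ * n < ((univ.filter fun j : Fin n =>
        ε * n < (((range (n ^ 2 + 1)).filter fun q => q.Prime ∧ n ≤ q ∧ (q : ℝ) ≤ (n : ℝ) ^ (2 - η) ∧
          (q : ℤ) ∣ v j).card : ℝ)).card : ℝ)).card : ℝ) ≤ (S.card : ℝ) +
        ((B.biUnion fun P => univ.filter fun b : Sym2 (Fin n) → Bool => BadP g d n P b).card : ℝ) := by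
      exact_mod_cast h1
    exact h2.trans (add_le_add hSc hcB)
  refine hc.trans ?_
  have hW : (0 : ℝ) < 2 ^ Fintype.card (Sym2 (Fin n)) := by positivity
  have e1 : (n : ℝ) ^ 4 * ((2 : ℝ) ^ (-(2 * n : ℝ)) * 2 ^ Fintype.card (Sym2 (Fin n))) ≤
      (2 : ℝ) ^ (-((1 - ε / 2) * n)) * 2 ^ Fintype.card (Sym2 (Fin n)) := by
    rw [← mul_assoc]
    refine mul_le_mul_of_nonneg_right ?_ hW.le
    have h1 : (n : ℝ) ^ 4 ≤ (2 : ℝ) ^ (n : ℝ) := by
      rw [Real.rpow_natCast]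
      exact_mod_cast pow_four_le n hn16
    calc (n : ℝ) ^ 4 * (2 : ℝ) ^ (-(2 * n : ℝ)) ≤ (2 : ℝ) ^ (n : ℝ) * (2 : ℝ) ^ (-(2 * n : ℝ)) :=
          mul_le_mul_of_nonneg_right h1 (by positivity)
      _ = (2 : ℝ) ^ (-(n : ℝ)) := by
          rw [← Real.rpow_add (by norm_num)]
          congr 1
          ring
      _ ≤ _ := by
          refine Real.rpow_le_rpow_of_exponent_le (by norm_num) ?_
          have : 0 ≤ ε / 2 * n := by positivity
          linarith
  have e2 : 2 * (2 : ℝ) ^ (-((1 - ε / 2) * n)) ≤ (2 : ℝ) ^ (-((1 - ε) * n)) := by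
    have h1 : (2 : ℝ) * (2 : ℝ) ^ (-((1 - ε / 2) * n)) = (2 : ℝ) ^ (1 + -((1 - ε / 2) * n)) := by
      rw [Real.rpow_add (by norm_num), Real.rpow_one]
    rw [h1]
    refine Real.rpow_le_rpow_of_exponent_le (by norm_num) ?_
    have h2 : 1 ≤ ε / 2 * n := by
      rw [div_le_iff₀ hε] at hnε
      linarith
    linarith
  have e3 := mul_le_mul_of_nonneg_right e2 hW.le
  linarith

end Vale.Agent.P160.Half.Mid184
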