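import Vale.Agent.P160.Half.Mid.MidStmt
import Vale.Agent.P160.Half.SgnRed

set_option linter.unusedSectionVars false

/-! # P160, rate 1/2, MID: union over vectors, removal of one coordinate (helper184) -/

namespace Vale.Agent.P160.Half.Mid184

open Finset Matrix Vale.Agent.P160 Vale.Agent.P160.Half Vale.Agent.P160.Half.Mid

section gen

variable {A : Type*} [AddCommGroup A] [Fintype A] [DecidableEq A]

theorem card_eq_SprA {ι : Type*} [Fintype ι] [DecidableEq ι] (v w : ι → A) :
    ((univ.filter fun b : Sym2 ι → Bool => smul2 b v = w).card : ℝ) = SprA v w * 2 ^ Fintype.card (Sym2 ι) := by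
  unfold SprA
  rw [div_mul_cancel₀ _ (by positivity)]

open Classical in
theorem card_exists_le {ι : Type*} [Fintype ι] [DecidableEq ι] (V : Finset (ι → A)) :
    ((univ.filter fun b : Sym2 ι → Bool => ∃ u ∈ V, smul2 b u = 0).card : ℝ) ≤
      (∑ u ∈ V, SprA u 0) * 2 ^ Fintype.card (Sym2 ι) := by
  have h1 : (univ.filter fun b : Sym2 ι → Bool => ∃ u ∈ V, smul2 b u = 0) ⊆
      V.biUnion fun u => univ.filter fun b : Sym2 ι → Bool => smul2 b u = 0 := by
    intro b hb
    obtain ⟨u, hu, h⟩ := (mem_filter.1 hb).2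
    exact mem_biUnion.2 ⟨u, hu, mem_filter.2 ⟨mem_univ _, h⟩⟩
  have h2 := (card_le_card h1).trans card_biUnion_le
  have h3 : ((univ.filter fun b : Sym2 ι → Bool => ∃ u ∈ V, smul2 b u = 0).card : ℝ) ≤
      ∑ u ∈ V, ((univ.filter fun b : Sym2 ι → Bool => smul2 b u = 0).card : ℝ) := by
    exact_mod_cast h2
  refine h3.trans (le_of_eq ?_)
  rw [sum_mul]
  exact sum_congr rfl fun u _ => card_eq_SprA u 0

/-- the bits of the first row and the bits of the rest -/
def spl {m : ℕ} (b : Sym2 (Fin (m + 1)) → Bool) : (Fin (m + 1) → Bool) × (Sym2 (Fin m) → Bool) :=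
  (fun i => b s(0, i), fun z => b (z.map Fin.succ))

theorem spl_inj {m : ℕ} : Function.Injective (spl (m := m)) := by
  intro b b' h
  funext z
  obtain ⟨x, rfl⟩ := (SgnRed.inj_bij (n := m)).2 z
  rcases x with i | w
  · exact congrFun (congrArg Prod.fst h) i
  · exact congrFun (congrArg Prod.snd h) w

/-- the right side for the smaller matrix -/
def rhs {m : ℕ} (r : Fin (m + 1) → Bool) (g : A) : Fin m → A := fun i => -(if r i.succ then g else 0)

theorem smul2_succ {m : ℕ} (b : Sym2 (Fin (m + 1)) → Bool) (u : Fin (m + 1) → A) (h : smul2 b u = 0) :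
    smul2 (spl b).2 (fun i => u i.succ) = rhs (spl b).1 (u 0) := by
  funext i
  have h1 := congrFun h i.succ
  unfold smul2 at h1
  rw [Fin.sum_univ_succ, Pi.zero_apply] at h1
  have h2 : s(i.succ, (0 : Fin (m + 1))) = s(0, i.succ) := Sym2.eq_swap
  rw [h2] at h1
  unfold smul2 rhs spl
  exact (neg_eq_of_add_eq_zero_right h1).symm

open Classical in
/-- **removal of the first coordinate** -/
theorem sum_succ_le {m : ℕ} (V : Finset (Fin (m + 1) → A)) (V' : Finset (Fin m → A))
    (hV : ∀ u ∈ V, (fun i => u i.succ) ∈ V') (T : ℝ) (hT : ∀ (y : Fin m → A), ∑ v ∈ V', SprA v y ≤ T) :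
    ((univ.filter fun b : Sym2 (Fin (m + 1)) → Bool => ∃ u ∈ V, smul2 b u = 0).card : ℝ) ≤
      Fintype.card A * T * 2 ^ Fintype.card (Sym2 (Fin (m + 1))) := by
  have h1 : (univ.filter fun b : Sym2 (Fin (m + 1)) → Bool => ∃ u ∈ V, smul2 b u = 0).card ≤
      (((univ : Finset (Fin (m + 1) → Bool)) ×ˢ (univ : Finset A)).biUnion fun q =>
        V'.biUnion fun v => (univ.filter fun c : Sym2 (Fin m) → Bool => smul2 c v = rhs q.1 q.2).image
          fun c => (q.1, c)).card := by
    refine card_le_card_of_injOn (fun b => spl b) ?_ (spl_inj.injOn)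
    intro b hb
    rw [mem_coe, mem_filter] at hb
    obtain ⟨u, hu, h⟩ := hb.2
    rw [mem_coe, mem_biUnion]
    refine ⟨((spl b).1, u 0), mem_product.2 ⟨mem_univ _, mem_univ _⟩, ?_⟩
    rw [mem_biUnion]
    refine ⟨_, hV u hu, ?_⟩
    rw [mem_image]
    exact ⟨(spl b).2, mem_filter.2 ⟨mem_univ _, smul2_succ b u h⟩, rfl⟩
  have h2 : (((univ : Finset (Fin (m + 1) → Bool)) ×ˢ (univ : Finset A)).biUnion fun q =>
        V'.biUnion fun v => (univ.filter fun c : Sym2 (Fin m) → Bool => smul2 c v = rhs q.1 q.2).image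
          fun c => (q.1, c)).card ≤
      ∑ q ∈ (univ : Finset (Fin (m + 1) → Bool)) ×ˢ (univ : Finset A), ∑ v ∈ V',
        (univ.filter fun c : Sym2 (Fin m) → Bool => smul2 c v = rhs q.1 q.2).card := by
    refine card_biUnion_le.trans (sum_le_sum fun q _ => ?_)
    exact card_biUnion_le.trans (sum_le_sum fun v _ => card_image_le)
  have h3 : ((univ.filter fun b : Sym2 (Fin (m + 1)) → Bool => ∃ u ∈ V, smul2 b u = 0).card : ℝ) ≤
      ∑ q ∈ (univ : Finset (Fin (m + 1) → Bool)) ×ˢ (univ : Finset A), ∑ v ∈ V',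
        ((univ.filter fun c : Sym2 (Fin m) → Bool => smul2 c v = rhs q.1 q.2).card : ℝ) := by
    exact_mod_cast h1.trans h2
  refine h3.trans ?_
  have h4 : ∀ q ∈ (univ : Finset (Fin (m + 1) → Bool)) ×ˢ (univ : Finset A), ∑ v ∈ V',
      ((univ.filter fun c : Sym2 (Fin m) → Bool => smul2 c v = rhs q.1 q.2).card : ℝ) ≤
        T * 2 ^ Fintype.card (Sym2 (Fin m)) := by
    intro q _
    rw [sum_congr rfl fun v _ => card_eq_SprA v (rhs q.1 q.2), ← sum_mul]
    exact mul_le_mul_of_nonneg_right (hT _) (by positivity)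
  refine (sum_le_sum h4).trans (le_of_eq ?_)
  rw [sum_const, card_product, card_univ, card_univ, nsmul_eq_mul]
  have h5 : (2 : ℝ) ^ Fintype.card (Sym2 (Fin (m + 1))) = 2 ^ (m + 1) * 2 ^ Fintype.card (Sym2 (Fin m)) := by
    exact_mod_cast SgnRed.card_bits m
  rw [h5, Fintype.card_fun, Fintype.card_bool, Fintype.card_fin]
  push_cast
  ring

end gen

end Vale.Agent.P160.Half.Mid184
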