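import Vale.Agent.P160.Half.Mid.MainA184

set_option linter.unusedSectionVars false

/-! # P160, rate 1/2, MID: the estimate for one block of primes (helper184) -/

namespace Vale.Agent.P160.Half.Mid184

open Finset Matrix Vale.Agent.P160 Vale.Agent.P160.Half Vale.Agent.P160.Half.Mid

theorem B4_nonneg {k t : ℕ} (p : Fin t → ℕ) [∀ j, NeZero (p j)] (x z : Fin k → GG p) : 0 ≤ B4 p x z := by
  unfold B4
  positivity

theorem S4_mono {k t : ℕ} (p : Fin t → ℕ) [∀ j, NeZero (p j)] {e e' : ℝ} (h : e ≤ e') (I : ℕ) :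
    S4 k t p e' I ≤ S4 k t p e I := by
  classical
  unfold S4
  refine sum_le_sum fun z _ => ?_
  by_cases h1 : NS p e' z.1 ∧ NS p e' z.2 ∧ I ≤ Zr p z.1 + Zr p z.2
  · have h2 : NS p e z.1 ∧ NS p e z.2 ∧ I ≤ Zr p z.1 + Zr p z.2 :=
      ⟨fun j => h.trans (h1.1 j), fun j => h.trans (h1.2.1 j), h1.2.2⟩
    rw [if_pos h1, if_pos h2]
  · rw [if_neg h1]
    split_ifs
    · exact B4_nonneg p _ _
    · exact le_rfl

/-- the error term -/
noncomputable def TT (c : ℝ) (k : ℕ) : ℝ := Real.exp (2 * k) * (k : ℝ) ^ (-(c * k)) + (k : ℝ) ^ (-(k : ℝ))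

theorem TT_nonneg (c : ℝ) (k : ℕ) : 0 ≤ TT c k := by
  unfold TT
  positivity

theorem TT_small (c : ℝ) (hc : 0 < c) : ∃ k₀ : ℕ, ∀ k ≥ k₀, (2 : ℝ) ^ (9 * k : ℝ) * TT c k ≤ 1 := by
  set c₁ : ℝ := min c 1 with hc₁
  have hc0 : 0 < c₁ := lt_min hc one_pos
  refine ⟨⌈Real.exp (12 / c₁)⌉₊ + 1, fun k hk => ?_⟩
  have hk1 : (1 : ℝ) ≤ k := by exact_mod_cast (by omega : 1 ≤ k)
  have hk0 : (0 : ℝ) < k := by linarith
  have hkE : Real.exp (12 / c₁) ≤ k := by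
    refine (Nat.le_ceil _).trans ?_
    exact_mod_cast (by omega : ⌈Real.exp (12 / c₁)⌉₊ ≤ k)
  have hlog : 12 ≤ c₁ * Real.log k := by
    have h1 := Real.log_le_log (Real.exp_pos _) hkE
    rw [Real.log_exp] at h1
    have h2 := mul_le_mul_of_nonneg_left h1 hc0.le
    rwa [mul_div_cancel₀ _ hc0.ne'] at h2
  have h1 : (k : ℝ) ^ (-(c * k)) ≤ (k : ℝ) ^ (-(c₁ * k)) := by
    refine Real.rpow_le_rpow_of_exponent_le hk1 ?_
    have := mul_le_mul_of_nonneg_right (min_le_left c 1) hk0.le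
    linarith
  have h2 : (k : ℝ) ^ (-(k : ℝ)) ≤ (k : ℝ) ^ (-(c₁ * k)) := by
    refine Real.rpow_le_rpow_of_exponent_le hk1 ?_
    have := mul_le_mul_of_nonneg_right (min_le_right c 1) hk0.le
    linarith
  have h3 : (1 : ℝ) ≤ Real.exp (2 * k) := Real.one_le_exp (by positivity)
  have h4 : (0 : ℝ) ≤ (k : ℝ) ^ (-(c₁ * k)) := by positivity
  have h5 : TT c k ≤ 2 * (Real.exp (2 * k) * (k : ℝ) ^ (-(c₁ * k))) := by
    unfold TT
    have h6 := mul_le_mul_of_nonneg_left h1 (Real.exp_pos (2 * (k : ℝ))).le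
    have h7 := mul_le_mul_of_nonneg_right h3 h4
    linarith
  have hl2 : Real.log 2 < 1 := by
    have := Real.log_two_lt_d9
    linarith
  have hl20 : 0 < Real.log 2 := Real.log_pos (by norm_num)
  have h8 : (2 : ℝ) ^ (9 * k : ℝ) = Real.exp (Real.log 2 * (9 * k)) := by
    rw [Real.rpow_def_of_pos (by norm_num)]
  have h9 : (k : ℝ) ^ (-(c₁ * k)) = Real.exp (Real.log k * (-(c₁ * k))) := by
    rw [Real.rpow_def_of_pos hk0]
  have h10 : (2 : ℝ) = Real.exp (Real.log 2) := (Real.exp_log (by norm_num)).symm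
  calc (2 : ℝ) ^ (9 * k : ℝ) * TT c k
      ≤ (2 : ℝ) ^ (9 * k : ℝ) * (2 * (Real.exp (2 * k) * (k : ℝ) ^ (-(c₁ * k)))) :=
        mul_le_mul_of_nonneg_left h5 (by positivity)
    _ = Real.exp (Real.log 2 * (9 * k) + (Real.log 2 + (2 * k + Real.log k * (-(c₁ * k))))) := by
        rw [h8, h9, Real.exp_add, Real.exp_add, Real.exp_add, Real.exp_log (by norm_num : (0 : ℝ) < 2)]
    _ ≤ Real.exp 0 := by
        refine Real.exp_le_exp.2 ?_
        have h11 : Real.log 2 * (9 * k) ≤ 9 * k := by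
          have := mul_le_mul_of_nonneg_right hl2.le (by positivity : (0 : ℝ) ≤ 9 * k)
          linarith
        have h12 : 12 * (k : ℝ) ≤ c₁ * Real.log k * k := mul_le_mul_of_nonneg_right hlog hk0.le
        nlinarith
    _ = 1 := Real.exp_zero

/-- all the comparisons of powers -/
theorem powers (g d : ℝ) (hg : 0 < g) (hg4 : g < 1 / 4) (hd : 0 < d) (hd4 : d ≤ 1 / 8) :
    ∃ k₀ : ℕ, ∀ k ≥ k₀, ∀ n : ℕ, 2 * k ≤ n → n ≤ 2 * k + 1 →
      ((k : ℝ) ^ (1 - d) + 1 ≤ (n : ℝ) ^ (1 - d)) ∧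
      ((n : ℝ) ^ (1 - 2 * g) ≤ (k : ℝ) ^ (1 - g)) ∧ ((n : ℝ) ^ (1 - 2 * g) ≤ n) ∧
      (2 * (k : ℝ) ^ (1 + g) ≤ (n : ℝ) ^ (1 + 2 * g)) ∧ (2 * (n : ℝ) ≤ (n : ℝ) ^ (1 + 2 * g)) ∧
      (2 * ((k : ℝ) ^ g * k) ≤ (n : ℝ) ^ (2 * g) * n) ∧ n ^ 2 ≤ k ^ 3 ∧ k ≤ n ∧ n ≤ 3 * k ∧ 1 ≤ k := by
  refine ⟨⌈(3 : ℝ) ^ (1 / g)⌉₊ + 9, fun k hk n hn1 hn2 => ?_⟩
  have hk9 : 9 ≤ k := by omega
  have hk9' : (9 : ℝ) ≤ k := by exact_mod_cast hk9
  have hk0 : (0 : ℝ) < k := by linarith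
  have hk1 : (1 : ℝ) ≤ k := by linarith
  have hkn : k ≤ n := by omega
  have hkn' : (k : ℝ) ≤ n := by exact_mod_cast hkn
  have h2kn : 2 * (k : ℝ) ≤ n := by exact_mod_cast hn1
  have hn3k : n ≤ 3 * k := by omega
  have hn3k' : (n : ℝ) ≤ 3 * k := by exact_mod_cast hn3k
  have hn0 : (0 : ℝ) < n := by linarith
  have hn1' : (1 : ℝ) ≤ n := by linarith
  have hkg : (3 : ℝ) ≤ (k : ℝ) ^ g := by
    have h1 : (3 : ℝ) ^ (1 / g) ≤ k := by
      refine (Nat.le_ceil _).trans ?_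
      exact_mod_cast (by omega : ⌈(3 : ℝ) ^ (1 / g)⌉₊ ≤ k)
    have h2 := Real.rpow_le_rpow (by positivity) h1 hg.le
    rwa [← Real.rpow_mul (by norm_num), one_div, inv_mul_cancel₀ hg.ne', Real.rpow_one] at h2
  have hng : (k : ℝ) ^ g ≤ (n : ℝ) ^ g := Real.rpow_le_rpow hk0.le hkn' hg.le
  have hn2g : (n : ℝ) ^ (2 * g) = (n : ℝ) ^ g * (n : ℝ) ^ g := by
    rw [← Real.rpow_add hn0]
    congr 1
    ring
  have hkg0 : (0 : ℝ) < (k : ℝ) ^ g := by linarith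
  have hng3 : (3 : ℝ) ≤ (n : ℝ) ^ g := hkg.trans hng
  have hn2g2 : 3 * (k : ℝ) ^ g ≤ (n : ℝ) ^ (2 * g) := by
    rw [hn2g]
    exact mul_le_mul hng3 hng hkg0.le (by linarith)
  refine ⟨?_, ?_, ?_, ?_, ?_, ?_, ?_, hkn, hn3k, by omega⟩
  · have h1 : (2 * (k : ℝ)) ^ (1 - d) ≤ (n : ℝ) ^ (1 - d) :=
      Real.rpow_le_rpow (by positivity) h2kn (by linarith)
    rw [Real.mul_rpow (by norm_num) hk0.le] at h1
    have h2 : (3 / 2 : ℝ) ≤ (2 : ℝ) ^ (1 - d) := by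
      have h3 : (2 : ℝ) ^ (7 / 8 : ℝ) ≤ (2 : ℝ) ^ (1 - d) :=
        Real.rpow_le_rpow_of_exponent_le (by norm_num) (by linarith)
      have h4 : (3 / 2 : ℝ) ≤ (2 : ℝ) ^ (7 / 8 : ℝ) := by
        have h5 : ((3 / 2 : ℝ) ^ (8 : ℕ)) ^ (1 / 8 : ℝ) ≤ ((2 : ℝ) ^ (7 : ℕ)) ^ (1 / 8 : ℝ) :=
          Real.rpow_le_rpow (by positivity) (by norm_num) (by norm_num)
        rw [← Real.rpow_natCast, ← Real.rpow_natCast, ← Real.rpow_mul (by norm_num),
          ← Real.rpow_mul (by norm_num)] at h5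
        norm_num at h5 ⊢
        exact h5
      exact h4.trans h3
    have h6 : (3 : ℝ) ≤ (k : ℝ) ^ (1 - d) := by
      have h7 : (9 : ℝ) ^ (1 / 2 : ℝ) ≤ (k : ℝ) ^ (1 / 2 : ℝ) :=
        Real.rpow_le_rpow (by norm_num) hk9' (by norm_num)
      have h8 : (k : ℝ) ^ (1 / 2 : ℝ) ≤ (k : ℝ) ^ (1 - d) :=
        Real.rpow_le_rpow_of_exponent_le hk1 (by linarith)
      have h9 : (9 : ℝ) ^ (1 / 2 : ℝ) = 3 := by
        rw [show (9 : ℝ) = 3 ^ (2 : ℝ) by norm_num, ← Real.rpow_mul (by norm_num)]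
        norm_num
      linarith
    nlinarith
  · calc (n : ℝ) ^ (1 - 2 * g) ≤ (3 * (k : ℝ)) ^ (1 - 2 * g) :=
          Real.rpow_le_rpow hn0.le hn3k' (by linarith)
      _ = (3 : ℝ) ^ (1 - 2 * g) * (k : ℝ) ^ (1 - 2 * g) := Real.mul_rpow (by norm_num) hk0.le
      _ ≤ (3 : ℝ) ^ (1 : ℝ) * (k : ℝ) ^ (1 - 2 * g) := by
          refine mul_le_mul_of_nonneg_right ?_ (by positivity)
          exact Real.rpow_le_rpow_of_exponent_le (by norm_num) (by linarith)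
      _ ≤ (k : ℝ) ^ g * (k : ℝ) ^ (1 - 2 * g) := by
          rw [Real.rpow_one]
          exact mul_le_mul_of_nonneg_right hkg (by positivity)
      _ = (k : ℝ) ^ (1 - g) := by
          rw [← Real.rpow_add hk0]
          congr 1
          ring
  · calc (n : ℝ) ^ (1 - 2 * g) ≤ (n : ℝ) ^ (1 : ℝ) :=
          Real.rpow_le_rpow_of_exponent_le hn1' (by linarith)
      _ = n := Real.rpow_one _
  · have h1 : (n : ℝ) ^ (1 + 2 * g) = (n : ℝ) ^ (1 + g) * (n : ℝ) ^ g := by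
      rw [← Real.rpow_add hn0]
      congr 1
      ring
    have h2 : (k : ℝ) ^ (1 + g) ≤ (n : ℝ) ^ (1 + g) := Real.rpow_le_rpow hk0.le hkn' (by linarith)
    have h3 : (0 : ℝ) ≤ (k : ℝ) ^ (1 + g) := by positivity
    rw [h1]
    nlinarith
  · rw [Real.rpow_add hn0, Real.rpow_one]
    nlinarith
  · nlinarith [mul_le_mul hn2g2 hkn' hk0.le (by positivity)]
  · have h1 : n ^ 2 ≤ (2 * k + 1) ^ 2 := Nat.pow_le_pow_left hn2 2
    refine h1.trans ?_
    nlinarith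

open Classical in
/-- **one block of primes** -/
theorem block (hH : StmtHalf) (hB : StmtBlock) (g : ℝ) (hg : 0 < g) (hg4 : g < 1 / 4) :
    ∃ d : ℝ, 0 < d ∧ d ≤ 1 / 8 ∧ ∃ n₀ : ℕ, ∀ n ≥ n₀, ∀ (t : ℕ) (p : Fin t → ℕ) (_ : ∀ j, NeZero (p j)),
      (∀ j, (p j).Prime) → Function.Injective p → (∀ j, n ≤ p j) → (∀ j, p j ≤ n ^ 2) →
      ((∏ j, p j : ℕ) : ℝ) ≤ (2 : ℝ) ^ ((n : ℝ) ^ (1 - 2 * g)) →
      ∀ I : ℕ, (n : ℝ) ^ (1 + 2 * g) ≤ I → (∀ j, (n : ℝ) ^ (2 * g) * (n * t) ≤ (I : ℝ) * p j) →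
      ((univ.filter fun b : Sym2 (Fin n) → Bool => ∃ u : Fin n → GG p,
        NS p ((n : ℝ) ^ (1 - d)) u ∧ I ≤ Zr p u ∧ smul2 b u = 0).card : ℝ) ≤
        (2 : ℝ) ^ (-(2 * n : ℝ)) * 2 ^ Fintype.card (Sym2 (Fin n)) := by
  obtain ⟨c, d₁, hc, hd₁, k₁, hk₁⟩ := hB g hg hg4
  set d' : ℝ := min d₁ (1 / 4) with hd'
  have hd'0 : 0 < d' := lt_min hd₁ (by norm_num)
  have hd'4 : d' ≤ 1 / 4 := min_le_right _ _
  have hd'1 : d' ≤ d₁ := min_le_left _ _
  set d : ℝ := d' / 2 with hd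
  have hd0 : 0 < d := by positivity
  have hd8 : d ≤ 1 / 8 := by linarith
  obtain ⟨k₂, hk₂⟩ := hH g d d' hg hd0 (by linarith) (by linarith)
  obtain ⟨k₃, hk₃⟩ := TT_small c hc
  obtain ⟨k₄, hk₄⟩ := powers g d hg hg4 hd0 hd8
  refine ⟨d, hd0, hd8, 2 * (k₁ + k₂ + k₃ + k₄) + 1, fun n hn t p hNZ hp hinj hlo hhi hprod I hI hIp => ?_⟩
  obtain ⟨k, hnk, hnk', hcase⟩ : ∃ k : ℕ, 2 * k ≤ n ∧ n ≤ 2 * k + 1 ∧ (n = 2 * k ∨ n = 2 * k + 1) := by
    refine ⟨n / 2, by omega, by omega, by omega⟩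
  have hkk₁ : k₁ ≤ k := by omega
  have hkk₂ : k₂ ≤ k := by omega
  have hkk₃ : k₃ ≤ k := by omega
  have hkk₄ : k₄ ≤ k := by omega
  obtain ⟨q1, q2, q3, q4, q5, q6, q7, q8, q9, q10⟩ := hk₄ k hkk₄ n hnk hnk'
  have hk0 : (0 : ℝ) < k := by exact_mod_cast (by omega : 0 < k)
  have hn0 : (0 : ℝ) < n := by exact_mod_cast (by omega : 0 < n)
  -- the number of primes
  have ht : (t : ℝ) ≤ n := by
    have h1 : (2 : ℝ) ^ (t : ℝ) ≤ (2 : ℝ) ^ ((n : ℝ) ^ (1 - 2 * g)) := by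
      refine le_trans ?_ hprod
      rw [Real.rpow_natCast]
      have h2 : 2 ^ t ≤ ∏ j, p j := by
        calc 2 ^ t = ∏ _j : Fin t, 2 := by rw [prod_const, card_univ, Fintype.card_fin]
          _ ≤ ∏ j, p j := prod_le_prod' fun j _ => (hp j).two_le
      exact_mod_cast h2
    exact ((Real.rpow_le_rpow_left_iff (by norm_num)).1 h1).trans q3
  have htI : 2 * t ≤ I := by
    have : (2 * (t : ℝ)) ≤ I := by linarith
    exact_mod_cast this
  have hI' : ((I - t : ℕ) : ℝ) = (I : ℝ) - t := by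
    rw [Nat.cast_sub (by omega)]
  have hIhalf : (I : ℝ) / 2 ≤ ((I - t : ℕ) : ℝ) := by
    rw [hI']
    have : (2 * (t : ℝ)) ≤ I := by exact_mod_cast htI
    linarith
  have hadm : Adm g k t p := by
    refine ⟨hp, hinj, fun j => q8.trans (hlo j), fun j => (hhi j).trans q7, ?_⟩
    exact hprod.trans (Real.rpow_le_rpow_of_exponent_le (by norm_num) q2)
  have hS4 : S4 k t p ((k : ℝ) ^ (1 - d')) (I - t) ≤ (k : ℝ) ^ (-(c * k)) := by
    have h1 : (k : ℝ) ^ (1 - d₁) ≤ (k : ℝ) ^ (1 - d') :=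
      Real.rpow_le_rpow_of_exponent_le (by exact_mod_cast q10) (by linarith)
    refine (S4_mono p h1 (I - t)).trans (hk₁ k hkk₁ t p hNZ hadm (I - t) ?_ ?_)
    · refine le_trans ?_ hIhalf
      linarith
    · intro j
      have h2 := hIp j
      have hpj : (0 : ℝ) ≤ p j := by positivity
      have ht0 : (0 : ℝ) ≤ t := by positivity
      have h3 : 2 * ((k : ℝ) ^ g * (k * t)) ≤ (n : ℝ) ^ (2 * g) * (n * t) := by
        have := mul_le_mul_of_nonneg_right q6 ht0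
        calc 2 * ((k : ℝ) ^ g * (k * t)) = 2 * ((k : ℝ) ^ g * k) * t := by ring
          _ ≤ (n : ℝ) ^ (2 * g) * n * t := this
          _ = _ := by ring
      have h4 := mul_le_mul_of_nonneg_right hIhalf hpj
      linarith
  -- the bound for the sums over vectors of size `2 k`
  have hT : ∀ (V : Finset (Fin (2 * k) → GG p)), (∀ v ∈ V, NS p ((k : ℝ) ^ (1 - d)) v ∧ I - t ≤ Zr p v) →
      ∀ y : Fin (2 * k) → GG p, ∑ v ∈ V, SprA v y ≤ TT c k := by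
    intro V hV y
    refine (hk₂ k hkk₂ t p hNZ hadm V (fun _ => y) (I - t) hV).trans ?_
    unfold TT
    have := mul_le_mul_of_nonneg_left hS4 (Real.exp_pos (2 * (k : ℝ))).le
    linarith
  have hTT : (2 : ℝ) ^ (n : ℝ) * TT c k ≤ (2 : ℝ) ^ (-(2 * n : ℝ)) := by
    have h1 := hk₃ k hkk₃
    have h2 : (n : ℝ) ≤ 3 * k := by exact_mod_cast q9
    have h3 : (2 : ℝ) ^ (n : ℝ) ≤ (2 : ℝ) ^ (9 * k - 2 * n : ℝ) :=
      Real.rpow_le_rpow_of_exponent_le (by norm_num) (by linarith)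
    calc (2 : ℝ) ^ (n : ℝ) * TT c k ≤ (2 : ℝ) ^ (9 * k - 2 * n : ℝ) * TT c k :=
          mul_le_mul_of_nonneg_right h3 (TT_nonneg c k)
      _ = (2 : ℝ) ^ (-(2 * n : ℝ)) * ((2 : ℝ) ^ (9 * k : ℝ) * TT c k) := by
          rw [← mul_assoc, ← Real.rpow_add (by norm_num)]
          congr 2
          ring
      _ ≤ (2 : ℝ) ^ (-(2 * n : ℝ)) * 1 := mul_le_mul_of_nonneg_left h1 (by positivity)
      _ = _ := mul_one _
  have hTT1 : TT c k ≤ (2 : ℝ) ^ (-(2 * n : ℝ)) := by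
    refine le_trans ?_ hTT
    have h1 : (1 : ℝ) ≤ (2 : ℝ) ^ (n : ℝ) := Real.one_le_rpow (by norm_num) hn0.le
    have h2 := mul_le_mul_of_nonneg_right h1 (TT_nonneg c k)
    linarith
  rcases hcase with rfl | rfl
  · -- even size
    set V : Finset (Fin (2 * k) → GG p) :=
      univ.filter fun u => NS p (((2 * k : ℕ) : ℝ) ^ (1 - d)) u ∧ I ≤ Zr p u with hVd
    have h1 := card_exists_le (A := GG p) V
    have h2 : (univ.filter fun b : Sym2 (Fin (2 * k)) → Bool => ∃ u : Fin (2 * k) → GG p,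
        NS p (((2 * k : ℕ) : ℝ) ^ (1 - d)) u ∧ I ≤ Zr p u ∧ smul2 b u = 0).card ≤
        (univ.filter fun b : Sym2 (Fin (2 * k)) → Bool => ∃ u ∈ V, smul2 b u = 0).card := by
      refine card_le_card fun b hb => ?_
      rw [mem_filter] at hb ⊢
      obtain ⟨u, hu1, hu2, hu3⟩ := hb.2
      exact ⟨mem_univ _, u, mem_filter.2 ⟨mem_univ _, hu1, hu2⟩, hu3⟩
    have h3 : ∑ u ∈ V, SprA u (0 : Fin (2 * k) → GG p) ≤ TT c k := by
      refine hT V (fun v hv => ?_) 0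
      rw [hVd, mem_filter] at hv
      refine ⟨fun j => ?_, ?_⟩
      · have := hv.2.1 j
        linarith
      · have := hv.2.2
        omega
    calc ((univ.filter fun b : Sym2 (Fin (2 * k)) → Bool => ∃ u : Fin (2 * k) → GG p,
        NS p (((2 * k : ℕ) : ℝ) ^ (1 - d)) u ∧ I ≤ Zr p u ∧ smul2 b u = 0).card : ℝ)
        ≤ ((univ.filter fun b : Sym2 (Fin (2 * k)) → Bool => ∃ u ∈ V, smul2 b u = 0).card : ℝ) := by
          exact_mod_cast h2
      _ ≤ (∑ u ∈ V, SprA u 0) * 2 ^ Fintype.card (Sym2 (Fin (2 * k))) := h1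
      _ ≤ (2 : ℝ) ^ (-(2 * (2 * k : ℕ) : ℝ)) * 2 ^ Fintype.card (Sym2 (Fin (2 * k))) :=
          mul_le_mul_of_nonneg_right (h3.trans hTT1) (by positivity)
  · -- odd size
    set V : Finset (Fin (2 * k + 1) → GG p) :=
      univ.filter fun u => NS p (((2 * k + 1 : ℕ) : ℝ) ^ (1 - d)) u ∧ I ≤ Zr p u with hVd
    set V' : Finset (Fin (2 * k) → GG p) :=
      univ.filter fun u => NS p ((k : ℝ) ^ (1 - d)) u ∧ I - t ≤ Zr p u with hV'd
    have hVV : ∀ u ∈ V, (fun i => u i.succ) ∈ V' := by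
      intro u hu
      rw [hVd, mem_filter] at hu
      rw [hV'd, mem_filter]
      refine ⟨mem_univ _, fun j => ?_, ?_⟩
      · have h1 := hu.2.1 j
        have h2 : (univ.filter fun c => u c j ≠ 0).card ≤
            (univ.filter fun c : Fin (2 * k) => u c.succ j ≠ 0).card + 1 := by
          rw [card_filter, card_filter, Fin.sum_univ_succ]
          split_ifs <;> omega
        have h3 : ((univ.filter fun c => u c j ≠ 0).card : ℝ) ≤
            ((univ.filter fun c : Fin (2 * k) => u c.succ j ≠ 0).card : ℝ) + 1 := by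
          exact_mod_cast h2
        linarith
      · have h1 := hu.2.2
        have h2 : Zr p u ≤ Zr p (fun i : Fin (2 * k) => u i.succ) + t := by
          unfold Zr
          rw [card_filter, card_filter, Fintype.sum_prod_type, Fintype.sum_prod_type,
            Fin.sum_univ_succ, add_comm]
          refine Nat.add_le_add_left ?_ _
          calc (∑ j : Fin t, if u 0 j = 0 then 1 else 0) ≤ ∑ _j : Fin t, 1 :=
                sum_le_sum fun j _ => by split_ifs <;> omega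
            _ = t := by rw [sum_const, card_univ, Fintype.card_fin]; simp
        omega
    have h1 := sum_succ_le (A := GG p) V V' hVV (TT c k) (fun y => by
      refine hT V' (fun v hv => ?_) y
      rw [hV'd, mem_filter] at hv
      exact hv.2)
    have h2 : (univ.filter fun b : Sym2 (Fin (2 * k + 1)) → Bool => ∃ u : Fin (2 * k + 1) → GG p,
        NS p (((2 * k + 1 : ℕ) : ℝ) ^ (1 - d)) u ∧ I ≤ Zr p u ∧ smul2 b u = 0).card ≤
        (univ.filter fun b : Sym2 (Fin (2 * k + 1)) → Bool => ∃ u ∈ V, smul2 b u = 0).card := by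
      refine card_le_card fun b hb => ?_
      rw [mem_filter] at hb ⊢
      obtain ⟨u, hu1, hu2, hu3⟩ := hb.2
      exact ⟨mem_univ _, u, mem_filter.2 ⟨mem_univ _, hu1, hu2⟩, hu3⟩
    have hcard : (Fintype.card (GG p) : ℝ) ≤ (2 : ℝ) ^ ((2 * k + 1 : ℕ) : ℝ) := by
      have h3 : Fintype.card (GG p) = ∏ j, p j := by
        rw [Fintype.card_pi]
        exact prod_congr rfl fun j _ => ZMod.card (p j)
      rw [h3]
      exact hprod.trans (Real.rpow_le_rpow_of_exponent_le (by norm_num) q3)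
    calc ((univ.filter fun b : Sym2 (Fin (2 * k + 1)) → Bool => ∃ u : Fin (2 * k + 1) → GG p,
        NS p (((2 * k + 1 : ℕ) : ℝ) ^ (1 - d)) u ∧ I ≤ Zr p u ∧ smul2 b u = 0).card : ℝ)
        ≤ ((univ.filter fun b : Sym2 (Fin (2 * k + 1)) → Bool => ∃ u ∈ V, smul2 b u = 0).card : ℝ) := by
          exact_mod_cast h2
      _ ≤ Fintype.card (GG p) * TT c k * 2 ^ Fintype.card (Sym2 (Fin (2 * k + 1))) := h1
      _ ≤ (2 : ℝ) ^ (-(2 * (2 * k + 1 : ℕ) : ℝ)) * 2 ^ Fintype.card (Sym2 (Fin (2 * k + 1))) := by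
          refine mul_le_mul_of_nonneg_right ?_ (by positivity)
          exact (mul_le_mul_of_nonneg_right hcard (TT_nonneg c k)).trans hTT

end Vale.Agent.P160.Half.Mid184
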