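import Vale.Agent.P160.Half.Mid.MidStmt
import Vale.Agent.P160.Half.Mid.Pig767

/-! # P160, rate 1/2, MID: `StmtPig` from the pigeonhole -/

namespace Vale.Agent.P160.Half.Mid.PigS914

open Finset Vale.Agent.P160.Half.Mid

set_option linter.unusedVariables false

theorem stmtPig : StmtPig := by
  classical
  intro ε θ η hε hθ hη hη1
  obtain ⟨m, n₁, hbe, hp⟩ := Pig767.pigeon ε θ η hε hθ hη hη1.le
  set δ : ℝ := η / 6 with hδ
  have hδ0 : 0 < δ := by positivity
  have hδ6 : δ < 1 / 6 := by rw [hδ]; linarith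
  refine ⟨δ / 2, by positivity, by linarith, ?_⟩
  -- logarithm
  have hlog : ∀ᶠ n : ℕ in Filter.atTop, 4 * Real.logb 2 n ≤ (n : ℝ) ^ δ := by
    have h1 : (fun x : ℝ => Real.log x) =o[Filter.atTop] fun x : ℝ => x ^ δ :=
      isLittleO_log_rpow_atTop hδ0
    have h2 := (h1.comp_tendsto tendsto_natCast_atTop_atTop).def
      (show (0 : ℝ) < Real.log 2 / 4 by have := Real.log_pos one_lt_two; positivity)
    filter_upwards [h2, Filter.eventually_ge_atTop 1] with n hn hn1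
    have hnr : (1 : ℝ) ≤ n := by exact_mod_cast hn1
    simp only [Function.comp] at hn
    rw [Real.norm_of_nonneg (Real.log_nonneg hnr), Real.norm_of_nonneg (by positivity)] at hn
    have hl2 : 0 < Real.log 2 := Real.log_pos one_lt_two
    rw [Real.logb, mul_div_assoc', div_le_iff₀ hl2]
    linarith
  obtain ⟨n₂, hn₂⟩ := Filter.eventually_atTop.1 hlog
  refine ⟨max (max n₁ n₂) 4, fun n hn => ?_⟩
  have hnn₁ : n₁ ≤ n := ((le_max_left _ _).trans (le_max_left _ _)).trans hn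
  have hnn₂ : n₂ ≤ n := ((le_max_right _ _).trans (le_max_left _ _)).trans hn
  have hn4 : 4 ≤ n := (le_max_right _ _).trans hn
  have hn4r : (4 : ℝ) ≤ n := by exact_mod_cast hn4
  have hn1 : (1 : ℝ) ≤ n := by linarith
  have hn0 : (0 : ℝ) < n := by linarith
  obtain ⟨BB, hBB, hx, hZ⟩ := hp n hnn₁
  -- size of a block
  have hsz : ∀ x ∈ BB, (x.2.card : ℝ) ≤ 2 * (n : ℝ) ^ (Pig767.be δ x.1 - 1 + 3 * δ) := by
    intro x hxB
    have h1 := (hx x hxB).2.2
    have h2 : (1 : ℝ) ≤ (n : ℝ) ^ (Pig767.be δ x.1 - 1 + 3 * δ) := by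
      refine Real.one_le_rpow hn1 ?_
      have := (hbe x.1 (hx x hxB).1).1
      linarith
    linarith
  refine ⟨BB.image Prod.snd, ?_, ?_, ?_⟩
  · have h1 : (BB.image Prod.snd).card ≤ n ^ 2 := card_image_le.trans hBB
    have h2 : n ^ 2 ≤ n ^ 4 := Nat.pow_le_pow_right (by omega) (by norm_num)
    exact_mod_cast h1.trans h2
  · intro P hP
    obtain ⟨x, hxB, rfl⟩ := mem_image.1 hP
    obtain ⟨him, hpr, hcard⟩ := hx x hxB
    obtain ⟨hb1, hb2⟩ := hbe x.1 him
    have hq2 : ∀ q ∈ x.2, (q : ℝ) ≤ (n : ℝ) ^ (2 : ℝ) := by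
      intro q hq
      refine (hpr q hq).2.2.le.trans (Real.rpow_le_rpow_of_exponent_le hn1 ?_)
      linarith
    refine ⟨fun q hq => ⟨(hpr q hq).1, ?_, ?_⟩, ?_⟩
    · have h1 : (n : ℝ) ≤ q := by
        calc (n : ℝ) = (n : ℝ) ^ (1 : ℝ) := (Real.rpow_one _).symm
          _ ≤ (n : ℝ) ^ (Pig767.be δ x.1) := Real.rpow_le_rpow_of_exponent_le hn1 hb1
          _ ≤ q := (hpr q hq).2.1
      exact_mod_cast h1
    · have h1 := hq2 q hq
      have h2 : (n : ℝ) ^ (2 : ℝ) = ((n ^ 2 : ℕ) : ℝ) := by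
        push_cast
        exact_mod_cast Real.rpow_natCast (n : ℝ) 2
      rw [h2] at h1
      exact_mod_cast h1
    · push_cast
      calc ∏ q ∈ x.2, (q : ℝ) ≤ ∏ _q ∈ x.2, (n : ℝ) ^ (2 : ℝ) :=
            prod_le_prod (fun q _ => Nat.cast_nonneg q) hq2
        _ = ((n : ℝ) ^ (2 : ℝ)) ^ x.2.card := by rw [prod_const]
        _ = (2 : ℝ) ^ (2 * Real.logb 2 n * x.2.card) := by
            rw [Real.rpow_mul two_pos.le, Real.rpow_natCast, mul_comm (2 : ℝ) (Real.logb 2 n),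
              Real.rpow_mul two_pos.le, Real.rpow_logb two_pos (by norm_num) hn0]
        _ ≤ (2 : ℝ) ^ ((n : ℝ) ^ (1 - 2 * (δ / 2))) := by
            refine Real.rpow_le_rpow_of_exponent_le one_le_two ?_
            have hL : 0 ≤ Real.logb 2 n := Real.logb_nonneg one_lt_two hn1
            have h1 := hsz x hxB
            have h2 : (n : ℝ) ^ (Pig767.be δ x.1 - 1 + 3 * δ) ≤ (n : ℝ) ^ (1 - 2 * δ) :=
              Real.rpow_le_rpow_of_exponent_le hn1 (by linarith)
            have h3 : 4 * Real.logb 2 n ≤ (n : ℝ) ^ δ := hn₂ n hnn₂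
            calc 2 * Real.logb 2 n * x.2.card
                ≤ 2 * Real.logb 2 n * (2 * (n : ℝ) ^ (1 - 2 * δ)) := by
                  refine mul_le_mul_of_nonneg_left ?_ (by positivity)
                  linarith
              _ = 4 * Real.logb 2 n * (n : ℝ) ^ (1 - 2 * δ) := by ring
              _ ≤ (n : ℝ) ^ δ * (n : ℝ) ^ (1 - 2 * δ) :=
                  mul_le_mul_of_nonneg_right h3 (by positivity)
              _ = (n : ℝ) ^ (1 - 2 * (δ / 2)) := by
                  rw [← Real.rpow_add hn0]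
                  congr 1
                  ring
  · intro Z hZh
    obtain ⟨x, hxB, hxs⟩ := hZ Z (by convert hZh)
    obtain ⟨him, hpr, hcard⟩ := hx x hxB
    obtain ⟨hb1, hb2⟩ := hbe x.1 him
    refine ⟨x.2, mem_image_of_mem _ hxB, ?_, ?_⟩
    · have h1 : (1 : ℝ) + 2 * (δ / 2) = 1 + δ := by ring
      rw [h1]
      exact_mod_cast hxs
    · intro q hq
      have h1 := hsz x hxB
      have h2 := (hpr q hq).2.1
      have h3 : (n : ℝ) ^ (1 + δ) ≤ ∑ r ∈ x.2, ((Z r).card : ℝ) := by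
        exact_mod_cast hxs
      have h4 : (2 : ℝ) ≤ (n : ℝ) ^ (1 - 3 * δ) := by
        calc (2 : ℝ) = 4 ^ ((1 : ℝ) / 2) := by
              rw [show (4 : ℝ) = 2 ^ (2 : ℝ) by norm_num, ← Real.rpow_mul two_pos.le]
              norm_num
          _ ≤ (n : ℝ) ^ ((1 : ℝ) / 2) := Real.rpow_le_rpow (by norm_num) hn4r (by norm_num)
          _ ≤ (n : ℝ) ^ (1 - 3 * δ) := Real.rpow_le_rpow_of_exponent_le hn1 (by linarith)
      calc (n : ℝ) ^ (2 * (δ / 2)) * (n * x.2.card)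
          ≤ (n : ℝ) ^ (2 * (δ / 2)) * (n * (2 * (n : ℝ) ^ (Pig767.be δ x.1 - 1 + 3 * δ))) := by
            gcongr
        _ = 2 * ((n : ℝ) ^ (2 * (δ / 2)) * ((n : ℝ) ^ (1 : ℝ) * (n : ℝ) ^ (Pig767.be δ x.1 - 1 + 3 * δ))) := by
            rw [Real.rpow_one]
            ring
        _ = 2 * (n : ℝ) ^ (Pig767.be δ x.1 + 4 * δ) := by
            rw [← Real.rpow_add hn0, ← Real.rpow_add hn0]
            congr 2
            ring
        _ ≤ (n : ℝ) ^ (1 - 3 * δ) * (n : ℝ) ^ (Pig767.be δ x.1 + 4 * δ) :=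
            mul_le_mul_of_nonneg_right h4 (by positivity)
        _ = (n : ℝ) ^ (1 + δ) * (n : ℝ) ^ (Pig767.be δ x.1) := by
            rw [← Real.rpow_add hn0, ← Real.rpow_add hn0]
            congr 1
            ring
        _ ≤ (∑ r ∈ x.2, ((Z r).card : ℝ)) * q :=
            mul_le_mul h3 h2 (by positivity) (sum_nonneg fun _ _ => Nat.cast_nonneg _)

end Vale.Agent.P160.Half.Mid.PigS914
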