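import Vale.Agent.P160.Half.FlatI
import Vale.Agent.P160.Half.HalfBal505
import Vale.Agent.P160.Half.Corank

/-! # P160, rate 1/2, MID primes (note 11260): interface.

Model law on entries: `Fin 4` with `st` (law `1/4, 1/2, 1/4`).  Group `GG p = Π j, ZMod (p j)`. -/

set_option linter.unusedVariables false

namespace Vale.Agent.P160.Half.Mid

open Finset Matrix Vale.Agent.P160 Vale.Agent.P160.Half

/-- the group -/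
abbrev GG {t : ℕ} (p : Fin t → ℕ) : Type := ∀ j, ZMod (p j)

/-- every component of `w` is nonzero on at least `e` coordinates -/
def NS {α : Type} [Fintype α] {t : ℕ} (p : Fin t → ℕ) (e : ℝ) (w : α → GG p) : Prop :=
  ∀ j, e ≤ ((univ.filter fun c => w c j ≠ 0).card : ℝ)

/-- number of pairs (coordinate, prime) with a zero -/
def Zr {α : Type} [Fintype α] {t : ℕ} (p : Fin t → ℕ) (w : α → GG p) : ℕ :=
  (univ.filter fun z : α × Fin t => w z.1 z.2 = 0).card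

/-- admissible moduli at size `k`: distinct primes in `[k, k^3]`, product `≤ 2^(k^(1-g))` -/
structure Adm (g : ℝ) (k t : ℕ) (p : Fin t → ℕ) : Prop where
  prime : ∀ j, (p j).Prime
  inj : Function.Injective p
  lo : ∀ j, k ≤ p j
  hi : ∀ j, p j ≤ k ^ 3
  prod : ((∏ j, p j : ℕ) : ℝ) ≤ (2 : ℝ) ^ ((k : ℝ) ^ (1 - g))

open Classical in
/-- L4 (NF): few matrices have a nonsparse nonflat kernel vector. -/
def StmtNF : Prop := ∀ g c : ℝ, 0 < g → 0 < c → c < 1 / 2 → ∃ d : ℝ, 0 < d ∧ ∃ k₀ : ℕ, ∀ k ≥ k₀,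
  ∀ (t : ℕ) (p : Fin t → ℕ) (_ : ∀ j, NeZero (p j)), Adm g k t p →
  (((univ : Finset (Fin k → Fin k → Fin 4)).filter fun X => ∃ w : Fin k → GG p,
    NS p ((k : ℝ) ^ (1 - d)) w ∧ 2 < Flat.gZ 8 w ∧ ∀ i, gwalk (X i) w = 0).card : ℝ) ≤
    (k : ℝ) ^ (-(c * k)) * 4 ^ (k * k)

open Classical in
/-- L5 (MOMENT) -/
def StmtMom : Prop := ∀ g : ℝ, 0 < g → ∃ k₀ : ℕ, ∀ k ≥ k₀,
  ∀ (t : ℕ) (p : Fin t → ℕ) (_ : ∀ j, NeZero (p j)), Adm g k t p →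
  ∑ X : Fin k → Fin k → Fin 4,
    (((univ : Finset (Fin k → GG p)).filter fun w => ∀ i, gwalk (X i) w = 0).card : ℝ) ^ 8 ≤
    (2 : ℝ) ^ (4 * k) * 4 ^ (k * k)

open Classical in
/-- `P(X x = 0, Xᵀ z = 0)` for the law `Fin 4` -/
noncomputable def B4 {k t : ℕ} (p : Fin t → ℕ) [∀ j, NeZero (p j)] (x z : Fin k → GG p) : ℝ :=
  (((univ : Finset (Fin k → Fin k → Fin 4)).filter fun X =>
    (∀ i, gwalk (X i) x = 0) ∧ ∀ j, gwalk (fun i => X i j) z = 0).card : ℝ) / 4 ^ (k * k)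

open Classical in
/-- sum of `P(X x = 0, Xᵀ z = 0)` over nonsparse pairs with at least `I` zeros -/
noncomputable def S4 (k t : ℕ) (p : Fin t → ℕ) [∀ j, NeZero (p j)] (e : ℝ) (I : ℕ) : ℝ :=
  ∑ z : (Fin k → GG p) × (Fin k → GG p),
    if NS p e z.1 ∧ NS p e z.2 ∧ I ≤ Zr p z.1 + Zr p z.2 then B4 p z.1 z.2 else 0

/-- L7: the block estimate (from L3, L4, L5 by Cauchy-Schwarz). -/
def StmtBlock : Prop := ∀ g : ℝ, 0 < g → g < 1 / 4 → ∃ c d : ℝ, 0 < c ∧ 0 < d ∧ ∃ k₀ : ℕ, ∀ k ≥ k₀,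
  ∀ (t : ℕ) (p : Fin t → ℕ) (_ : ∀ j, NeZero (p j)), Adm g k t p → ∀ I : ℕ,
  (k : ℝ) ^ (1 + g) ≤ I → (∀ j, (k : ℝ) ^ g * (k * t) ≤ (I : ℝ) * p j) →
  S4 k t p ((k : ℝ) ^ (1 - d)) I ≤ (k : ℝ) ^ (-(c * k))

/-- L2: half size reduction restricted to good cuts, law `Fin 4`.
(Weighted form of `SprA_le_bal`, weights `e` on the good cuts and `e^(-L)` on the bad ones;
`(1 + 1/(2k))^(k^2) ≤ e^(k/2)` for the change of law.) -/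
def StmtHalf : Prop := ∀ g d d' : ℝ, 0 < g → 0 < d → d < d' → d' < 1 → ∃ k₀ : ℕ, ∀ k ≥ k₀,
  ∀ (t : ℕ) (p : Fin t → ℕ) (_ : ∀ j, NeZero (p j)), Adm g k t p →
  ∀ (V : Finset (Fin (2 * k) → GG p)) (y : (Fin (2 * k) → GG p) → (Fin (2 * k) → GG p)) (I : ℕ),
  (∀ v ∈ V, NS p ((k : ℝ) ^ (1 - d)) v ∧ I ≤ Zr p v) →
  ∑ v ∈ V, SprA v (y v) ≤ Real.exp (2 * k) * S4 k t p ((k : ℝ) ^ (1 - d')) I +
    (k : ℝ) ^ (-(k : ℝ))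

open Classical in
/-- L1: sparse kernel vectors modulo a prime `≤ n ^ C`. -/
def StmtSparse : Prop := ∀ C d ε : ℝ, 0 < d → 0 < ε → ∃ n₀ : ℕ, ∀ n ≥ n₀,
  (((univ : Finset (Sym2 (Fin n) → Bool)).filter fun b => ∃ p : ℕ, p.Prime ∧ (p : ℝ) ≤ (n : ℝ) ^ C ∧
    ∃ u : Fin n → ZMod p, u ≠ 0 ∧ ((univ.filter fun i => u i ≠ 0).card : ℝ) ≤ (n : ℝ) ^ (1 - d) ∧
      (matZ b).map (Int.cast : ℤ → ZMod p) *ᵥ u = 0).card : ℝ) ≤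
    (2 : ℝ) ^ (-((1 - ε) * n)) * 2 ^ Fintype.card (Sym2 (Fin n))

open Classical in
/-- L6: choice of a block of primes. `Z q` = set of the indices `j` with `q ∣ v j`. -/
def StmtPig : Prop := ∀ ε θ η : ℝ, 0 < ε → 0 < θ → 0 < η → η < 1 → ∃ g : ℝ, 0 < g ∧ g < 1 / 4 ∧
  ∃ n₀ : ℕ, ∀ n ≥ n₀, ∃ B : Finset (Finset ℕ), (B.card : ℝ) ≤ (n : ℝ) ^ 4 ∧
  (∀ P ∈ B, (∀ q ∈ P, q.Prime ∧ n ≤ q ∧ q ≤ n ^ 2) ∧
    ((∏ q ∈ P, q : ℕ) : ℝ) ≤ (2 : ℝ) ^ ((n : ℝ) ^ (1 - 2 * g))) ∧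
  ∀ Z : ℕ → Finset (Fin n),
    θ * n < ((univ.filter fun j : Fin n =>
      ε * n < (((range (n ^ 2 + 1)).filter fun q => q.Prime ∧ n ≤ q ∧ (q : ℝ) ≤ (n : ℝ) ^ (2 - η) ∧
        j ∈ Z q).card : ℝ)).card : ℝ) →
    ∃ P ∈ B, (n : ℝ) ^ (1 + 2 * g) ≤ ∑ q ∈ P, (Z q).card ∧
      ∀ q ∈ P, (n : ℝ) ^ (2 * g) * (n * P.card) ≤ (∑ r ∈ P, ((Z r).card : ℝ)) * q

open Classical in
/-- C7 = MID: for all but `θ n` indices `j` at most `ε n` primes of `[n, n^(2-η)]` divide `v j`. -/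
def StmtMid : Prop := ∀ ε θ η : ℝ, 0 < ε → 0 < θ → 0 < η → ∃ n₀ : ℕ, ∀ n ≥ n₀,
  (((univ : Finset (Sym2 (Fin n) → Bool)).filter fun b => ∃ v : Fin n → ℤ,
    (∀ p : ℕ, p.Prime → ∃ j, ¬ (p : ℤ) ∣ v j) ∧ matZ b *ᵥ v = 0 ∧
    θ * n < ((univ.filter fun j : Fin n =>
      ε * n < (((range (n ^ 2 + 1)).filter fun q => q.Prime ∧ n ≤ q ∧ (q : ℝ) ≤ (n : ℝ) ^ (2 - η) ∧
        (q : ℤ) ∣ v j).card : ℝ)).card : ℝ)).card : ℝ) ≤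
    (2 : ℝ) ^ (-((1 - ε) * n)) * 2 ^ Fintype.card (Sym2 (Fin n))

end Vale.Agent.P160.Half.Mid
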