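import Vale.Agent.P160.Half.Mid.HalfFair514
import Vale.Agent.P160.Half.Mid.MidStmt

set_option linter.unusedSectionVars false

/-! # P160 MID: `StmtHalf` (half size reduction, fair law, good cuts) -/

namespace Vale.Agent.P160.Half.Fair514

open Finset Vale.Agent.P160 Vale.Agent.P160.Half Vale.Agent.P160.Half.Mid

/-! ## Bad cuts -/

section cuts

variable {ι : Type*} [Fintype ι] [DecidableEq ι]

/-- `∑_D (1/2)^|S ∩ D| = 4^k (3/4)^|S|` over all subsets -/
theorem sum_all_half {k : ℕ} (hι : Fintype.card ι = 2 * k) (S : Finset ι) :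
    ∑ D : Finset ι, (1 / 2 : ℝ) ^ (S ∩ D).card = 4 ^ k * (3 / 4 : ℝ) ^ S.card := by
  have h1 : ∏ i : ι, ((if i ∈ S then (1 / 2 : ℝ) else 1) + 1) =
      ∑ D : Finset ι, (1 / 2 : ℝ) ^ (S ∩ D).card := by
    rw [Finset.prod_add]
    rw [Finset.powerset_univ]
    refine sum_congr rfl fun D _ => ?_
    rw [prod_const_one, mul_one, Finset.prod_ite, prod_const, prod_const_one, mul_one]
    congr 2
    ext i
    simp only [mem_filter, mem_inter]
    tauto
  rw [← h1]
  have h2 : ∀ i : ι, ((if i ∈ S then (1 / 2 : ℝ) else 1) + 1) =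
      2 * (if i ∈ S then (3 / 4 : ℝ) else 1) := by
    intro i
    split_ifs <;> norm_num
  rw [Finset.prod_congr rfl fun i _ => h2 i, Finset.prod_mul_distrib, prod_const, card_univ, hι,
    Finset.prod_ite, prod_const, prod_const_one, mul_one, pow_mul]
  congr 2
  · norm_num
  · congr 1
    ext i
    simp

theorem card_bad_cut {k r : ℕ} (hι : Fintype.card ι = 2 * k) (S : Finset ι)
    (hS : 4 * r ≤ S.card) :
    ((univ.filter fun D : Finset ι => (S ∩ D).card < r).card : ℝ) ≤ 4 ^ k * (81 / 128 : ℝ) ^ r := by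
  have h1 : ((univ.filter fun D : Finset ι => (S ∩ D).card < r).card : ℝ) * (1 / 2) ^ r ≤
      ∑ D : Finset ι, (1 / 2 : ℝ) ^ (S ∩ D).card := by
    rw [← nsmul_eq_mul]
    refine le_trans (Finset.card_nsmul_le_sum _ (fun D => (1 / 2 : ℝ) ^ (S ∩ D).card) _ ?_)
      (Finset.sum_le_sum_of_subset_of_nonneg (Finset.filter_subset _ _) fun _ _ _ => by positivity)
    intro D hD
    have := (mem_filter.1 hD).2
    exact pow_le_pow_of_le_one (by norm_num) (by norm_num) this.le
  rw [sum_all_half hι] at h1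
  have h2 : (3 / 4 : ℝ) ^ S.card ≤ (3 / 4) ^ (4 * r) :=
    pow_le_pow_of_le_one (by norm_num) (by norm_num) hS
  have h3 : (81 / 128 : ℝ) ^ r * (1 / 2) ^ r = (3 / 4) ^ (4 * r) := by
    rw [← mul_pow, pow_mul]; norm_num
  have h4 : (0 : ℝ) < (1 / 2) ^ r := by positivity
  refine le_of_mul_le_mul_right ?_ h4
  calc ((univ.filter fun D : Finset ι => (S ∩ D).card < r).card : ℝ) * (1 / 2) ^ r
      ≤ 4 ^ k * (3 / 4 : ℝ) ^ S.card := h1
    _ ≤ 4 ^ k * (3 / 4) ^ (4 * r) := mul_le_mul_of_nonneg_left h2 (by positivity)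
    _ = 4 ^ k * (81 / 128 : ℝ) ^ r * (1 / 2) ^ r := by rw [mul_assoc, h3]

/-- both sides of the cut meet every `S j` in at least `r` points -/
def Good {τ : Type*} (S : τ → Finset ι) (r : ℕ) (D : Finset ι) : Prop :=
  ∀ j, r ≤ (S j ∩ D).card ∧ r ≤ (S j \ D).card

open Classical in
theorem card_not_good {τ : Type*} [Fintype τ] {k r : ℕ} (hk : 0 < k) (hι : Fintype.card ι = 2 * k)
    (S : τ → Finset ι) (hS : ∀ j, 4 * r ≤ (S j).card) :
    ((univ.filter fun D : Cut ι k => ¬ Good S r D.1).card : ℝ) ≤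
      4 * k * Fintype.card τ * (81 / 128 : ℝ) ^ r * Nat.centralBinom k := by
  have h4k : (4 : ℝ) ^ k ≤ 2 * k * Nat.centralBinom k := by
    exact_mod_cast Nat.four_pow_le_two_mul_self_mul_centralBinom k hk
  have h1 : (univ.filter fun D : Cut ι k => ¬ Good S r D.1).card ≤
      ((univ : Finset τ).biUnion fun j => (univ.filter fun D : Finset ι => (S j ∩ D).card < r) ∪
        (univ.filter fun D : Finset ι => (S j \ D).card < r)).card := by
    refine Finset.card_le_card_of_injOn (fun D => D.1) ?_ (fun D _ D' _ h => Subtype.ext h)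
    intro D hD
    rw [Finset.mem_coe, mem_filter] at hD
    have hD2 := hD.2
    unfold Good at hD2
    push Not at hD2
    obtain ⟨j, hj⟩ := hD2
    rw [Finset.mem_coe, mem_biUnion]
    refine ⟨j, mem_univ _, ?_⟩
    rw [mem_union, mem_filter, mem_filter]
    by_cases h : r ≤ (S j ∩ D.1).card
    · exact Or.inr ⟨mem_univ _, hj h⟩
    · exact Or.inl ⟨mem_univ _, not_le.1 h⟩
  have h2 : ∀ j, ((univ.filter fun D : Finset ι => (S j \ D).card < r).card : ℝ) ≤
      4 ^ k * (81 / 128 : ℝ) ^ r := by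
    intro j
    refine le_trans (le_of_eq ?_) (card_bad_cut hι (S j) (hS j))
    congr 1
    refine card_bij (fun D _ => Dᶜ) (fun D hD => ?_) (fun D _ D' _ h => compl_injective h)
      (fun D hD => ?_)
    · simp only [mem_filter, mem_univ, true_and] at hD ⊢
      rwa [← sdiff_eq_inter_compl]
    · simp only [mem_filter, mem_univ, true_and] at hD
      refine ⟨Dᶜ, ?_, compl_compl D⟩
      simp only [mem_filter, mem_univ, true_and]
      rwa [sdiff_compl, Finset.inf_eq_inter]
  have h3 : (((univ : Finset τ).biUnion fun j => (univ.filter fun D : Finset ι => (S j ∩ D).card < r) ∪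
        (univ.filter fun D : Finset ι => (S j \ D).card < r)).card : ℝ) ≤
      ∑ _j : τ, 2 * (4 ^ k * (81 / 128 : ℝ) ^ r) := by
    have hb := card_biUnion_le (s := (univ : Finset τ))
      (t := fun j => (univ.filter fun D : Finset ι => (S j ∩ D).card < r) ∪
        (univ.filter fun D : Finset ι => (S j \ D).card < r))
    refine le_trans (Nat.cast_le.2 hb) ?_
    push_cast
    refine sum_le_sum fun j _ => ?_
    calc (((univ.filter fun D : Finset ι => (S j ∩ D).card < r) ∪
        (univ.filter fun D : Finset ι => (S j \ D).card < r)).card : ℝ)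
        ≤ ((univ.filter fun D : Finset ι => (S j ∩ D).card < r).card : ℝ) +
          ((univ.filter fun D : Finset ι => (S j \ D).card < r).card : ℝ) := by
          exact_mod_cast card_union_le _ _
      _ ≤ 2 * (4 ^ k * (81 / 128 : ℝ) ^ r) := by
          have := card_bad_cut hι (S j) (hS j)
          linarith [h2 j]
  have h1' : ((univ.filter fun D : Cut ι k => ¬ Good S r D.1).card : ℝ) ≤
      ((((univ : Finset τ).biUnion fun j => (univ.filter fun D : Finset ι => (S j ∩ D).card < r) ∪
        (univ.filter fun D : Finset ι => (S j \ D).card < r)).card : ℕ) : ℝ) := by exact_mod_cast h1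
  refine (h1'.trans h3).trans ?_
  rw [sum_const, card_univ, nsmul_eq_mul]
  calc (Fintype.card τ : ℝ) * (2 * (4 ^ k * (81 / 128 : ℝ) ^ r))
      ≤ (Fintype.card τ : ℝ) * (2 * (2 * k * Nat.centralBinom k * (81 / 128 : ℝ) ^ r)) := by
        gcongr
    _ = _ := by ring

end cuts

/-! ## Reindexing -/

section reindex

variable {t : ℕ} (p : Fin t → ℕ) [∀ j, NeZero (p j)]

theorem stL_one (a : Fin 4) : stL 1 a = st a := by
  unfold stL st
  fin_cases a <;> rfl

open Classical in
theorem BprL_eq_B4 {α β : Type} [Fintype α] [Fintype β] [DecidableEq α] [DecidableEq β] {k : ℕ}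
    (e1 : Fin k ≃ α) (e2 : Fin k ≃ β) (x : α → GG p) (z : β → GG p) :
    BprL 1 4 x z = B4 p (fun c => x (e1 c)) (fun c => z (e2 c)) := by
  unfold BprL B4
  rw [← Fintype.card_congr e1, ← Fintype.card_congr e2, Fintype.card_fin]
  push_cast
  congr 2
  refine (Finset.card_bij (fun (X : Fin k → Fin k → Fin 4) _ (b : β) (a : α) =>
    X (e2.symm b) (e1.symm a)) ?_ ?_ ?_).symm
  · intro X hX
    simp only [mem_filter, mem_univ, true_and] at hX ⊢
    refine ⟨fun b => ?_, fun a => ?_⟩
    · have h := hX.1 (e2.symm b)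
      unfold gwalk at h
      unfold gwL
      rw [← h, ← Equiv.sum_comp e1]
      refine sum_congr rfl fun c _ => ?_
      show stL 1 (X (e2.symm b) (e1.symm (e1 c))) • x (e1 c) = st (X (e2.symm b) c) • x (e1 c)
      rw [Equiv.symm_apply_apply, stL_one]
    · have h := hX.2 (e1.symm a)
      unfold gwalk at h
      unfold gwL
      rw [← h, ← Equiv.sum_comp e2]
      refine sum_congr rfl fun c _ => ?_
      show stL 1 (X (e2.symm (e2 c)) (e1.symm a)) • z (e2 c) = st (X c (e1.symm a)) • z (e2 c)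
      rw [Equiv.symm_apply_apply, stL_one]
  · intro X _ X' _ h
    funext i j
    have := congrFun (congrFun h (e2 i)) (e1 j)
    simpa using this
  · intro ω hω
    simp only [mem_filter, mem_univ, true_and] at hω
    refine ⟨fun i j => ω (e2 i) (e1 j), ?_, ?_⟩
    · simp only [mem_filter, mem_univ, true_and]
      refine ⟨fun i => ?_, fun j => ?_⟩
      · have h := hω.1 (e2 i)
        unfold gwL at h
        unfold gwalk
        rw [← h, ← Equiv.sum_comp e1]
        refine sum_congr rfl fun c _ => ?_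
        rw [stL_one]
      · have h := hω.2 (e1 j)
        unfold gwL at h
        unfold gwalk
        rw [← h, ← Equiv.sum_comp e2]
        refine sum_congr rfl fun c _ => ?_
        rw [stL_one]
    · funext b a
      simp

open Classical in
/-- the sum over the good vectors of one cut is at most `S4` -/
theorem sum_cut_le {k : ℕ} (V : Finset (Fin (2 * k) → GG p)) (e : ℝ) (I r : ℕ) (her : e ≤ r)
    (hV : ∀ v ∈ V, I ≤ Zr p v) (D : Cut (Fin (2 * k)) k) :
    ∑ v ∈ V.filter (fun v => Good (fun j => univ.filter fun c => v c j ≠ 0) r D.1),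
      BprL 1 4 (fun j : {i // i ∈ D.1} => v j) (fun i : {i // i ∉ D.1} => v i) ≤ S4 k t p e I := by
  have hc1 : Fintype.card {i // i ∈ D.1} = k := by rw [Fintype.card_coe, D.2]
  have hc2 : Fintype.card {i // i ∉ D.1} = k := by
    rw [Fintype.card_subtype_compl, Fintype.card_fin, hc1]; omega
  obtain ⟨e1⟩ : Nonempty (Fin k ≃ {i // i ∈ D.1}) := Fintype.card_eq.1 (by rw [hc1, Fintype.card_fin])
  obtain ⟨e2⟩ : Nonempty (Fin k ≃ {i // i ∉ D.1}) := Fintype.card_eq.1 (by rw [hc2, Fintype.card_fin])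
  let F : (Fin (2 * k) → GG p) → (Fin k → GG p) × (Fin k → GG p) := fun v =>
    (fun c => v (e1 c).1, fun c => v (e2 c).1)
  have hF : Function.Injective F := by
    intro v v' h
    have h1 := (Prod.mk.inj h).1
    have h2 := (Prod.mk.inj h).2
    funext i
    by_cases hi : i ∈ D.1
    · have := congrFun h1 (e1.symm ⟨i, hi⟩)
      simpa using this
    · have := congrFun h2 (e2.symm ⟨i, hi⟩)
      simpa using this
  have hB0 : ∀ q : (Fin k → GG p) × (Fin k → GG p), 0 ≤ B4 p q.1 q.2 := fun q => by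
    unfold B4; positivity
  have h1 : ∀ v ∈ V.filter (fun v => Good (fun j => univ.filter fun c => v c j ≠ 0) r D.1),
      BprL 1 4 (fun j : {i // i ∈ D.1} => v j) (fun i : {i // i ∉ D.1} => v i) =
      if NS p e (F v).1 ∧ NS p e (F v).2 ∧ I ≤ Zr p (F v).1 + Zr p (F v).2 then
        B4 p (F v).1 (F v).2 else 0 := by
    intro v hv
    rw [mem_filter] at hv
    rw [if_pos, BprL_eq_B4 p e1 e2]
    refine ⟨fun j => ?_, fun j => ?_, ?_⟩
    · refine her.trans ?_
      have h2 := (hv.2 j).1
      refine le_trans (Nat.cast_le.2 h2) (Nat.cast_le.2 (le_of_eq ?_))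
      symm
      refine card_bij (fun c _ => (e1 c).1) ?_ ?_ ?_
      · intro c hc
        simp only [mem_filter, mem_univ, true_and, mem_inter] at hc ⊢
        exact ⟨hc, (e1 c).2⟩
      · intro c _ c' _ h
        exact e1.injective (Subtype.ext h)
      · intro i hi
        simp only [mem_filter, mem_univ, true_and, mem_inter] at hi
        refine ⟨e1.symm ⟨i, hi.2⟩, ?_, ?_⟩
        · simp only [mem_filter, mem_univ, true_and]
          simpa [F] using hi.1
        · simp
    · refine her.trans ?_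
      have h2 := (hv.2 j).2
      refine le_trans (Nat.cast_le.2 h2) (Nat.cast_le.2 (le_of_eq ?_))
      symm
      refine card_bij (fun c _ => (e2 c).1) ?_ ?_ ?_
      · intro c hc
        simp only [mem_filter, mem_univ, true_and, mem_sdiff] at hc ⊢
        exact ⟨hc, (e2 c).2⟩
      · intro c _ c' _ h
        exact e2.injective (Subtype.ext h)
      · intro i hi
        simp only [mem_filter, mem_univ, true_and, mem_sdiff] at hi
        refine ⟨e2.symm ⟨i, hi.2⟩, ?_, ?_⟩
        · simp only [mem_filter, mem_univ, true_and]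
          simpa [F] using hi.1
        · simp
    · refine (hV v hv.1).trans ?_
      unfold Zr
      have hsplit : (univ.filter fun z : Fin (2 * k) × Fin t => v z.1 z.2 = 0) ⊆
          (univ.filter fun z : Fin k × Fin t => (F v).1 z.1 z.2 = 0).image
            (fun z => ((e1 z.1).1, z.2)) ∪
          (univ.filter fun z : Fin k × Fin t => (F v).2 z.1 z.2 = 0).image
            (fun z => ((e2 z.1).1, z.2)) := by
        rintro ⟨i, j⟩ hz
        simp only [mem_filter, mem_univ, true_and] at hz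
        rw [mem_union, mem_image, mem_image]
        by_cases hi : i ∈ D.1
        · left
          refine ⟨(e1.symm ⟨i, hi⟩, j), ?_, ?_⟩
          · simp only [mem_filter, mem_univ, true_and]
            simpa [F] using hz
          · simp
        · right
          refine ⟨(e2.symm ⟨i, hi⟩, j), ?_, ?_⟩
          · simp only [mem_filter, mem_univ, true_and]
            simpa [F] using hz
          · simp
      exact (card_le_card hsplit).trans ((card_union_le _ _).trans
        (Nat.add_le_add card_image_le card_image_le))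
  rw [sum_congr rfl h1]
  unfold S4
  rw [← Finset.sum_image (f := fun z : (Fin k → GG p) × (Fin k → GG p) =>
    if NS p e z.1 ∧ NS p e z.2 ∧ I ≤ Zr p z.1 + Zr p z.2 then B4 p z.1 z.2 else 0)
    (fun v _ v' _ h => hF h)]
  refine sum_le_sum_of_subset_of_nonneg (subset_univ _) fun q _ _ => ?_
  split_ifs
  · exact hB0 q
  · exact le_rfl

end reindex

/-! ## The statement -/

theorem eventually_num (d d' : ℝ) (hd : d < d') (hd' : d' < 1) : ∀ᶠ x : ℝ in Filter.atTop,
    8 ≤ x ^ (d' - d) ∧ Real.log 32 + 4 * Real.log x ≤ Real.log (128 / 81) * x ^ (1 - d') := by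
  have hc : 0 < Real.log (128 / 81) := Real.log_pos (by norm_num)
  have ha : 0 < 1 - d' := by linarith
  have h1 : ∀ᶠ x : ℝ in Filter.atTop, 8 ≤ x ^ (d' - d) :=
    (tendsto_rpow_atTop (by linarith : 0 < d' - d)).eventually_ge_atTop 8
  have h2 : ∀ᶠ x : ℝ in Filter.atTop, 2 * Real.log 32 / Real.log (128 / 81) ≤ x ^ (1 - d') :=
    (tendsto_rpow_atTop ha).eventually_ge_atTop _
  have h3 := (isLittleO_log_rpow_atTop ha).def (by positivity : 0 < Real.log (128 / 81) / 8)
  filter_upwards [h1, h2, h3, Filter.eventually_ge_atTop 1] with x e1 e2 e3 e4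
  refine ⟨e1, ?_⟩
  have hx0 : 0 ≤ x ^ (1 - d') := by positivity
  rw [Real.norm_eq_abs, Real.norm_eq_abs, abs_of_nonneg hx0,
    abs_of_nonneg (Real.log_nonneg e4)] at e3
  rw [div_le_iff₀ hc] at e2
  nlinarith

theorem stmtHalf : StmtHalf := by
  classical
  intro g d d' hg hd hdd hd'
  obtain ⟨x0, hx0⟩ := Filter.eventually_atTop.1 (eventually_num d d' hdd hd')
  refine ⟨max 6 ⌈x0⌉₊, ?_⟩
  intro k hk t p hne adm V y I hV
  have hk6 : 6 ≤ k := le_trans (le_max_left _ _) hk
  have hkx : x0 ≤ (k : ℝ) := (Nat.le_ceil x0).trans (by exact_mod_cast le_trans (le_max_right _ _) hk)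
  obtain ⟨n1, n2⟩ := hx0 (k : ℝ) hkx
  have hk0 : 0 < k := by omega
  have hkr : (6 : ℝ) ≤ k := by exact_mod_cast hk6
  have hkpos : (0 : ℝ) < k := by linarith
  -- the group
  have hcardA : (Fintype.card (GG p) : ℝ) ≤ (2 : ℝ) ^ (k : ℝ) := by
    have h1 : Fintype.card (GG p) = ∏ j, p j := by
      rw [Fintype.card_pi]
      exact Finset.prod_congr rfl fun j _ => ZMod.card (p j)
    rw [h1]
    refine adm.prod.trans ?_
    apply Real.rpow_le_rpow_of_exponent_le (by norm_num)
    calc (k : ℝ) ^ (1 - g) ≤ (k : ℝ) ^ (1 : ℝ) :=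
          Real.rpow_le_rpow_of_exponent_le (by linarith) (by linarith)
      _ = k := Real.rpow_one _
  have hcardE : (Fintype.card (GG p) : ℝ) ≤ Real.exp k := by
    refine hcardA.trans ?_
    rw [Real.rpow_natCast, ← Real.exp_one_rpow, Real.rpow_natCast]
    apply pow_le_pow_left₀ (by norm_num)
    have := Real.add_one_le_exp (1 : ℝ)
    linarith
  have ht : t ≤ k := by
    have h1 : (2 : ℝ) ^ t ≤ (2 : ℝ) ^ (k : ℝ) := by
      refine le_trans ?_ hcardA
      have h2 : Fintype.card (GG p) = ∏ j, p j := by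
        rw [Fintype.card_pi]
        exact Finset.prod_congr rfl fun j _ => ZMod.card (p j)
      rw [h2]
      push_cast
      calc (2 : ℝ) ^ t = ∏ _j : Fin t, (2 : ℝ) := by rw [prod_const, card_univ, Fintype.card_fin]
        _ ≤ ∏ j : Fin t, (p j : ℝ) := by
            apply Finset.prod_le_prod (fun _ _ => by norm_num)
            intro j _
            have : 2 ≤ p j := le_trans (by omega) (adm.lo j)
            exact_mod_cast this
    rw [Real.rpow_natCast] at h1
    exact (Nat.pow_le_pow_iff_right (by norm_num : 1 < 2)).1 (by exact_mod_cast h1)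
  have htr : (t : ℝ) ≤ k := by exact_mod_cast ht
  -- the threshold
  set a : ℝ := (k : ℝ) ^ (1 - d') with ha
  have ha1 : 1 ≤ a := Real.one_le_rpow (by linarith) (by linarith)
  set r : ℕ := ⌈a⌉₊ with hr
  have hra : a ≤ r := Nat.le_ceil a
  have hra2 : (r : ℝ) < a + 1 := Nat.ceil_lt_add_one (by linarith)
  have h4r : (4 * r : ℝ) ≤ (k : ℝ) ^ (1 - d) := by
    have h1 : (k : ℝ) ^ (1 - d) = a * (k : ℝ) ^ (d' - d) := by
      rw [ha, ← Real.rpow_add hkpos]; congr 1; ring
    rw [h1]
    nlinarith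
  -- goodness
  have hS : ∀ v ∈ V, ∀ j : Fin t, 4 * r ≤ (univ.filter fun c => v c j ≠ 0).card := by
    intro v hv j
    have h1 := (hV v hv).1 j
    have h2 : ((4 * r : ℕ) : ℝ) ≤ ((univ.filter fun c => v c j ≠ 0).card : ℝ) := by
      push_cast
      exact h4r.trans h1
    exact_mod_cast h2
  have hCpos : (0 : ℝ) < Nat.centralBinom k := by exact_mod_cast Nat.centralBinom_pos k
  have hρ : (4 * (k : ℝ) ^ 2 + 1) * (4 * k * t * (81 / 128 : ℝ) ^ r) ≤ 1 := by
    have h1 : (81 / 128 : ℝ) ^ r ≤ Real.exp (-(Real.log (128 / 81) * a)) := by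
      calc (81 / 128 : ℝ) ^ r = (81 / 128 : ℝ) ^ (r : ℝ) := (Real.rpow_natCast _ _).symm
        _ ≤ (81 / 128 : ℝ) ^ a := Real.rpow_le_rpow_of_exponent_ge (by norm_num) (by norm_num) hra
        _ = Real.exp (-(Real.log (128 / 81) * a)) := by
            rw [Real.rpow_def_of_pos (by norm_num)]
            congr 1
            rw [show (81 / 128 : ℝ) = (128 / 81)⁻¹ by norm_num, Real.log_inv]
            ring
    have h2 : (4 * (k : ℝ) ^ 2 + 1) * (4 * k * t) ≤ 32 * (k : ℝ) ^ 4 := by
      have h3 : (4 * (k : ℝ) * t) ≤ 4 * k * k := by gcongr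
      have h4 : 4 * (k : ℝ) ^ 2 + 1 ≤ 8 * (k : ℝ) ^ 2 := by nlinarith
      calc (4 * (k : ℝ) ^ 2 + 1) * (4 * k * t) ≤ (8 * (k : ℝ) ^ 2) * (4 * k * k) :=
            mul_le_mul h4 h3 (by positivity) (by positivity)
        _ = 32 * (k : ℝ) ^ 4 := by ring
    have h5 : 32 * (k : ℝ) ^ 4 ≤ Real.exp (Real.log (128 / 81) * a) := by
      calc 32 * (k : ℝ) ^ 4 = Real.exp (Real.log 32 + 4 * Real.log k) := by
            rw [Real.exp_add, Real.exp_log (by norm_num), mul_comm (4 : ℝ), Real.exp_mul,
              Real.exp_log hkpos]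
            norm_num
        _ ≤ _ := Real.exp_le_exp.2 n2
    calc (4 * (k : ℝ) ^ 2 + 1) * (4 * k * t * (81 / 128 : ℝ) ^ r)
        = ((4 * (k : ℝ) ^ 2 + 1) * (4 * k * t)) * (81 / 128 : ℝ) ^ r := by ring
      _ ≤ (Real.exp (Real.log (128 / 81) * a)) * Real.exp (-(Real.log (128 / 81) * a)) :=
          mul_le_mul (h2.trans h5) h1 (by positivity) (Real.exp_pos _).le
      _ = 1 := by rw [← Real.exp_add, add_neg_cancel, Real.exp_zero]
  have hL : ∀ v ∈ V, (4 * (k : ℝ) ^ 2) * ((univ.filter fun D : Cut (Fin (2 * k)) k =>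
      ¬ Good (fun j : Fin t => univ.filter fun c => v c j ≠ 0) r D.1).card : ℝ) ≤
      ((univ.filter fun D : Cut (Fin (2 * k)) k =>
        Good (fun j : Fin t => univ.filter fun c => v c j ≠ 0) r D.1).card : ℝ) := by
    intro v hv
    have h1 := card_not_good (τ := Fin t) hk0 (Fintype.card_fin (2 * k))
      (fun j : Fin t => univ.filter fun c => v c j ≠ 0) (hS v hv)
    rw [Fintype.card_fin] at h1
    have h2 := Finset.card_filter_add_card_filter_not (s := (univ : Finset (Cut (Fin (2 * k)) k)))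
      (fun D : Cut (Fin (2 * k)) k => Good (fun j : Fin t => univ.filter fun c => v c j ≠ 0) r D.1)
    rw [card_univ, card_cut k (Fintype.card_fin (2 * k))] at h2
    have h3 : ((univ.filter fun D : Cut (Fin (2 * k)) k =>
        Good (fun j : Fin t => univ.filter fun c => v c j ≠ 0) r D.1).card : ℝ) +
        ((univ.filter fun D : Cut (Fin (2 * k)) k =>
        ¬ Good (fun j : Fin t => univ.filter fun c => v c j ≠ 0) r D.1).card : ℝ) =
        Nat.centralBinom k := by exact_mod_cast h2
    have h4 : (4 * (k : ℝ) ^ 2 + 1) * ((univ.filter fun D : Cut (Fin (2 * k)) k =>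
        ¬ Good (fun j : Fin t => univ.filter fun c => v c j ≠ 0) r D.1).card : ℝ) ≤
        Nat.centralBinom k := by
      calc (4 * (k : ℝ) ^ 2 + 1) * ((univ.filter fun D : Cut (Fin (2 * k)) k =>
            ¬ Good (fun j : Fin t => univ.filter fun c => v c j ≠ 0) r D.1).card : ℝ)
          ≤ (4 * (k : ℝ) ^ 2 + 1) * (4 * k * t * (81 / 128 : ℝ) ^ r * Nat.centralBinom k) :=
            mul_le_mul_of_nonneg_left h1 (by positivity)
        _ = ((4 * (k : ℝ) ^ 2 + 1) * (4 * k * t * (81 / 128 : ℝ) ^ r)) * Nat.centralBinom k := by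
            ring
        _ ≤ 1 * Nat.centralBinom k := mul_le_mul_of_nonneg_right hρ hCpos.le
        _ = _ := one_mul _
    linarith
  have hmain := sum_SprA_le_good k hk0 (Fintype.card_fin (2 * k)) V y
    (fun v D => Good (fun j : Fin t => univ.filter fun c => v c j ≠ 0) r D.1)
    (L := 4 * (k : ℝ) ^ 2) (fun v hv => by convert hL v hv) (S4 k t p a I)
    (fun D => by
      convert sum_cut_le p V a I r hra (fun v hv => (hV v hv).2) D)
  refine hmain.trans ?_
  set Y : ℝ := S4 k t p a I with hY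
  have hY0 : 0 ≤ Y := by
    rw [hY]; unfold S4
    refine sum_nonneg fun z _ => ?_
    split_ifs
    · unfold B4; positivity
    · exact le_rfl
  have hA0 : (0 : ℝ) ≤ Fintype.card (GG p) := by positivity
  have hkk : (k : ℝ) ^ (-(k : ℝ)) = Real.exp (-(k * Real.log k)) := by
    rw [Real.rpow_def_of_pos hkpos]; congr 1; ring
  have hlog : Real.log k ≤ k / 2 := by
    have h1 := Real.log_le_sub_one_of_pos (by positivity : (0 : ℝ) < (k : ℝ) / 2)
    rw [Real.log_div hkpos.ne' (by norm_num)] at h1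
    have h2 : Real.log 2 < 1 := by
      have := Real.log_two_lt_d9
      linarith
    linarith
  have hhalf : Real.exp (-1) ≤ 1 / 2 := by
    rw [Real.exp_neg, inv_le_comm₀ (Real.exp_pos _) (by norm_num)]
    have := Real.add_one_le_exp (1 : ℝ)
    linarith
  -- second term
  have hsec : (Fintype.card (GG p) : ℝ) ^ (2 * k) * Real.exp (-(4 * (k : ℝ) ^ 2)) ≤
      (1 / 2) * (k : ℝ) ^ (-(k : ℝ)) := by
    calc (Fintype.card (GG p) : ℝ) ^ (2 * k) * Real.exp (-(4 * (k : ℝ) ^ 2))
        ≤ (Real.exp k) ^ (2 * k) * Real.exp (-(4 * (k : ℝ) ^ 2)) := by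
          apply mul_le_mul_of_nonneg_right _ (Real.exp_pos _).le
          exact pow_le_pow_left₀ hA0 hcardE _
      _ = Real.exp (-(2 * (k : ℝ) ^ 2)) := by
          rw [← Real.exp_nat_mul, ← Real.exp_add]
          congr 1
          push_cast
          ring
      _ ≤ Real.exp (-1) * Real.exp (-(k * Real.log k)) := by
          rw [← Real.exp_add]
          apply Real.exp_le_exp.2
          nlinarith
      _ ≤ (1 / 2) * (k : ℝ) ^ (-(k : ℝ)) := by
          rw [hkk]
          exact mul_le_mul_of_nonneg_right hhalf (Real.exp_pos _).le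
  have hτ0 : (0 : ℝ) < 1 - 1 / (2 * k) := tau_pos hk0
  have hk2 : 1 / (2 * (k : ℝ)) * (k : ℝ) ^ 2 = k / 2 := by field_simp
  -- first term
  have hfirst : Real.exp 1 * Fintype.card (GG p) * Y ^ (1 - 1 / (2 * k) : ℝ) ≤
      Real.exp (2 * k) * Y + (1 / 2) * (k : ℝ) ^ (-(k : ℝ)) := by
    rcases le_or_gt (Real.exp (-((k : ℝ) ^ 2))) Y with hcase | hcase
    · have hYpos : 0 < Y := lt_of_lt_of_le (Real.exp_pos _) hcase
      have h1 : Y ^ (1 - 1 / (2 * k) : ℝ) = Y * Y ^ (-(1 / (2 * k)) : ℝ) := by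
        rw [sub_eq_add_neg, Real.rpow_add hYpos, Real.rpow_one]
      have h2 : Y ^ (-(1 / (2 * k)) : ℝ) ≤ Real.exp (k / 2) := by
        calc Y ^ (-(1 / (2 * k)) : ℝ) ≤ (Real.exp (-((k : ℝ) ^ 2))) ^ (-(1 / (2 * k)) : ℝ) :=
              Real.rpow_le_rpow_of_nonpos (Real.exp_pos _) hcase (by
                rw [neg_nonpos]; positivity)
          _ = Real.exp (k / 2) := by
              rw [← Real.exp_mul]
              congr 1
              rw [← hk2]; ring
      have h3 : Real.exp 1 * Fintype.card (GG p) * Y ^ (1 - 1 / (2 * k) : ℝ) ≤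
          Real.exp (2 * k) * Y := by
        rw [h1]
        calc Real.exp 1 * Fintype.card (GG p) * (Y * Y ^ (-(1 / (2 * k)) : ℝ))
            ≤ Real.exp 1 * Real.exp k * (Y * Real.exp (k / 2)) := by gcongr
          _ = Real.exp (1 + k + k / 2) * Y := by
              rw [Real.exp_add, Real.exp_add]; ring
          _ ≤ Real.exp (2 * k) * Y := by
              apply mul_le_mul_of_nonneg_right _ hY0
              apply Real.exp_le_exp.2
              linarith
      have h4 : 0 ≤ (1 / 2 : ℝ) * (k : ℝ) ^ (-(k : ℝ)) := by positivity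
      linarith
    · have h1 : Y ^ (1 - 1 / (2 * k) : ℝ) ≤ Real.exp (-((k : ℝ) ^ 2) + k / 2) := by
        calc Y ^ (1 - 1 / (2 * k) : ℝ) ≤ (Real.exp (-((k : ℝ) ^ 2))) ^ (1 - 1 / (2 * k) : ℝ) :=
              Real.rpow_le_rpow hY0 hcase.le hτ0.le
          _ = _ := by
              rw [← Real.exp_mul]
              congr 1
              rw [← hk2]; ring
      have h2 : Real.exp 1 * Fintype.card (GG p) * Y ^ (1 - 1 / (2 * k) : ℝ) ≤
          (1 / 2) * (k : ℝ) ^ (-(k : ℝ)) := by
        calc Real.exp 1 * Fintype.card (GG p) * Y ^ (1 - 1 / (2 * k) : ℝ)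
            ≤ Real.exp 1 * Real.exp k * Real.exp (-((k : ℝ) ^ 2) + k / 2) := by gcongr
          _ = Real.exp (1 + k + (-((k : ℝ) ^ 2) + k / 2)) := by
              rw [Real.exp_add (1 + (k : ℝ)), Real.exp_add 1 (k : ℝ)]
          _ ≤ Real.exp (-1) * Real.exp (-(k * Real.log k)) := by
              rw [← Real.exp_add]
              apply Real.exp_le_exp.2
              nlinarith
          _ ≤ (1 / 2) * (k : ℝ) ^ (-(k : ℝ)) := by
              rw [hkk]
              exact mul_le_mul_of_nonneg_right hhalf (Real.exp_pos _).le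
      have h3 : 0 ≤ Real.exp (2 * k) * Y := by positivity
      linarith
  linarith

end Vale.Agent.P160.Half.Fair514
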