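import Vale.Agent.P160.Half.Mid.SparseMain967
import Vale.Agent.P160.Half.Mid.PigS914
import Vale.Agent.P160.Half.Mid.StmtHalf514
import Vale.Agent.P160.Half.Mid.NF802
import Vale.Agent.P160.Half.Mid.Mom188c
import Vale.Agent.P160.Half.Mid.Block886
import Vale.Agent.P160.Half.Mid.Main184
import Vale.Agent.P160.Half.Mid.Adapt438

/-! # P160, rate 1/2, MID primes: `StmtMid`, closed form -/

namespace Vale.Agent.P160.Half.Mid.MidFin914

open Vale.Agent.P160.Half.Mid

theorem stmtMid : StmtMid :=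
  Mid184.midMain Sparse967.stmtSparse PigS914.stmtPig Fair514.stmtHalf
    (Mid.block NF802.stmtNF Mom188.stmtMom)

theorem midStmt {β : ℝ} (hβ0 : 0 < β) (hβ : β < 2) : F.MidStmt β :=
  Adapt438.midStmt_of_mid stmtMid hβ0 hβ

end Vale.Agent.P160.Half.Mid.MidFin914
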