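import Vale.Agent.P160.Half.Prof629
import Vale.Agent.P160.Half.LOMin1
import Vale.Agent.P160.Half.HadN
import Vale.Agent.P160.Half.RankQ
import Vale.Agent.P160.Half.Mid.MidStmt

/-!
# P160, mid primes: moments of the number of kernel vectors

`k × k` matrix with iid fair entries (`1/4, 1/2, 1/4`), `P` a set of `t ≤ k ^ (1 - δ)` primes in
`[k, k ^ 3]`; `K` = number of kernel vectors modulo `∏ P`. Then `E K ^ 8 ≤ 2 ^ (4 k)`.
-/

set_option linter.unusedSectionVars false

namespace Vale.Agent.P160.Half.Mid.Mom188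

open Finset Matrix

/-! ## The moment lemma from a profile bound -/

section abs

variable {α π : Type*} [Fintype α] [Fintype π] [DecidableEq π]

open scoped Classical in
theorem sum_prod_le {k : ℕ} (E : π → (Fin k → α) → ℕ) (hE : ∀ p X, E p X ≤ k) (L : π → ℝ)
    (hL : ∀ p, 0 < L p) (W : π → ℕ → ℝ) (hW : ∀ p x, 0 ≤ W p x)
    (hprof : ∀ x : π → ℕ, ((univ.filter fun X : Fin k → α => ∀ p, x p ≤ E p X).card : ℝ) *
      ∏ p, L p ^ ((x p).choose 2) ≤ (Fintype.card α : ℝ) ^ k * ∏ p, (k.choose (x p) : ℝ)) :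
    ∑ X : Fin k → α, ∏ p, W p (E p X) ≤ (Fintype.card α : ℝ) ^ k *
      ∏ p, ∑ x ∈ range (k + 1), W p x * (k.choose x : ℝ) / L p ^ (x.choose 2) := by
  have hmaps : ∀ X ∈ (univ : Finset (Fin k → α)), (fun p => E p X) ∈
      Fintype.piFinset fun _ : π => range (k + 1) := by
    intro X _
    rw [Fintype.mem_piFinset]
    intro p
    rw [mem_range]
    exact Nat.lt_succ_of_le (hE p X)
  rw [← sum_fiberwise_of_maps_to hmaps, Finset.prod_univ_sum, Finset.mul_sum]
  refine sum_le_sum fun x _ => ?_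
  have h1 : ∑ X ∈ univ.filter (fun X : Fin k → α => (fun p => E p X) = x),
      ∏ p, W p (E p X) = ((univ.filter (fun X : Fin k → α => (fun p => E p X) = x)).card : ℝ) *
        ∏ p, W p (x p) := by
    rw [← nsmul_eq_mul, ← sum_const]
    refine sum_congr rfl fun X hX => ?_
    rw [← (mem_filter.1 hX).2]
  rw [h1]
  have h2 : ((univ.filter (fun X : Fin k → α => (fun p => E p X) = x)).card : ℝ) ≤
      ((univ.filter fun X : Fin k → α => ∀ p, x p ≤ E p X).card : ℝ) := by
    have : (univ.filter (fun X : Fin k → α => (fun p => E p X) = x)) ⊆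
        (univ.filter fun X : Fin k → α => ∀ p, x p ≤ E p X) := by
      intro X hX
      rw [mem_filter] at hX ⊢
      exact ⟨mem_univ _, fun p => le_of_eq (congrFun hX.2 p).symm⟩
    exact_mod_cast card_le_card this
  have hLp : 0 < ∏ p, L p ^ ((x p).choose 2) := prod_pos fun p _ => pow_pos (hL p) _
  have h3 : ((univ.filter fun X : Fin k → α => ∀ p, x p ≤ E p X).card : ℝ) ≤
      (Fintype.card α : ℝ) ^ k * (∏ p, (k.choose (x p) : ℝ)) / ∏ p, L p ^ ((x p).choose 2) := by
    rw [le_div_iff₀ hLp]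
    exact hprof x
  have hW0 : 0 ≤ ∏ p, W p (x p) := prod_nonneg fun p _ => hW p _
  calc ((univ.filter (fun X : Fin k → α => (fun p => E p X) = x)).card : ℝ) * ∏ p, W p (x p)
      ≤ ((Fintype.card α : ℝ) ^ k * (∏ p, (k.choose (x p) : ℝ)) /
          ∏ p, L p ^ ((x p).choose 2)) * ∏ p, W p (x p) :=
        mul_le_mul_of_nonneg_right (h2.trans h3) hW0
    _ = (Fintype.card α : ℝ) ^ k *
        ∏ p, (W p (x p) * (k.choose (x p) : ℝ) / L p ^ ((x p).choose 2)) := by
        rw [Finset.prod_div_distrib, Finset.prod_mul_distrib]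
        ring

end abs

/-! ## one prime -/

theorem one_prime {k m : ℕ} {A L : ℝ} (hA0 : 0 ≤ A) (hA : A * k ≤ 2 ^ m) (hL : 2 ≤ L ^ 2)
    (hL0 : 0 < L) :
    ∑ x ∈ range (k + 1), A ^ x * (k.choose x : ℝ) / L ^ (x.choose 2) ≤
      (k + 1) * 2 ^ (m * (4 * m + 1)) := by
  have hterm : ∀ x ∈ range (k + 1), A ^ x * (k.choose x : ℝ) / L ^ (x.choose 2) ≤
      2 ^ (m * (4 * m + 1)) := by
    intro x _
    rw [div_le_iff₀ (pow_pos hL0 _)]
    have h1 : A ^ x * (k.choose x : ℝ) ≤ (2 ^ m) ^ x := by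
      calc A ^ x * (k.choose x : ℝ) ≤ A ^ x * (k : ℝ) ^ x := by
            refine mul_le_mul_of_nonneg_left ?_ (pow_nonneg hA0 _)
            exact_mod_cast Nat.choose_le_pow k x
        _ = (A * k) ^ x := (mul_pow _ _ _).symm
        _ ≤ (2 ^ m) ^ x := pow_le_pow_left₀ (by positivity) hA x
    refine h1.trans ?_
    have hL1 : 1 ≤ L := by
      by_contra h
      push Not at h
      have : L ^ 2 < 1 := by nlinarith
      linarith
    by_cases hx : x ≤ 4 * m + 1
    · calc ((2 : ℝ) ^ m) ^ x = 2 ^ (m * x) := by rw [← pow_mul]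
        _ ≤ 2 ^ (m * (4 * m + 1)) := pow_le_pow_right₀ (by norm_num) (Nat.mul_le_mul_left _ hx)
        _ ≤ 2 ^ (m * (4 * m + 1)) * L ^ (x.choose 2) :=
            le_mul_of_one_le_right (by positivity) (one_le_pow₀ hL1)
    · push Not at hx
      -- `L ^ C(x,2)` with `C(x,2) ≥ 2 m x`
      have h2 : 2 * (m * x) ≤ x.choose 2 := by
        rw [Nat.choose_two_right]
        rw [Nat.le_div_iff_mul_le (by norm_num)]
        have : 4 * m ≤ x - 1 := by omega
        calc 2 * (m * x) * 2 = x * (4 * m) := by ring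
          _ ≤ x * (x - 1) := Nat.mul_le_mul_left _ this
      calc ((2 : ℝ) ^ m) ^ x = 2 ^ (m * x) := by rw [← pow_mul]
        _ ≤ (L ^ 2) ^ (m * x) := pow_le_pow_left₀ (by norm_num) hL _
        _ = L ^ (2 * (m * x)) := by rw [← pow_mul]
        _ ≤ L ^ (x.choose 2) := pow_le_pow_right₀ hL1 h2
        _ ≤ 2 ^ (m * (4 * m + 1)) * L ^ (x.choose 2) :=
            le_mul_of_one_le_left (by positivity) (one_le_pow₀ (by norm_num))
  calc _ ≤ ∑ x ∈ range (k + 1), (2 : ℝ) ^ (m * (4 * m + 1)) := sum_le_sum hterm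
    _ = _ := by rw [sum_const, card_range, nsmul_eq_mul]; push_cast; ring

/-! ## ranks when one column is added -/

section field

variable {K : Type*} [Field K] {a j : ℕ}

/-- the matrix with the columns `X l` -/
def ofCols (X : Fin j → Fin a → K) : Matrix (Fin a) (Fin j) K := Matrix.of fun i l => X l i

theorem rank_ofCols (X : Fin j → Fin a → K) :
    (ofCols X).rank = Module.finrank K (Submodule.span K (Set.range X)) := by
  rw [Matrix.rank_eq_finrank_span_cols]
  rfl

theorem span_snoc (X : Fin j → Fin a → K) (y : Fin a → K) :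
    Submodule.span K (Set.range (Fin.snoc X y : Fin (j + 1) → Fin a → K)) =
      Submodule.span K (Set.range X) ⊔ Submodule.span K {y} := by
  rw [← Submodule.span_union]
  congr 1
  ext v
  constructor
  · rintro ⟨l, rfl⟩
    refine Fin.lastCases ?_ (fun l => ?_) l
    · right; simp
    · left; exact ⟨l, by simp⟩
  · rintro (⟨l, rfl⟩ | hv)
    · exact ⟨l.castSucc, by simp⟩
    · exact ⟨Fin.last j, by simp [Set.mem_singleton_iff.1 hv]⟩

theorem rank_snoc_le (X : Fin j → Fin a → K) (y : Fin a → K) :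
    (ofCols (Fin.snoc X y : Fin (j + 1) → Fin a → K)).rank ≤ (ofCols X).rank + 1 := by
  rw [rank_ofCols, rank_ofCols, span_snoc]
  refine (Submodule.finrank_add_le_finrank_add_finrank _ _).trans ?_
  refine Nat.add_le_add_left ?_ _
  have := finrank_span_le_card (R := K) ({y} : Set (Fin a → K))
  simpa using this

theorem le_rank_snoc (X : Fin j → Fin a → K) (y : Fin a → K) :
    (ofCols X).rank ≤ (ofCols (Fin.snoc X y : Fin (j + 1) → Fin a → K)).rank := by
  rw [rank_ofCols, rank_ofCols, span_snoc]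
  exact Submodule.finrank_mono le_sup_left

theorem perp_of_rank_snoc (X : Fin j → Fin a → K) (y : Fin a → K)
    (h : (ofCols (Fin.snoc X y : Fin (j + 1) → Fin a → K)).rank ≤ (ofCols X).rank)
    (u : Fin a → K) (hu : u ᵥ* ofCols X = 0) : ∑ i, u i * y i = 0 := by
  rw [rank_ofCols, rank_ofCols, span_snoc] at h
  have h1 : Submodule.span K (Set.range X) =
      Submodule.span K (Set.range X) ⊔ Submodule.span K {y} :=
    Submodule.eq_of_le_of_finrank_le le_sup_left h
  have h2 : y ∈ Submodule.span K (Set.range X) := by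
    rw [h1]
    exact Submodule.mem_sup_right (Submodule.mem_span_singleton_self y)
  have h3 : ∀ v ∈ Submodule.span K (Set.range X), ∑ i, u i * v i = 0 := by
    intro v hv
    induction hv using Submodule.span_induction with
    | mem v hv =>
      obtain ⟨l, rfl⟩ := hv
      have := congrFun hu l
      simpa [Matrix.vecMul, dotProduct, ofCols] using this
    | zero => simp
    | add v w _ _ hv hw =>
      simp only [Pi.add_apply, mul_add, sum_add_distrib, hv, hw, add_zero]
    | smul c v _ hv =>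
      simp only [Pi.smul_apply, smul_eq_mul]
      calc ∑ i, u i * (c * v i) = c * ∑ i, u i * v i := by
            rw [mul_sum]; exact sum_congr rfl fun i _ => by ring
        _ = 0 := by rw [hv, mul_zero]
  exact h3 y h2

end field

/-! ## integer matrices with columns `X l` -/

section mat

variable {Om : Type*} [Fintype Om]

/-- the integer matrix with the columns `X l` -/
def cm (ent : Om → ℤ) {a j : ℕ} (X : Fin j → Fin a → Om) : Matrix (Fin a) (Fin j) ℤ :=
  Matrix.of fun i l => ent (X l i)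

theorem cm_map {R : Type*} [Ring R] (ent : Om → ℤ) {a j : ℕ} (X : Fin j → Fin a → Om) :
    (cm ent X).map (Int.cast : ℤ → R) = Matrix.of fun i l => ((ent (X l i) : ℤ) : R) := rfl

theorem cm_map' {R : Type*} [Field R] (ent : Om → ℤ) {a j : ℕ} (X : Fin j → Fin a → Om) :
    (cm ent X).map (Int.cast : ℤ → R) = ofCols fun l i => ((ent (X l i) : ℤ) : R) := rfl

theorem snoc_cast {R : Type*} [Field R] (ent : Om → ℤ) {a j : ℕ} (X : Fin j → Fin a → Om)
    (y : Fin a → Om) :
    (cm ent (Fin.snoc X y : Fin (j + 1) → Fin a → Om)).map (Int.cast : ℤ → R) =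
      ofCols (Fin.snoc (fun l i => ((ent (X l i) : ℤ) : R)) (fun i => ((ent (y i) : ℤ) : R)) :
        Fin (j + 1) → Fin a → R) := by
  ext i l
  refine Fin.lastCases ?_ (fun l => ?_) l
  · simp [cm, ofCols]
  · simp [cm, ofCols]

/-- excess of the rational rank over the rank modulo `p` -/
noncomputable def ex (ent : Om → ℤ) (p : ℕ) {a j : ℕ} (X : Fin j → Fin a → Om) : ℕ :=
  HadN.rQ (cm ent X) - HadN.rP p (cm ent X)

open scoped Classical in
/-- Littlewood-Offord with excess for the entry law `ent`, `a` rows -/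
def LOF (ent : Om → ℤ) (a : ℕ) (L : ℕ → ℝ) : Prop :=
  ∀ (j : ℕ) (Y : Matrix (Fin a) (Fin j) ℤ), (∀ i l, |Y i l| ≤ 1) → ∀ B : Finset ℕ,
    (∀ p ∈ B, p.Prime) → ∀ e : ℕ → ℕ, (∀ p ∈ B, (Y.map (Int.cast : ℤ → ZMod p)).rank + e p ≤
      (Y.map (Int.cast : ℤ → ℚ)).rank) →
    ((univ.filter fun x : Fin a → Om => ∀ p ∈ B, ∀ u : Fin a → ZMod p,
      u ᵥ* Y.map (Int.cast : ℤ → ZMod p) = 0 →
        ∑ i, u i * ((ent (x i) : ℤ) : ZMod p) = 0).card : ℝ) * ∏ p ∈ B, L p ^ e p ≤
      (Fintype.card Om : ℝ) ^ a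

open scoped Classical in
theorem profM (ent : Om → ℤ) (hent : ∀ o, |ent o| ≤ 1) {a : ℕ} {L : ℕ → ℝ} (hLO : LOF ent a L)
    (P : Finset ℕ) (hP : ∀ p ∈ P, p.Prime) (hL : ∀ p ∈ P, 0 < L p) (k : ℕ)
    (x : {p // p ∈ P} → ℕ) :
    ((univ.filter fun X : Fin k → Fin a → Om => ∀ p : {p // p ∈ P}, x p ≤ ex ent p.1 X).card : ℝ) *
      ∏ p : {p // p ∈ P}, L p.1 ^ ((x p).choose 2) ≤
      (Fintype.card (Fin a → Om) : ℝ) ^ k * ∏ p : {p // p ∈ P}, (k.choose (x p) : ℝ) := by
  have key := Prof629.profile (α := Fin a → Om) (π := {p // p ∈ P}) univ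
    (fun p j X => ex ent p.1 X) (fun p => L p.1) (fun p _ => hL p.1 p.2) (fun _ _ => True)
    (fun _ _ _ _ => trivial) ?_ ?_ ?_ k x
  · convert key using 5
    simp
  · intro p _ X
    have h1 : HadN.rQ (cm ent X) ≤ 0 := by
      have := Matrix.rank_le_card_width ((cm ent X).map (Int.cast : ℤ → ℚ))
      simpa [HadN.rQ] using this
    unfold ex
    omega
  · intro p _ j X y
    have hp := hP p.1 p.2
    have : Fact p.1.Prime := ⟨hp⟩
    have h1 : HadN.rQ (cm ent (Fin.snoc X y : Fin (j + 1) → Fin a → Om)) ≤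
        HadN.rQ (cm ent X) + 1 := by
      unfold HadN.rQ
      rw [snoc_cast, cm_map']
      exact rank_snoc_le _ _
    have h2 : HadN.rP p.1 (cm ent X) ≤
        HadN.rP p.1 (cm ent (Fin.snoc X y : Fin (j + 1) → Fin a → Om)) := by
      unfold HadN.rP
      rw [snoc_cast, cm_map']
      exact le_rank_snoc _ _
    show ex ent p.1 _ ≤ ex ent p.1 X + 1
    unfold ex
    omega
  · intro j X B _ hB
    have h0 := hLO j (cm ent X) (fun i l => hent _) (B.image Subtype.val)
      (fun p hp => by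
        obtain ⟨q, _, rfl⟩ := mem_image.1 hp
        exact hP q.1 q.2)
      (fun p => ex ent p X) (fun p hp => by
        obtain ⟨q, _, rfl⟩ := mem_image.1 hp
        have := HadN.rP_le_rQ (hP q.1 q.2) (cm ent X)
        unfold ex
        change HadN.rP q.1 (cm ent X) + _ ≤ HadN.rQ (cm ent X)
        omega)
    rw [prod_image (fun p _ q _ h => Subtype.val_injective h)] at h0
    have h1 : ((Fintype.card (Fin a → Om) : ℕ) : ℝ) = (Fintype.card Om : ℝ) ^ a := by
      rw [Fintype.card_fun, Fintype.card_fin]; push_cast; rfl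
    rw [h1]
    refine le_trans (mul_le_mul_of_nonneg_right ?_
      (prod_nonneg fun p _ => (pow_pos (hL p.1 p.2) _).le)) h0
    norm_cast
    refine card_le_card ?_
    intro y hy
    simp only [mem_filter, mem_univ, true_and] at hy ⊢
    intro p hp u hu
    obtain ⟨q, hq, rfl⟩ := mem_image.1 hp
    have : Fact q.1.Prime := ⟨hP q.1 q.2⟩
    have h2 := hy q hq
    have h3 := HadN.rP_le_rQ (hP q.1 q.2) (cm ent X)
    have h5 : HadN.rQ (cm ent (Fin.snoc X y : Fin (j + 1) → Fin a → Om)) ≤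
        HadN.rQ (cm ent X) + 1 := by
      unfold HadN.rQ
      rw [snoc_cast, cm_map']
      exact rank_snoc_le _ _
    have h6 : HadN.rP q.1 (cm ent (Fin.snoc X y : Fin (j + 1) → Fin a → Om)) ≤
        HadN.rP q.1 (cm ent X) := by
      change ex ent q.1 _ = ex ent q.1 X + 1 at h2
      unfold ex at h2
      omega
    unfold HadN.rP at h6
    rw [snoc_cast, cm_map'] at h6
    exact perp_of_rank_snoc _ _ h6 u hu

end mat

end Vale.Agent.P160.Half.Mid.Mom188
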