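import Vale.Agent.P160.Half.Mid.Mom188

/-! # P160, mid primes: the moment of the number of kernel vectors (`StmtMom`) -/

set_option linter.unusedSectionVars false

namespace Vale.Agent.P160.Half.Mid.Mom188

open Finset Matrix Vale.Agent.P160 Vale.Agent.P160.Half

/-! ## Littlewood-Offord for the law `Fin 4` -/

/-- a seed in `Fin 4` as a pair of bits, `st z = b₁ - b₂` -/
def bb (z : Fin 4) : Bool × Bool :=
  (decide (z.val = 0 ∨ z.val = 3), decide (z.val = 1 ∨ z.val = 3))

theorem bb_inj : Function.Injective bb := by decide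

theorem st_bb (z : Fin 4) : st z = (if (bb z).1 then 1 else 0) - (if (bb z).2 then 1 else 0) := by
  revert z; decide

theorem st_abs (z : Fin 4) : |st z| ≤ 1 := by
  revert z; decide

/-- the base of the bound -/
noncomputable def Lf (a : ℕ) (p : ℕ) : ℝ := (p : ℝ) ^ (Real.log 2 / Real.log (3 * a))

open scoped Classical in
theorem lof {a : ℕ} (ha : 1 ≤ a) : LOF (st : Fin 4 → ℤ) a (Lf a) := by
  intro j Y hY B hB e he
  obtain ⟨d, _, hd', -, h2⟩ := LOMin.lo_min1 Y hY B hB e he
  have h3 := h2 fun _ _ => 0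
  rw [Fintype.card_fin] at h3 hd'
  have hd : ∏ p ∈ B, p ^ e p ≤ (3 * a) ^ d := hd'.trans (Nat.pow_le_pow_left (by omega) d)
  set s : ℝ := Real.log 2 / Real.log (3 * a) with hs
  have ha' : (1 : ℝ) ≤ a := by exact_mod_cast ha
  have hlog3 : 0 < Real.log (3 * a) := Real.log_pos (by linarith)
  have hs0 : 0 ≤ s := div_nonneg (Real.log_nonneg (by norm_num)) hlog3.le
  have h3s : ((3 : ℝ) * a) ^ s = 2 := by
    rw [Real.rpow_def_of_pos (by positivity), hs, mul_div_cancel₀ _ hlog3.ne',
      Real.exp_log (by norm_num)]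
  have hprod : ∏ p ∈ B, Lf a p ^ e p ≤ (2 : ℝ) ^ d := by
    have h4 : ∏ p ∈ B, Lf a p ^ e p = ((∏ p ∈ B, p ^ e p : ℕ) : ℝ) ^ s := by
      push_cast
      rw [← Real.finsetProd_rpow _ _ (fun p _ => by positivity)]
      refine prod_congr rfl fun p _ => ?_
      unfold Lf
      rw [← Real.rpow_natCast, ← Real.rpow_natCast, ← Real.rpow_mul (Nat.cast_nonneg _),
        ← Real.rpow_mul (Nat.cast_nonneg _), mul_comm]
    rw [h4]
    calc ((∏ p ∈ B, p ^ e p : ℕ) : ℝ) ^ s ≤ (((3 * a) ^ d : ℕ) : ℝ) ^ s :=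
          Real.rpow_le_rpow (Nat.cast_nonneg _) (by exact_mod_cast hd) hs0
      _ = (((3 : ℝ) * a) ^ s) ^ d := by
          push_cast
          rw [← Real.rpow_natCast, ← Real.rpow_natCast, ← Real.rpow_mul (by positivity),
            ← Real.rpow_mul (by positivity), mul_comm (d : ℝ) s]
      _ = 2 ^ d := by rw [h3s]
  have hcard : ((univ.filter fun x : Fin a → Fin 4 => ∀ p ∈ B, ∀ u : Fin a → ZMod p,
      u ᵥ* Y.map (Int.cast : ℤ → ZMod p) = 0 →
        ∑ i, u i * ((st (x i) : ℤ) : ZMod p) = 0).card) * 2 ^ d ≤ 4 ^ a := by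
    refine le_trans (Nat.mul_le_mul_right _ ?_) h3
    refine card_le_card_of_injOn (fun x => (fun i => (bb (x i)).1, fun i => (bb (x i)).2)) ?_ ?_
    · intro x hx
      simp only [coe_filter, mem_univ, true_and, Set.mem_ofPred_eq] at hx ⊢
      intro p hp u hu
      have h5 := hx p hp u hu
      refine Eq.trans ?_ h5
      rw [← sum_sub_distrib]
      refine sum_congr rfl fun i _ => ?_
      rw [st_bb]
      by_cases h6 : (bb (x i)).1 <;> by_cases h7 : (bb (x i)).2 <;> simp [h6, h7]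
    · intro x _ y _ hxy
      funext i
      apply bb_inj
      have h5 := congrArg Prod.fst hxy
      have h6 := congrArg Prod.snd hxy
      exact Prod.ext (congrFun h5 i) (congrFun h6 i)
  have hcardR : ((univ.filter fun x : Fin a → Fin 4 => ∀ p ∈ B, ∀ u : Fin a → ZMod p,
      u ᵥ* Y.map (Int.cast : ℤ → ZMod p) = 0 →
        ∑ i, u i * ((st (x i) : ℤ) : ZMod p) = 0).card : ℝ) * 2 ^ d ≤ 4 ^ a := by
    exact_mod_cast hcard
  calc _ ≤ ((univ.filter fun x : Fin a → Fin 4 => ∀ p ∈ B, ∀ u : Fin a → ZMod p,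
      u ᵥ* Y.map (Int.cast : ℤ → ZMod p) = 0 →
        ∑ i, u i * ((st (x i) : ℤ) : ZMod p) = 0).card : ℝ) * 2 ^ d :=
        mul_le_mul_of_nonneg_left hprod (Nat.cast_nonneg _)
    _ ≤ 4 ^ a := hcardR
    _ = _ := by simp

theorem Lf_sq {k p : ℕ} (hk : 3 ≤ k) (hp : k ≤ p) : 2 ≤ Lf k p ^ 2 := by
  unfold Lf
  set s : ℝ := Real.log 2 / Real.log (3 * k) with hs
  have hk' : (3 : ℝ) ≤ k := by exact_mod_cast hk
  have hp' : (k : ℝ) ≤ p := by exact_mod_cast hp
  have hlog3 : 0 < Real.log (3 * k) := Real.log_pos (by linarith)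
  have hs0 : 0 ≤ s := div_nonneg (Real.log_nonneg (by norm_num)) hlog3.le
  have h3s : ((3 : ℝ) * k) ^ s = 2 := by
    rw [Real.rpow_def_of_pos (by positivity), hs, mul_div_cancel₀ _ hlog3.ne',
      Real.exp_log (by norm_num)]
  calc (2 : ℝ) = ((3 : ℝ) * k) ^ s := h3s.symm
    _ ≤ ((p : ℝ) * p) ^ s := Real.rpow_le_rpow (by positivity) (by nlinarith) hs0
    _ = ((p : ℝ) ^ s) ^ 2 := by rw [Real.mul_rpow (by positivity) (by positivity), sq]

theorem Lf_pos {k p : ℕ} (hp : 0 < p) : 0 < Lf k p := by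
  unfold Lf
  exact Real.rpow_pos_of_pos (by exact_mod_cast hp) _

/-! ## number of kernel vectors -/

theorem card_ker_zmod {p k m : ℕ} [Fact p.Prime] (M : Matrix (Fin m) (Fin k) (ZMod p)) :
    (univ.filter fun u : Fin k → ZMod p => M *ᵥ u = 0).card = p ^ (k - M.rank) := by
  classical
  have h1 : (univ.filter fun u : Fin k → ZMod p => M *ᵥ u = 0).card =
      Fintype.card (LinearMap.ker M.mulVecLin) := by
    rw [Fintype.card_of_subtype]
    intro u
    simp
  have h2 := LinearMap.finrank_range_add_finrank_ker M.mulVecLin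
  rw [Module.finrank_fintype_fun_eq_card, Fintype.card_fin] at h2
  have h3 : Module.finrank (ZMod p) (LinearMap.ker M.mulVecLin) = k - M.rank := by
    unfold Matrix.rank; omega
  rw [h1, Module.card_eq_pow_finrank (K := ZMod p), h3, ZMod.card]

open scoped Classical in
theorem card_ker {t k : ℕ} (p : Fin t → ℕ) [∀ j, NeZero (p j)] (hp : ∀ j, (p j).Prime)
    (X : Fin k → Fin k → Fin 4) :
    ((univ : Finset (Fin k → GG p)).filter fun w => ∀ i, gwalk (X i) w = 0).card =
      ∏ j, p j ^ (k - HadN.rP (p j) (cm (st : Fin 4 → ℤ) X)) := by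
  have hF : ∀ j, Fact (p j).Prime := fun j => ⟨hp j⟩
  have h1 : ((univ : Finset (Fin k → GG p)).filter fun w => ∀ i, gwalk (X i) w = 0).card =
      (Fintype.piFinset fun j => univ.filter fun u : Fin k → ZMod (p j) =>
        ((cm (st : Fin 4 → ℤ) X).map (Int.cast : ℤ → ZMod (p j)))ᵀ *ᵥ u = 0).card := by
    refine card_bij' (fun w _ => fun j l => w l j) (fun v _ => fun l j => v j l) ?_ ?_ ?_ ?_
    · intro w hw
      rw [mem_filter] at hw
      rw [Fintype.mem_piFinset]
      intro j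
      rw [mem_filter]
      refine ⟨mem_univ _, ?_⟩
      funext i
      have h2 := congrFun (hw.2 i) j
      unfold gwalk at h2
      rw [Finset.sum_apply] at h2
      simpa [Matrix.mulVec, dotProduct, cm, zsmul_eq_mul] using h2
    · intro v hv
      rw [Fintype.mem_piFinset] at hv
      rw [mem_filter]
      refine ⟨mem_univ _, ?_⟩
      intro i
      funext j
      have h2 := congrFun (mem_filter.1 (hv j)).2 i
      unfold gwalk
      rw [Finset.sum_apply]
      simpa [Matrix.mulVec, dotProduct, cm, zsmul_eq_mul] using h2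
    · intro w _; rfl
    · intro v _; rfl
  rw [h1, Fintype.card_piFinset]
  refine prod_congr rfl fun j _ => ?_
  have h2 := card_ker_zmod (((cm (st : Fin 4 → ℤ) X).map (Int.cast : ℤ → ZMod (p j)))ᵀ)
  rw [Matrix.rank_transpose] at h2
  unfold HadN.rP
  convert h2 using 2

end Vale.Agent.P160.Half.Mid.Mom188
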