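import Vale.Agent.P160.Half.Mid.MidStmt

/-! # P160, MID: few matrices have a nonsparse nonflat kernel vector (leaf L4 of note 11260) -/

set_option linter.unusedSectionVars false
set_option linter.unusedVariables false

namespace Vale.Agent.P160.Half.Mid.NF34

open Finset Vale.Agent.P160 Vale.Agent.P160.Half Vale.Agent.P160.Half.Mid

section gen

variable {G G' : Type} [AddCommGroup G] [Fintype G] [DecidableEq G]
  [AddCommGroup G'] [Fintype G'] [DecidableEq G']
variable {E : Type} [Fintype E] [DecidableEq E]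

lemma gwalk_map {M : ℕ} (f : G →+ G') (ω : E → Fin M) (y : E → G) :
    gwalk ω (fun e => f (y e)) = f (gwalk ω y) := by
  unfold gwalk
  rw [map_sum]
  refine sum_congr rfl fun e _ => ?_
  rw [map_zsmul]

lemma gpr_map_le {M : ℕ} (f : G →+ G') (y : E → G) :
    gpr M y 0 ≤ gpr M (fun e => f (y e)) 0 := by
  unfold gpr
  refine div_le_div_of_nonneg_right ?_ (by positivity)
  exact_mod_cast card_le_card (fun ω hω => by
    simp only [mem_filter, mem_univ, true_and] at hω ⊢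
    rw [gwalk_map, hω, map_zero])

lemma gpr_le_one {M : ℕ} (y : E → G) (g : G) : gpr M y g ≤ 1 := by
  unfold gpr
  refine div_le_one_of_le₀ ?_ (by positivity)
  have h := card_le_univ (univ.filter (fun ω : E → Fin M => gwalk ω y = g))
  rw [Fintype.card_fun, Fintype.card_fin] at h
  exact_mod_cast h

lemma gZ_eq {m M : ℕ} (hM : 2 ≤ M) (y : Fin m → G) :
    Flat.gZ M y = Fintype.card G * gpr M y 0 := by
  rw [gpr_zero_eq hM y]; rfl

lemma card_rows {k : ℕ} (y : Fin k → G) :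
    (((univ : Finset (Fin k → Fin k → Fin 4)).filter fun X => ∀ i, gwalk (X i) y = 0).card : ℝ) ≤
      (4 ^ k * (Flat.gZ 8 y / Fintype.card G)) ^ k := by
  have h1 : ((univ : Finset (Fin k → Fin k → Fin 4)).filter fun X => ∀ i, gwalk (X i) y = 0) =
      Fintype.piFinset fun _ : Fin k => univ.filter fun ω : Fin k → Fin 4 => gwalk ω y = 0 := by
    ext X; simp
  rw [h1, Fintype.card_piFinset, prod_const, card_univ, Fintype.card_fin]
  push_cast
  refine pow_le_pow_left₀ (by positivity) ?_ k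
  have hG : (0 : ℝ) < Fintype.card G := by exact_mod_cast Fintype.card_pos
  have h2 : gpr 4 y 0 ≤ gpr 8 y 0 := gpr_le_gpr (M := 4) (M' := 8) (E' := Fin k) le_rfl (by norm_num) id
    Function.injective_id y 0
  rw [gZ_eq (by norm_num), mul_div_cancel_left₀ _ hG.ne']
  have h3 : ((univ.filter fun ω : Fin k → Fin 4 => gwalk ω y = 0).card : ℝ) = 4 ^ k * gpr 4 y 0 := by
    unfold gpr
    rw [Fintype.card_fin]
    push_cast
    field_simp
  rw [h3]
  exact mul_le_mul_of_nonneg_left h2 (by positivity)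

end gen

/-- nonsparse components give nonsparse characters -/
lemma nonSp {k i : ℕ} (q : Fin i → ℕ) [∀ j, NeZero (q j)] (hq : ∀ j, (q j).Prime)
    (hinj : Function.Injective q) (e : ℝ) (y : Fin k → GG q) (hy : NS q e y) :
    Flat.NonSp e y := by
  classical
  intro ψ hψ
  obtain ⟨g, hg⟩ : ∃ g, ψ g ≠ 1 := by
    by_contra hcon
    push Not at hcon
    apply hψ
    ext g
    simpa using hcon g
  obtain ⟨j, hj⟩ : ∃ j, ψ (Pi.single j (g j)) ≠ 1 := by
    by_contra hcon
    push Not at hcon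
    apply hg
    have h1 : g = ∑ j, Pi.single j (g j) := by
      rw [Finset.univ_sum_single]
    rw [h1, addChar_sum]
    exact prod_eq_one fun j _ => hcon j
  refine (hy j).trans ?_
  have hsub : (univ.filter fun c => y c j ≠ 0) ⊆ (univ.filter fun c => ψ (y c) ≠ 1) := by
    intro c hc
    simp only [mem_filter, mem_univ, true_and] at hc ⊢
    intro h1
    apply hj
    haveI : Fact (q j).Prime := ⟨hq j⟩
    set m : ℕ := ∏ l ∈ univ.erase j, q l with hm
    have hmj : (m : ZMod (q j)) ≠ 0 := by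
      rw [Ne, ZMod.natCast_eq_zero_iff, hm]
      intro hdvd
      obtain ⟨l, hl, hdl⟩ := (Prime.dvd_finset_prod_iff (hq j).prime _).1 hdvd
      have := (Nat.prime_dvd_prime_iff_eq (hq j) (hq l)).1 hdl
      exact (mem_erase.1 hl).1 (hinj this.symm)
    have h2 : m • y c = Pi.single j ((m : ZMod (q j)) * y c j) := by
      funext l
      by_cases hl : l = j
      · subst hl
        simp [nsmul_eq_mul]
      · rw [Pi.single_eq_of_ne hl, Pi.smul_apply, nsmul_eq_mul]
        have : (m : ZMod (q l)) = 0 := by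
          rw [ZMod.natCast_eq_zero_iff, hm]
          exact dvd_prod_of_mem _ (mem_erase.2 ⟨hl, mem_univ _⟩)
        rw [this, zero_mul]
    have h3 : ψ (Pi.single j ((m : ZMod (q j)) * y c j)) = 1 := by
      rw [← h2, AddChar.map_nsmul_eq_pow, h1, one_pow]
    set a : ZMod (q j) := (m : ZMod (q j)) * y c j with ha
    have ha0 : a ≠ 0 := mul_ne_zero hmj hc
    have h4 : (Pi.single j (g j) : GG q) = (g j / a).val • (Pi.single j a : GG q) := by
      funext l
      by_cases hl : l = j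
      · subst hl
        simp only [Pi.single_eq_same, Pi.smul_apply, nsmul_eq_mul, ZMod.natCast_val, ZMod.cast_id', id_eq]
        rw [div_mul_cancel₀ _ ha0]
      · simp [Pi.single_eq_of_ne hl]
    rw [h4, AddChar.map_nsmul_eq_pow, h3, one_pow]
  exact_mod_cast card_le_card hsub

/-- restriction to the first `i` primes -/
def rs {k t : ℕ} (p : Fin t → ℕ) (i : ℕ) (hi : i ≤ t) (w : Fin k → GG p) :
    Fin k → GG (fun j : Fin i => p (Fin.castLE hi j)) := fun c j => w c (Fin.castLE hi j)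

/-- restriction as a homomorphism -/
def rsHom {t : ℕ} (p : Fin t → ℕ) (i : ℕ) (hi : i ≤ t) :
    GG p →+ GG (fun j : Fin i => p (Fin.castLE hi j)) where
  toFun g := fun j => g (Fin.castLE hi j)
  map_zero' := rfl
  map_add' _ _ := rfl

lemma card_GG {t : ℕ} (p : Fin t → ℕ) [∀ j, NeZero (p j)] :
    Fintype.card (GG p) = ∏ j, p j := by
  rw [Fintype.card_pi]
  exact prod_congr rfl fun j _ => ZMod.card _

/-- the first nonflat prefix -/
lemma exists_prefix {k t : ℕ} (p : Fin t → ℕ) [inst : ∀ j, NeZero (p j)] (w : Fin k → GG p)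
    (h : 2 < Flat.gZ 8 w) : ∃ i, ∃ hi : i + 1 ≤ t, 2 < Flat.gZ 8 (rs p (i + 1) hi w) ∧
      Flat.gZ 8 (rs p (i + 1) hi w) ≤ 2 * p ⟨i, hi⟩ := by
  classical
  have hex : ∃ i, ∃ hi : i ≤ t, 2 < Flat.gZ 8 (rs p i hi w) := ⟨t, le_rfl, h⟩
  obtain ⟨hi, h2⟩ := Nat.find_spec hex
  have hmin := fun m hm => Nat.find_min hex (m := m) hm
  have h0 : Nat.find hex ≠ 0 := by
    intro h0
    have h3 : Flat.gZ 8 (rs p (Nat.find hex) hi w) ≤ 1 := by
      rw [gZ_eq (by norm_num), card_GG]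
      have : ((∏ j : Fin (Nat.find hex), p (Fin.castLE hi j) : ℕ) : ℝ) = 1 := by
        have he : IsEmpty (Fin (Nat.find hex)) := by rw [h0]; infer_instance
        rw [Finset.univ_eq_empty, prod_empty, Nat.cast_one]
      rw [this, one_mul]
      exact gpr_le_one _ _
    linarith
  obtain ⟨i, hi'⟩ := Nat.exists_eq_succ_of_ne_zero h0
  have hit : i + 1 ≤ t := by omega
  have hlt := hmin i (by omega)
  push Not at hlt
  have h4 := hlt (by omega)
  refine ⟨i, hit, ?_, ?_⟩
  · have : ∀ (m : ℕ) (hm : m = i + 1) (hmt : m ≤ t), 2 < Flat.gZ 8 (rs p m hmt w) →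
        2 < Flat.gZ 8 (rs p (i + 1) hit w) := by
      intro m hm hmt h; subst hm; exact h
    exact this _ hi' hi h2
  · rw [gZ_eq (by norm_num), card_GG, Fin.prod_univ_castSucc]
    have h5 : gpr 8 (rs p (i + 1) hit w) 0 ≤ gpr 8 (rs p i (by omega) w) 0 := by
      have := gpr_map_le (M := 8)
        (rsHom (fun j : Fin (i + 1) => p (Fin.castLE hit j)) i (Nat.le_succ i)) (rs p (i + 1) hit w)
      exact this
    have h6 : ((∏ j : Fin i, p (Fin.castLE (by omega : i ≤ t) j) : ℕ) : ℝ) *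
        gpr 8 (rs p i (by omega) w) 0 ≤ 2 := by
      have := h4
      rw [gZ_eq (by norm_num), card_GG] at this
      exact this
    have h7 : (0 : ℝ) ≤ ((∏ j : Fin i, p (Fin.castLE (by omega : i ≤ t) j) : ℕ) : ℝ) := by positivity
    push_cast at h6 h7 ⊢
    have e1 : (∏ j : Fin i, (p (Fin.castLE hit j.castSucc) : ℝ)) =
        ∏ j : Fin i, (p (Fin.castLE (by omega : i ≤ t) j) : ℝ) := rfl
    have e2 : (p (Fin.castLE hit (Fin.last i)) : ℝ) = p ⟨i, hit⟩ := rfl
    rw [e1, e2]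
    have hp : (0 : ℝ) ≤ (p ⟨i, hit⟩ : ℝ) := by positivity
    nlinarith [mul_le_mul_of_nonneg_left h5 (mul_nonneg h7 hp), mul_le_mul_of_nonneg_right h6 hp]

/-- one level of one prefix -/
lemma level_bound {k : ℕ} {G : Type} [AddCommGroup G] [Fintype G] [DecidableEq G] (e κ T : ℝ)
    (hT : 1 ≤ T) (hκ : 0 ≤ κ)
    (hC : (by classical exact ((univ.filter fun y : Fin k → G =>
      Flat.NonSp e y ∧ 1 + T ≤ Flat.gZ 8 y).card : ℝ)) ≤
      (Fintype.card G : ℝ) ^ k * (κ / max 1 T) ^ k) :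
    (by classical exact ((((univ : Finset (Fin k → Fin k → Fin 4)).filter fun X => ∃ y : Fin k → G,
      Flat.NonSp e y ∧ 1 + T ≤ Flat.gZ 8 y ∧ Flat.gZ 8 y ≤ 1 + 2 * T ∧
        ∀ i, gwalk (X i) y = 0).card : ℝ))) ≤ (3 * κ) ^ k * 4 ^ (k * k) := by
  classical
  set Y := univ.filter fun y : Fin k → G => Flat.NonSp e y ∧ 1 + T ≤ Flat.gZ 8 y with hY
  have hG : (0 : ℝ) < Fintype.card G := by exact_mod_cast Fintype.card_pos
  have h1 : (((univ : Finset (Fin k → Fin k → Fin 4)).filter fun X => ∃ y : Fin k → G,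
      Flat.NonSp e y ∧ 1 + T ≤ Flat.gZ 8 y ∧ Flat.gZ 8 y ≤ 1 + 2 * T ∧
        ∀ i, gwalk (X i) y = 0)) ⊆ (Y.filter fun y => Flat.gZ 8 y ≤ 1 + 2 * T).biUnion
      fun y => univ.filter fun X => ∀ i, gwalk (X i) y = 0 := by
    intro X hX
    simp only [mem_filter, mem_univ, true_and, mem_biUnion, hY] at hX ⊢
    obtain ⟨y, a, b, c, d⟩ := hX
    exact ⟨y, ⟨⟨a, b⟩, c⟩, d⟩
  have h2 : ((((univ : Finset (Fin k → Fin k → Fin 4)).filter fun X => ∃ y : Fin k → G,
      Flat.NonSp e y ∧ 1 + T ≤ Flat.gZ 8 y ∧ Flat.gZ 8 y ≤ 1 + 2 * T ∧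
        ∀ i, gwalk (X i) y = 0).card : ℝ)) ≤
      ∑ y ∈ Y.filter fun y => Flat.gZ 8 y ≤ 1 + 2 * T,
        (((univ : Finset (Fin k → Fin k → Fin 4)).filter fun X =>
          ∀ i, gwalk (X i) y = 0).card : ℝ) := by
    exact_mod_cast (card_le_card h1).trans card_biUnion_le
  refine h2.trans ?_
  have h3 : ∀ y ∈ Y.filter fun y => Flat.gZ 8 y ≤ 1 + 2 * T,
      (((univ : Finset (Fin k → Fin k → Fin 4)).filter fun X =>
          ∀ i, gwalk (X i) y = 0).card : ℝ) ≤ (4 ^ k * (3 * T / Fintype.card G)) ^ k := by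
    intro y hy
    refine (card_rows y).trans ?_
    have hz : 0 ≤ Flat.gZ 8 y := by
      have := (mem_filter.1 (mem_filter.1 hy).1).2.2
      linarith
    have hz2 : Flat.gZ 8 y ≤ 3 * T := by
      have := (mem_filter.1 hy).2
      linarith
    refine pow_le_pow_left₀ (by positivity) ?_ k
    refine mul_le_mul_of_nonneg_left ?_ (by positivity)
    exact div_le_div_of_nonneg_right hz2 hG.le
  refine (sum_le_sum h3).trans ?_
  rw [sum_const, nsmul_eq_mul]
  have h4 : (((Y.filter fun y => Flat.gZ 8 y ≤ 1 + 2 * T).card : ℕ) : ℝ) ≤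
      (Fintype.card G : ℝ) ^ k * (κ / max 1 T) ^ k := by
    refine le_trans ?_ hC
    exact_mod_cast card_le_card (filter_subset _ _)
  refine (mul_le_mul_of_nonneg_right h4 (by positivity)).trans (le_of_eq ?_)
  rw [max_eq_right hT, ← mul_pow, ← mul_pow, pow_mul, ← mul_pow]
  congr 1
  have hT0 : T ≠ 0 := by positivity
  field_simp

/-- `2 ^ s` with `1 + 2^s ≤ z ≤ 1 + 2^(s+1)` -/
lemma exists_level {z K : ℝ} (hz : 2 < z) (hK : z ≤ K) : ∃ s : ℕ, 1 + (2 : ℝ) ^ s ≤ z ∧
    z ≤ 1 + 2 * (2 : ℝ) ^ s ∧ (2 : ℝ) ^ s ≤ K := by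
  obtain ⟨s, h1, h2⟩ := exists_nat_pow_near (x := z - 1) (y := (2 : ℝ)) (by linarith) (by norm_num)
  refine ⟨s, by linarith, ?_, by linarith⟩
  rw [pow_succ] at h2
  linarith

open Classical in
theorem nf (hC : Flat.StmtCountG) : StmtNF := by
  intro g c hg hc hc2
  set δ : ℝ := (1 / 2 - c) / 2 with hδ
  have hδ0 : 0 < δ := by rw [hδ]; linarith
  obtain ⟨k₁, hk₁⟩ := hC δ (1 / 20) 4 hδ0 (by rw [hδ]; linarith) (by norm_num) (by norm_num)
  -- numeric thresholds
  have ev1 : ∀ᶠ k : ℕ in Filter.atTop, (k : ℝ) ^ (1 - g) ≤ (1 / 4) * k := by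
    have h := ((tendsto_rpow_neg_atTop hg).comp tendsto_natCast_atTop_atTop).eventually_le_const
      (show (0 : ℝ) < 1 / 4 by norm_num)
    filter_upwards [h, Filter.eventually_gt_atTop 0] with k hk hk0
    have hk0' : (0 : ℝ) < k := by exact_mod_cast hk0
    rw [sub_eq_neg_add, Real.rpow_add_one hk0'.ne']
    exact mul_le_mul_of_nonneg_right hk hk0'.le
  have ev2 : ∀ᶠ k : ℕ in Filter.atTop, (12 : ℝ) ≤ (k : ℝ) ^ δ :=
    ((tendsto_rpow_atTop hδ0).comp tendsto_natCast_atTop_atTop).eventually_ge_atTop 12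
  obtain ⟨k₂, hk₂⟩ := Filter.eventually_atTop.1 ev1
  obtain ⟨k₃, hk₃⟩ := Filter.eventually_atTop.1 ev2
  refine ⟨δ / 4, by linarith, max (max k₁ k₂) (max k₃ 3), fun k hk t p inst hA => ?_⟩
  have hkk₁ : k₁ ≤ k := (le_max_left _ _).trans ((le_max_left _ _).trans hk)
  have hkk₂ : k₂ ≤ k := (le_max_right _ _).trans ((le_max_left _ _).trans hk)
  have hkk₃ : k₃ ≤ k := (le_max_left _ _).trans ((le_max_right _ _).trans hk)
  have hk3 : 3 ≤ k := (le_max_right _ _).trans ((le_max_right _ _).trans hk)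
  have hkr : (3 : ℝ) ≤ k := by exact_mod_cast hk3
  have hk0 : (0 : ℝ) < k := by linarith
  have hsm := hk₂ k hkk₂
  have hbig := hk₃ k hkk₃
  set κ : ℝ := (k : ℝ) ^ (-(1 / 2) + δ) with hκ
  have hκ0 : 0 < κ := Real.rpow_pos_of_pos hk0 _
  -- number of primes
  have hprod : ((∏ j, p j : ℕ) : ℝ) ≤ (2 : ℝ) ^ ((1 / 4 : ℝ) * k) :=
    hA.prod.trans (Real.rpow_le_rpow_of_exponent_le (by norm_num) hsm)
  have ht : t ≤ k := by
    have h1 : (2 : ℝ) ^ t ≤ ((∏ j, p j : ℕ) : ℝ) := by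
      have : (2 : ℕ) ^ t ≤ ∏ j, p j := by
        calc (2 : ℕ) ^ t = ∏ j : Fin t, 2 := by simp
          _ ≤ ∏ j, p j := prod_le_prod' fun j _ => (hA.prime j).two_le
      exact_mod_cast this
    have h2 : (2 : ℝ) ^ (t : ℝ) ≤ (2 : ℝ) ^ (k : ℝ) := by
      rw [Real.rpow_natCast]
      refine (h1.trans hprod).trans (Real.rpow_le_rpow_of_exponent_le (by norm_num) ?_)
      linarith
    have h3 := (Real.rpow_le_rpow_left_iff (by norm_num : (1 : ℝ) < 2)).1 h2
    exact_mod_cast h3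
  -- the cover
  set F : ℕ → ℕ → Finset (Fin k → Fin k → Fin 4) := fun i s =>
    if hi : i + 1 ≤ t then univ.filter fun X => ∃ y : Fin k → GG (fun j : Fin (i + 1) =>
      p (Fin.castLE hi j)), Flat.NonSp ((k : ℝ) ^ (1 - δ / 4)) y ∧ 1 + (2 : ℝ) ^ s ≤ Flat.gZ 8 y ∧
        Flat.gZ 8 y ≤ 1 + 2 * (2 : ℝ) ^ s ∧ ((2 : ℝ) ^ s ≤ (k : ℝ) ^ (4 : ℝ)) ∧
        ∀ l, gwalk (X l) y = 0 else ∅ with hF
  have hcov : ((univ : Finset (Fin k → Fin k → Fin 4)).filter fun X => ∃ w : Fin k → GG p,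
      NS p ((k : ℝ) ^ (1 - δ / 4)) w ∧ 2 < Flat.gZ 8 w ∧ ∀ i, gwalk (X i) w = 0) ⊆
      (range k ×ˢ range (4 * k)).biUnion fun z => F z.1 z.2 := by
    intro X hX
    simp only [mem_filter, mem_univ, true_and] at hX
    obtain ⟨w, hw1, hw2, hw3⟩ := hX
    obtain ⟨i, hi, h1, h2⟩ := exists_prefix p w hw2
    have hpk : (2 * p ⟨i, hi⟩ : ℝ) ≤ (k : ℝ) ^ (4 : ℝ) := by
      have h3 : ((p ⟨i, hi⟩ : ℕ) : ℝ) ≤ (k : ℝ) ^ 3 := by exact_mod_cast hA.hi ⟨i, hi⟩
      have h4 : (k : ℝ) ^ (4 : ℝ) = (k : ℝ) ^ 4 := by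
        rw [← Real.rpow_natCast]; norm_num
      rw [h4]
      have h5 : (0 : ℝ) < (k : ℝ) ^ 3 := by positivity
      nlinarith
    obtain ⟨s, hs1, hs2, hs3⟩ := exists_level h1 (h2.trans hpk)
    have hs4 : s < 4 * k := by
      have h5 : (2 : ℝ) ^ s < (2 : ℝ) ^ (4 * k) := by
        refine hs3.trans_lt ?_
        have h6 : (k : ℝ) < 2 ^ k := by exact_mod_cast Nat.lt_two_pow_self
        have h4 : (k : ℝ) ^ (4 : ℝ) = (k : ℝ) ^ 4 := by
          rw [← Real.rpow_natCast]; norm_num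
        rw [h4, mul_comm, pow_mul]
        exact pow_lt_pow_left₀ h6 hk0.le (by norm_num)
      exact (pow_lt_pow_iff_right₀ (by norm_num : (1 : ℝ) < 2)).1 h5
    rw [mem_biUnion]
    refine ⟨(i, s), by simp only [mem_product, mem_range]; omega, ?_⟩
    simp only [hF]
    rw [dif_pos hi]
    simp only [mem_filter, mem_univ, true_and]
    refine ⟨rs p (i + 1) hi w, ?_, hs1, hs2, hs3, ?_⟩
    · refine nonSp (fun j : Fin (i + 1) => p (Fin.castLE hi j)) (fun j => hA.prime _)
        (hA.inj.comp (Fin.castLE_injective hi)) _ _ ?_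
      intro j
      exact hw1 (Fin.castLE hi j)
    · intro l
      have := gwalk_map (rsHom p (i + 1) hi) (X l) w
      rw [hw3 l, map_zero] at this
      exact this
  have hone : ∀ i s, ((F i s).card : ℝ) ≤ (3 * κ) ^ k * 4 ^ (k * k) := by
    intro i s
    simp only [hF]
    split_ifs with hi
    · by_cases hs : (2 : ℝ) ^ s ≤ (k : ℝ) ^ (4 : ℝ)
      · have hT1 : (1 : ℝ) ≤ 2 ^ s := one_le_pow₀ (by norm_num)
        have hcardG : (Fintype.card (GG (fun j : Fin (i + 1) => p (Fin.castLE hi j))) : ℝ) ≤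
            (2 : ℝ) ^ ((1 / 4 : ℝ) * k) := by
          refine le_trans ?_ hprod
          rw [card_GG]
          have : (∏ j : Fin (i + 1), p (Fin.castLE hi j)) ≤ ∏ j, p j := by
            rw [← prod_image (f := p) (s := univ) (g := Fin.castLE hi)
              (by intro a _ b _ h; exact Fin.castLE_injective hi h)]
            exact prod_le_prod_of_subset_of_one_le' (subset_univ _)
              fun j _ _ => (hA.prime j).one_lt.le
          exact_mod_cast this
        have hcnt := hk₁ k hkk₁ (GG (fun j : Fin (i + 1) => p (Fin.castLE hi j))) k le_rfl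
          (by linarith) (by
            intro q hq hdvd
            rw [card_GG] at hdvd
            obtain ⟨l, _, hl⟩ := (Prime.dvd_finset_prod_iff hq.prime _).1 hdvd
            rw [(Nat.prime_dvd_prime_iff_eq hq (hA.prime _)).1 hl]
            exact hA.lo _) (by
            refine (mul_le_mul_of_nonneg_right hcardG (by positivity)).trans ?_
            have e1 : (2 : ℝ) ^ ((1 / 4 : ℝ) * k) = Real.exp (Real.log 2 * ((1 / 4 : ℝ) * k)) := by
              rw [Real.rpow_def_of_pos (by norm_num)]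
            have e2 : ((3 : ℝ) / 4) ^ k = Real.exp (Real.log (3 / 4) * k) := by
              rw [← Real.rpow_natCast, Real.rpow_def_of_pos (by norm_num)]
            rw [e1, e2, ← Real.exp_add, Real.exp_le_exp]
            have l1 : Real.log 2 < 0.6931471808 := Real.log_two_lt_d9
            have l2 : Real.log (3 / 4) ≤ 3 / 4 - 1 - 1 / 50 := by
              have : Real.log (3 / 4) = Real.log 3 - 2 * Real.log 2 := by
                rw [Real.log_div (by norm_num) (by norm_num)]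
                have : (4 : ℝ) = 2 ^ 2 := by norm_num
                rw [this, Real.log_pow]; norm_num
              rw [Real.log_le_iff_le_exp (by norm_num)]
              have h9 := Real.add_one_le_exp (-(27 / 400) : ℝ)
              have h10 : Real.exp (3 / 4 - 1 - 1 / 50 : ℝ) = Real.exp (-(27 / 400)) ^ 4 := by
                rw [← Real.exp_nat_mul]; norm_num
              rw [h10]
              have h11 : (0.9325 : ℝ) ≤ Real.exp (-(27 / 400)) := by linarith
              calc (3 / 4 : ℝ) ≤ 0.9325 ^ 4 := by norm_num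
                _ ≤ _ := pow_le_pow_left₀ (by norm_num) h11 4
            nlinarith) (2 ^ s) ((by
              rw [div_le_iff₀ hk0]; nlinarith : (1 : ℝ) / k ≤ 2 ^ s)) hs
        refine le_trans ?_ (level_bound (k := k) (G := GG (fun j : Fin (i + 1) =>
          p (Fin.castLE hi j))) ((k : ℝ) ^ (1 - δ / 4)) κ (2 ^ s) hT1 hκ0.le ?_)
        · have hsub : (univ.filter fun X : Fin k → Fin k → Fin 4 =>
              ∃ y : Fin k → GG (fun j : Fin (i + 1) => p (Fin.castLE hi j)),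
              Flat.NonSp ((k : ℝ) ^ (1 - δ / 4)) y ∧ 1 + (2 : ℝ) ^ s ≤ Flat.gZ 8 y ∧
              Flat.gZ 8 y ≤ 1 + 2 * (2 : ℝ) ^ s ∧ ((2 : ℝ) ^ s ≤ (k : ℝ) ^ (4 : ℝ)) ∧
              ∀ l, gwalk (X l) y = 0) ⊆ (univ.filter fun X : Fin k → Fin k → Fin 4 =>
              ∃ y : Fin k → GG (fun j : Fin (i + 1) => p (Fin.castLE hi j)),
              Flat.NonSp ((k : ℝ) ^ (1 - δ / 4)) y ∧ 1 + (2 : ℝ) ^ s ≤ Flat.gZ 8 y ∧
              Flat.gZ 8 y ≤ 1 + 2 * (2 : ℝ) ^ s ∧ ∀ l, gwalk (X l) y = 0) := by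
            intro X hX
            simp only [mem_filter, mem_univ, true_and] at hX ⊢
            obtain ⟨y, a, b, c', d, e⟩ := hX
            exact ⟨y, a, b, c', e⟩
          convert (Nat.cast_le (α := ℝ)).2 (card_le_card hsub) using 2
        · convert hcnt using 2
      · have he : (univ.filter fun X : Fin k → Fin k → Fin 4 =>
              ∃ y : Fin k → GG (fun j : Fin (i + 1) => p (Fin.castLE hi j)),
              Flat.NonSp ((k : ℝ) ^ (1 - δ / 4)) y ∧ 1 + (2 : ℝ) ^ s ≤ Flat.gZ 8 y ∧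
              Flat.gZ 8 y ≤ 1 + 2 * (2 : ℝ) ^ s ∧ ((2 : ℝ) ^ s ≤ (k : ℝ) ^ (4 : ℝ)) ∧
              ∀ l, gwalk (X l) y = 0) = ∅ := by
          rw [filter_eq_empty_iff]
          rintro X _ ⟨y, _, _, _, d, _⟩
          exact hs d
        rw [he, card_empty, Nat.cast_zero]
        positivity
    · rw [card_empty, Nat.cast_zero]; positivity
  have htot : (((univ : Finset (Fin k → Fin k → Fin 4)).filter fun X => ∃ w : Fin k → GG p,
      NS p ((k : ℝ) ^ (1 - δ / 4)) w ∧ 2 < Flat.gZ 8 w ∧ ∀ i, gwalk (X i) w = 0).card : ℝ) ≤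
      (k * (4 * k)) * ((3 * κ) ^ k * 4 ^ (k * k)) := by
    have h1 : (((univ : Finset (Fin k → Fin k → Fin 4)).filter fun X => ∃ w : Fin k → GG p,
      NS p ((k : ℝ) ^ (1 - δ / 4)) w ∧ 2 < Flat.gZ 8 w ∧ ∀ i, gwalk (X i) w = 0).card : ℝ) ≤
        ∑ z ∈ range k ×ˢ range (4 * k), ((F z.1 z.2).card : ℝ) := by
      exact_mod_cast (card_le_card hcov).trans card_biUnion_le
    refine h1.trans ((sum_le_sum fun z _ => hone z.1 z.2).trans (le_of_eq ?_))
    rw [sum_const, card_product, card_range, card_range, nsmul_eq_mul]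
    push_cast
    ring
  refine htot.trans ?_
  rw [← mul_assoc]
  refine mul_le_mul_of_nonneg_right ?_ (by positivity)
  -- numeric end: k * 4k * (3κ)^k ≤ k^(-c k)
  have h4k : (k * (4 * k) : ℝ) ≤ 4 ^ k := by
    have : ∀ m : ℕ, m * (4 * m) ≤ 4 ^ m ∧ 1 ≤ 4 ^ m := by
      intro m
      induction m with
      | zero => simp
      | succ m ih =>
        refine ⟨?_, Nat.one_le_pow _ _ (by norm_num)⟩
        rw [pow_succ]
        by_cases hm : m = 0
        · subst hm; norm_num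
        · have : 1 ≤ m := Nat.one_le_iff_ne_zero.2 hm
          nlinarith [ih.1]
    exact_mod_cast (this k).1
  calc (k * (4 * k) : ℝ) * (3 * κ) ^ k ≤ 4 ^ k * (3 * κ) ^ k :=
        mul_le_mul_of_nonneg_right h4k (by positivity)
    _ = (12 * κ) ^ k := by rw [← mul_pow]; ring
    _ ≤ ((k : ℝ) ^ δ * κ) ^ k := pow_le_pow_left₀ (by positivity)
        (mul_le_mul_of_nonneg_right hbig hκ0.le) k
    _ = (k : ℝ) ^ (-(c * k)) := by
        rw [hκ, ← Real.rpow_add hk0, ← Real.rpow_natCast, ← Real.rpow_mul hk0.le]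
        congr 1
        rw [hδ]; ring

end Vale.Agent.P160.Half.Mid.NF34
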