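import Vale.Agent.P160.Half.Good439
import Vale.Agent.P160.Half.Mid.MidStmt

/-! # P160, rate 1/2, MID primes, leaf L4: `StmtNF` from `StmtCountG` (event form of helper439). -/

namespace Vale.Agent.P160.Half.Mid.NF396

open Finset Vale.Agent.P160 Vale.Agent.P160.Half Vale.Agent.P160.Half.Mid
open Vale.Agent.P160.Half.Good439 Vale.Agent.P160.Half.Flat

/-- the law `Fin 4` is dominated by the law `Fin 8` -/
lemma domL_st : DomL (Om := Fin 4) (fun a => st a) := by
  intro G _ _ _ a y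
  have h : gpr 4 y 0 ≤ gpr 8 y 0 :=
    gpr_le_gpr (M := 4) (M' := 8) le_rfl (by norm_num) (id : Fin a → Fin a)
      Function.injective_id y 0
  have hG : (0 : ℝ) ≤ Fintype.card G := by positivity
  have h4 : gpr 4 y 0 = ((univ.filter fun x : Fin a → Fin 4 => ∑ c, st (x c) • y c = 0).card : ℝ) /
      (4 : ℝ) ^ a := by
    unfold gpr gwalk
    simp
  rw [h4, div_le_iff₀ (by positivity)] at h
  rw [gZ_eq, Fintype.card_fin]
  push_cast
  calc (Fintype.card G : ℝ) * _ ≤ Fintype.card G * (gpr 8 y 0 * 4 ^ a) :=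
        mul_le_mul_of_nonneg_left h hG
    _ = _ := by ring

/-- a nontrivial character is nontrivial wherever a suitable component is nonzero -/
lemma char_ne_one {κ : Type} [Fintype κ] [DecidableEq κ] (q : κ → ℕ) [∀ i, NeZero (q i)]
    (hq : ∀ i, (q i).Prime)
    (hinj : Function.Injective q) (ψ : AddChar (∀ i, ZMod (q i)) ℂ) (hψ : ψ ≠ 1) :
    ∃ j, ∀ v : ∀ i, ZMod (q i), v j ≠ 0 → ψ v ≠ 1 := by
  by_contra hcon
  push Not at hcon
  refine hψ ?_
  have h1 : ∀ j (x : ZMod (q j)), ψ (Pi.single j x) = 1 := by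
    intro j x
    obtain ⟨v, hv, hv1⟩ := hcon j
    have := Fact.mk (hq j)
    set N : ℕ := ∏ i ∈ univ.erase j, q i with hNd
    have hN : ((N : ℕ) : ZMod (q j)) ≠ 0 := by
      rw [Ne, ZMod.natCast_eq_zero_iff]
      intro hd
      obtain ⟨i, hi, hdi⟩ := (Prime.dvd_finsetProd_iff (hq j).prime _).1 hd
      have := (Nat.prime_dvd_prime_iff_eq (hq j) (hq i)).1 hdi
      exact (ne_of_mem_erase hi) (hinj this.symm)
    have hy : (N : ZMod (q j)) * v j ≠ 0 := mul_ne_zero hN hv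
    obtain ⟨m, hm⟩ : ∃ m : ℕ, (m : ZMod (q j)) * ((N : ZMod (q j)) * v j) = x := by
      refine ⟨(x / ((N : ZMod (q j)) * v j)).val, ?_⟩
      rw [ZMod.natCast_zmod_val, div_mul_cancel₀ _ hy]
    have h3 : Pi.single j x = (m * N) • v := by
      funext i
      by_cases h : i = j
      · subst h
        rw [Pi.single_eq_same, Pi.smul_apply, nsmul_eq_mul, ← hm]
        push_cast
        ring
      · rw [Pi.single_eq_of_ne h, Pi.smul_apply, nsmul_eq_mul]
        have h5 : q i ∣ m * N :=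
          Dvd.dvd.mul_left (dvd_prod_of_mem q (mem_erase.2 ⟨h, mem_univ i⟩)) m
        rw [(ZMod.natCast_eq_zero_iff _ _).2 h5, zero_mul]
    rw [h3, AddChar.map_nsmul_eq_pow, hv1, one_pow]
  ext v
  rw [← Finset.univ_sum_single v, addChar_sum]
  simp [h1]

/-- `NS` gives `NonSp` on every slot set. -/
lemma nonSp_of_NS {k t : ℕ} (p : Fin t → ℕ) (hp : ∀ j, (p j).Prime)
    (hinj : Function.Injective p) [∀ j, NeZero (p j)] (e : ℝ) (w : Fin k → GG p) (h : NS p e w) :
    NonSp e (fun c => (fun i : {x // x ∈ (univ : Finset (Fin t))} => w c i.1 :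
      GS p (univ : Finset (Fin t)))) := by
  classical
  intro ψ hψ
  obtain ⟨j, hj⟩ := char_ne_one (fun i : {x // x ∈ (univ : Finset (Fin t))} => p i.1)
    (fun i => hp i.1) (fun a b hab => Subtype.ext (hinj hab)) ψ hψ
  refine (h j.1).trans (Nat.cast_le.2 (card_le_card fun c hc => ?_))
  simp only [mem_filter, mem_univ, true_and] at hc ⊢
  exact hj _ hc

/-- `gZ` on the full slot set is at least `gZ` on the group -/
lemma gZ_full {k t : ℕ} (p : Fin t → ℕ) [∀ j, NeZero (p j)] (w : Fin k → GG p) :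
    gZ 8 w ≤ gZ 8 (fun c => (fun i : {x // x ∈ (univ : Finset (Fin t))} => w c i.1 :
      GS p (univ : Finset (Fin t)))) := by
  let φ : GG p →+ GS p (univ : Finset (Fin t)) :=
    { toFun := fun v i => v i.1
      map_zero' := rfl
      map_add' := fun _ _ => rfl }
  have h := gZ_map φ w
  have hc : Fintype.card (GS p (univ : Finset (Fin t))) = Fintype.card (GG p) := by
    rw [card_GS, Fintype.card_pi]
    simp only [ZMod.card]
  rw [hc] at h
  have h0 : (0 : ℝ) < Fintype.card (GG p) := by exact_mod_cast Fintype.card_pos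
  exact le_of_mul_le_mul_left h h0

lemma ev_exp (g : ℝ) (hg : 0 < g) : ∃ k₀ : ℕ, ∀ k : ℕ, k₀ ≤ k →
    (2 : ℝ) ^ ((k : ℝ) ^ (1 - g)) * (3 / 4) ^ k ≤ Real.exp (-(1 / 10) * k) := by
  have h1 : ∀ᶠ k : ℕ in Filter.atTop, (10 : ℝ) ≤ (k : ℝ) ^ g :=
    ((tendsto_rpow_atTop hg).comp tendsto_natCast_atTop_atTop).eventually_ge_atTop 10
  obtain ⟨k₀, hk₀⟩ := Filter.eventually_atTop.1 h1
  refine ⟨max k₀ 1, fun k hk => ?_⟩
  have h10 := hk₀ k (le_trans (le_max_left _ _) hk)
  have hk1 : (0 : ℝ) < k := by exact_mod_cast (le_trans (le_max_right _ _) hk)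
  have h2 : (k : ℝ) ^ (1 - g) ≤ k / 10 := by
    rw [Real.rpow_sub hk1, Real.rpow_one]
    exact div_le_div_of_nonneg_left hk1.le (by norm_num) h10
  have h3 : (2 : ℝ) ^ ((k : ℝ) ^ (1 - g)) ≤ Real.exp (k / 10) := by
    rw [Real.rpow_def_of_pos (by norm_num)]
    refine Real.exp_le_exp.2 ?_
    have hl : Real.log 2 ≤ 1 := by linarith [Real.log_two_lt_d9]
    have hp : 0 ≤ (k : ℝ) ^ (1 - g) := by positivity
    calc Real.log 2 * (k : ℝ) ^ (1 - g) ≤ 1 * (k : ℝ) ^ (1 - g) := by gcongr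
      _ ≤ k / 10 := by rw [one_mul]; exact h2
  have h4 : ((3 : ℝ) / 4) ^ k ≤ Real.exp (-(1 / 5) * k) := by
    have : (3 : ℝ) / 4 ≤ Real.exp (-(1 / 5)) := by
      have := Real.add_one_le_exp (-(1 / 5) : ℝ)
      linarith
    calc ((3 : ℝ) / 4) ^ k ≤ (Real.exp (-(1 / 5))) ^ k := by gcongr
      _ = _ := by rw [← Real.exp_nat_mul]; ring_nf
  calc _ ≤ Real.exp (k / 10) * Real.exp (-(1 / 5) * k) := by gcongr
    _ = _ := by rw [← Real.exp_add]; ring_nf

open Classical in
theorem stmtNF (hC : StmtCountG) : StmtNF := by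
  intro g c hg hc hc2
  set δ : ℝ := (1 / 2 - c) / 2 with hδd
  have hδ : 0 < δ := by rw [hδd]; linarith
  obtain ⟨k₁, h₁⟩ := stmtEvent hC δ (1 / 10) 4 hδ (by rw [hδd]; linarith) (by norm_num)
    (by norm_num)
  obtain ⟨k₂, h₂⟩ := ev_exp g hg
  refine ⟨δ / 4, by positivity, max (max k₁ k₂) 2, fun k hk t p _ hA => ?_⟩
  have hk₁ : k₁ ≤ k := le_trans (le_trans (le_max_left _ _) (le_max_left _ _)) hk
  have hk₂ : k₂ ≤ k := le_trans (le_trans (le_max_right _ _) (le_max_left _ _)) hk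
  have hk2 : 2 ≤ k := le_trans (le_max_right _ _) hk
  have hkr : (2 : ℝ) ≤ k := by exact_mod_cast hk2
  have hk0 : (0 : ℝ) < k := by linarith
  have ht : t ≤ k := by
    have h3 : (2 : ℝ) ^ (t : ℝ) ≤ (2 : ℝ) ^ ((k : ℝ) ^ (1 - g)) := by
      refine le_trans ?_ hA.prod
      rw [Real.rpow_natCast]
      push_cast
      calc (2 : ℝ) ^ t = ∏ _j : Fin t, (2 : ℝ) := by simp
        _ ≤ ∏ j : Fin t, (p j : ℝ) := by
          refine prod_le_prod (fun _ _ => by norm_num) fun j _ => ?_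
          exact hkr.trans (by exact_mod_cast hA.lo j)
    have h4 : (t : ℝ) ≤ (k : ℝ) ^ (1 - g) := (Real.rpow_le_rpow_left_iff (by norm_num)).1 h3
    have h5 : (k : ℝ) ^ (1 - g) ≤ k := by
      calc (k : ℝ) ^ (1 - g) ≤ (k : ℝ) ^ (1 : ℝ) :=
            Real.rpow_le_rpow_of_exponent_le (by linarith) (by linarith)
        _ = k := Real.rpow_one _
    exact_mod_cast h4.trans h5
  have key := h₁ k hk₁ k le_rfl (by linarith) (Fin t) p (by rw [Fintype.card_fin]; exact ht)
    (fun j => ⟨hA.prime j, hA.lo j, ?_⟩) ?_ (Fin 4) (fun a => st a) domL_st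
  · refine le_trans ?_ (key.trans (le_of_eq ?_))
    · rw [Nat.card_eq_fintype_card, Fintype.card_subtype]
      refine Nat.cast_le.2 (card_le_card fun X hX => ?_)
      simp only [mem_filter, mem_univ, true_and] at hX ⊢
      obtain ⟨w, hw1, hw2, hw3⟩ := hX
      refine ⟨univ, fun c => fun i => w c i.1, ?_, ?_, ?_⟩
      · exact nonSp_of_NS p hA.prime hA.inj _ w hw1
      · have h6 := gZ_full p w
        have h7 : 1 / (k : ℝ) ≤ 1 := by
          rw [div_le_one hk0]; linarith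
        linarith
      · intro i
        have h8 := hw3 i
        unfold gwalk at h8
        funext j
        have h9 := congrFun h8 j.1
        rw [Finset.sum_apply] at h9 ⊢
        exact h9
    · rw [Fintype.card_fin]
      push_cast
      rw [mul_comm]
      congr 1
      rw [← Real.rpow_natCast, ← Real.rpow_mul hk0.le]
      congr 1
      rw [hδd]
      ring
  · have h3 : (p j : ℝ) ≤ (k : ℝ) ^ 3 := by exact_mod_cast hA.hi j
    have h4 : (k : ℝ) ^ (4 : ℝ) = (k : ℝ) ^ 3 * k := by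
      rw [show (4 : ℝ) = ((4 : ℕ) : ℝ) by norm_num, Real.rpow_natCast]
      ring
    rw [h4]
    have h5 : (0 : ℝ) ≤ (k : ℝ) ^ 3 := by positivity
    nlinarith
  · refine le_trans ?_ (h₂ k hk₂)
    exact mul_le_mul_of_nonneg_right hA.prod (by positivity)

end Vale.Agent.P160.Half.Mid.NF396
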