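import Mathlib

/-! # P160, MID block (helper34's 11260), leaf L6: the pigeonhole step (0).

The primes of `[n, n^(2-η)]` are covered by a fixed family `B` of at most `n^2` blocks `(i, P)`, the primes of `P`
lie in `[n^(1+iδ), n^(1+iδ+δ)]`, `|P| ≤ 2 n^(iδ+3δ)`; a relation with many bad indices has at least
`c n^(1+2δ)` incidences in one block. -/

namespace Vale.Agent.P160.Half.Pig327

open Finset

/-- cutting a finite set of naturals into blocks of at most `t` elements -/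
theorem blocks (R : Finset ℕ) (t : ℕ) (ht : 0 < t) : ∃ P : ℕ → Finset ℕ,
    (∀ q, P q ⊆ R ∧ (P q).card ≤ t) ∧ ∀ p ∈ R, ∃ q < R.card / t + 1, p ∈ P q := by
  classical
  set idx : ℕ → ℕ := fun p => (R.filter (· < p)).card with hidx
  have hmono : ∀ p ∈ R, ∀ p' ∈ R, p < p' → idx p < idx p' := by
    intro p hp p' _ h
    refine card_lt_card ⟨fun x hx => ?_, fun hsub => ?_⟩
    · rw [mem_filter] at hx ⊢
      exact ⟨hx.1, hx.2.trans h⟩
    · have h1 : p ∈ R.filter (· < p') := mem_filter.2 ⟨hp, h⟩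
      exact absurd (mem_filter.1 (hsub h1)).2 (lt_irrefl p)
  have hinj : Set.InjOn idx R := by
    intro p hp p' hp' h
    rcases lt_trichotomy p p' with h1 | h1 | h1
    · exact absurd h (hmono p hp p' hp' h1).ne
    · exact h1
    · exact absurd h (hmono p' hp' p hp h1).ne'
  have hlt : ∀ p ∈ R, idx p < R.card := by
    intro p hp
    refine card_lt_card ⟨filter_subset _ _, fun hsub => ?_⟩
    exact absurd (mem_filter.1 (hsub hp)).2 (lt_irrefl p)
  refine ⟨fun q => R.filter fun p => idx p / t = q, fun q => ⟨filter_subset _ _, ?_⟩, fun p hp => ?_⟩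
  · have h1 : (R.filter fun p => idx p / t = q).card ≤ (Finset.Ico (q * t) (q * t + t)).card := by
      refine card_le_card_of_injOn idx ?_ ?_
      · intro p hp
        rw [Finset.mem_coe, mem_filter] at hp
        rw [Finset.mem_coe, mem_Ico, ← hp.2]
        have h2 := Nat.div_add_mod (idx p) t
        have h3 := Nat.mod_lt (idx p) ht
        rw [mul_comm (idx p / t) t]
        constructor <;> omega
      · intro p hp p' hp' h
        rw [Finset.mem_coe, mem_filter] at hp hp'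
        exact hinj hp.1 hp'.1 h
    rw [Nat.card_Ico, Nat.add_sub_cancel_left] at h1
    exact h1
  · refine ⟨idx p / t, ?_, mem_filter.2 ⟨hp, rfl⟩⟩
    have := Nat.div_le_div_right (c := t) (hlt p hp).le
    omega

/-- the incidences of `D` in the block `P` -/
noncomputable def inc {n : ℕ} (D : ℕ → Fin n → Prop) (P : Finset ℕ) : Finset (ℕ × Fin n) := by
  classical exact (P ×ˢ (univ : Finset (Fin n))).filter fun q => D q.1 q.2

theorem mem_inc {n : ℕ} {D : ℕ → Fin n → Prop} {P : Finset ℕ} {p : ℕ} {j : Fin n} :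
    (p, j) ∈ inc D P ↔ p ∈ P ∧ D p j := by
  classical
  unfold inc
  simp

/-- the primes of `[n, X]` -/
noncomputable def prs (n : ℕ) (X : ℝ) : Finset ℕ :=
  (range (⌊X⌋₊ + 1)).filter fun p => p.Prime ∧ n ≤ p

theorem mem_prs {n : ℕ} {X : ℝ} (hX : 0 ≤ X) {p : ℕ} :
    p ∈ prs n X ↔ p.Prime ∧ n ≤ p ∧ (p : ℝ) ≤ X := by
  unfold prs
  rw [mem_filter, mem_range, Nat.lt_succ_iff, Nat.le_floor_iff hX]
  tauto

open Classical in
/-- **Pigeonhole.** -/
theorem mid_pig (ε θ η δ : ℝ) (hε : 0 < ε) (hθ : 0 < θ) (hη : 0 < η) (hη1 : η < 1) (hδ : 0 < δ)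
    (hδ1 : 6 * δ ≤ η) :
    ∃ (c : ℝ) (m : ℕ), 0 < c ∧ ∃ n₀ : ℕ, ∀ n ≥ n₀,
    ∃ B : Finset (ℕ × Finset ℕ), (B.card : ℝ) ≤ (n : ℝ) ^ 2 ∧
      (∀ x ∈ B, x.1 < m ∧ 1 + (x.1 : ℝ) * δ ≤ 2 - η ∧
        (∀ p ∈ x.2, p.Prime ∧ (n : ℝ) ^ (1 + (x.1 : ℝ) * δ) ≤ p ∧ (p : ℝ) ≤ (n : ℝ) ^ (1 + (x.1 : ℝ) * δ + δ)) ∧
        (x.2.card : ℝ) ≤ 2 * (n : ℝ) ^ ((x.1 : ℝ) * δ + 3 * δ)) ∧
      ∀ D : ℕ → Fin n → Prop,
        θ * n < ((univ.filter fun j : Fin n =>
          ε * n < (((prs n ((n : ℝ) ^ (2 - η))).filter fun p => D p j).card : ℝ)).card : ℝ) →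
        ∃ x ∈ B, c * (n : ℝ) ^ (1 + 2 * δ) ≤ ((inc D x.2).card : ℝ) := by
  set m : ℕ := ⌊(1 - η) / δ⌋₊ + 1 with hm
  have hm0 : (0 : ℝ) < m := by rw [hm]; positivity
  refine ⟨θ * ε / (3 * m), m, by positivity, 3 * m + 2, fun n hn => ?_⟩
  have hn2 : 2 ≤ n := by omega
  have hn1 : (1 : ℝ) < n := by exact_mod_cast (by omega : 1 < n)
  have hn0 : (0 : ℝ) < n := by linarith
  have hnm : (3 * m : ℝ) ≤ n := by exact_mod_cast (by omega : 3 * m ≤ n)
  set Y : ℝ := (n : ℝ) ^ (2 - η) with hY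
  have hY0 : 0 ≤ Y := Real.rpow_nonneg hn0.le _
  -- ranges and blocks
  set R : ℕ → Finset ℕ := fun i => (prs n Y).filter fun p =>
    (n : ℝ) ^ (1 + (i : ℝ) * δ) ≤ p ∧ (p : ℝ) ≤ (n : ℝ) ^ (1 + (i : ℝ) * δ + δ) with hR
  set t : ℕ → ℕ := fun i => ⌈(n : ℝ) ^ ((i : ℝ) * δ + 3 * δ)⌉₊ with ht
  have ht1 : ∀ i : ℕ, 1 ≤ (n : ℝ) ^ ((i : ℝ) * δ + 3 * δ) := fun i =>
    Real.one_le_rpow hn1.le (by positivity)
  have ht0 : ∀ i, 0 < t i := fun i => Nat.ceil_pos.2 (by linarith [ht1 i])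
  have ht2 : ∀ i, (t i : ℝ) ≤ 2 * (n : ℝ) ^ ((i : ℝ) * δ + 3 * δ) := fun i => by
    have h1 := (Nat.ceil_lt_add_one (by linarith [ht1 i] : 0 ≤ (n : ℝ) ^ ((i : ℝ) * δ + 3 * δ))).le
    have h2 := ht1 i
    simp only [ht]
    linarith
  have ht3 : ∀ i : ℕ, (n : ℝ) ^ ((i : ℝ) * δ + 3 * δ) ≤ t i := fun i => Nat.le_ceil _
  choose P hP hPc using fun i => blocks (R i) (t i) (ht0 i)
  set K : ℕ → ℕ := fun i => (R i).card / t i + 1 with hK
  -- number of blocks
  have hRc : ∀ i, ((R i).card : ℝ) ≤ (n : ℝ) ^ (1 + (i : ℝ) * δ + δ) := by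
    intro i
    have h1 : R i ⊆ Finset.Ioc 0 ⌊(n : ℝ) ^ (1 + (i : ℝ) * δ + δ)⌋₊ := by
      intro p hp
      simp only [hR, mem_filter] at hp
      rw [mem_Ioc]
      refine ⟨(((mem_prs hY0).1 hp.1).1).pos, Nat.le_floor hp.2.2⟩
    have h2 := card_le_card h1
    rw [Nat.card_Ioc, Nat.sub_zero] at h2
    calc ((R i).card : ℝ) ≤ (⌊(n : ℝ) ^ (1 + (i : ℝ) * δ + δ)⌋₊ : ℝ) := by exact_mod_cast h2
      _ ≤ _ := Nat.floor_le (Real.rpow_nonneg hn0.le _)
  have hexp1 : 1 ≤ (n : ℝ) ^ (1 - 2 * δ) := Real.one_le_rpow hn1.le (by linarith)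
  have hKc : ∀ i, (K i : ℝ) ≤ 3 * (n : ℝ) ^ (1 - 2 * δ) := by
    intro i
    simp only [hK]
    push_cast
    have h1 : (((R i).card / t i : ℕ) : ℝ) ≤ (R i).card / t i := Nat.cast_div_le
    have h2 : ((R i).card : ℝ) / t i ≤ (n : ℝ) ^ (1 + (i : ℝ) * δ + δ) / (n : ℝ) ^ ((i : ℝ) * δ + 3 * δ) := by
      have h3 := ht1 i
      have h4 : (0 : ℝ) < (n : ℝ) ^ ((i : ℝ) * δ + 3 * δ) := by linarith
      exact div_le_div₀ (Real.rpow_nonneg hn0.le _) (hRc i) h4 (ht3 i)
    rw [← Real.rpow_sub hn0] at h2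
    have h5 : 1 + (i : ℝ) * δ + δ - ((i : ℝ) * δ + 3 * δ) = 1 - 2 * δ := by ring
    rw [h5] at h2
    linarith
  set I : Finset ℕ := (range m).filter fun i => 1 + (i : ℝ) * δ ≤ 2 - η with hI
  set B : Finset (ℕ × Finset ℕ) := I.biUnion fun i => (range (K i)).image fun q => (i, P i q) with hB
  have hBc : (B.card : ℝ) ≤ 3 * m * (n : ℝ) ^ (1 - 2 * δ) := by
    have h1 : B.card ≤ ∑ i ∈ I, K i := by
      refine card_biUnion_le.trans (sum_le_sum fun i _ => ?_)
      exact card_image_le.trans (by rw [card_range])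
    calc (B.card : ℝ) ≤ ∑ i ∈ I, (K i : ℝ) := by exact_mod_cast h1
      _ ≤ ∑ _i ∈ I, 3 * (n : ℝ) ^ (1 - 2 * δ) := sum_le_sum fun i _ => hKc i
      _ = I.card * (3 * (n : ℝ) ^ (1 - 2 * δ)) := by rw [sum_const, nsmul_eq_mul]
      _ ≤ m * (3 * (n : ℝ) ^ (1 - 2 * δ)) := by
          refine mul_le_mul_of_nonneg_right ?_ (by linarith)
          have : I.card ≤ m := (card_filter_le _ _).trans (by rw [card_range])
          exact_mod_cast this
      _ = _ := by ring
  refine ⟨B, ?_, ?_, ?_⟩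
  · refine hBc.trans ?_
    have h1 : (n : ℝ) ^ (1 - 2 * δ) ≤ (n : ℝ) ^ (1 : ℝ) :=
      Real.rpow_le_rpow_of_exponent_le hn1.le (by linarith)
    rw [Real.rpow_one] at h1
    calc 3 * (m : ℝ) * (n : ℝ) ^ (1 - 2 * δ) ≤ n * n :=
          mul_le_mul hnm h1 (by linarith) hn0.le
      _ = _ := by ring
  · rintro x hx
    simp only [hB, mem_biUnion, mem_image] at hx
    obtain ⟨i, hi, q, _, rfl⟩ := hx
    simp only [hI, mem_filter, mem_range] at hi
    refine ⟨hi.1, hi.2, fun p hp => ?_, ?_⟩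
    · have h1 := (hP i q).1 hp
      simp only [hR, mem_filter] at h1
      exact ⟨((mem_prs hY0).1 h1.1).1, h1.2⟩
    · exact (by exact_mod_cast (hP i q).2 : ((P i q).card : ℝ) ≤ t i).trans (ht2 i)
  · intro D hD
    by_contra hcon
    push Not at hcon
    set S := univ.filter fun j : Fin n =>
      ε * n < (((prs n Y).filter fun p => D p j).card : ℝ) with hS
    -- many incidences
    have h1 : θ * n * (ε * n) < ((inc D (prs n Y)).card : ℝ) := by
      have h2 : ∑ j ∈ S, ((prs n Y).filter fun p => D p j).card ≤ (inc D (prs n Y)).card := by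
        have h3 : ∀ j ∈ S, ((prs n Y).filter fun p => D p j).card
            = ((inc D (prs n Y)).filter fun q => q.2 = j).card := by
          intro j _
          refine card_bij (fun p _ => (p, j)) ?_ ?_ ?_
          · intro p hp
            rw [mem_filter] at hp ⊢
            exact ⟨mem_inc.2 hp, rfl⟩
          · intro p _ p' _ h
            exact (Prod.ext_iff.1 h).1
          · rintro ⟨p, j'⟩ hp
            rw [mem_filter] at hp
            obtain ⟨h4, rfl⟩ := hp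
            exact ⟨p, mem_filter.2 (mem_inc.1 h4), rfl⟩
        rw [sum_congr rfl h3]
        have h5 := card_eq_sum_card_fiberwise (f := fun q : ℕ × Fin n => q.2) (s := inc D (prs n Y))
          (t := univ) (fun _ _ => mem_univ _)
        rw [h5]
        exact sum_le_sum_of_subset (subset_univ _)
      have h6 : (S.card : ℝ) * (ε * n) ≤ ∑ j ∈ S, (((prs n Y).filter fun p => D p j).card : ℝ) := by
        rw [← nsmul_eq_mul, ← sum_const]
        refine sum_le_sum fun j hj => ?_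
        simp only [hS, mem_filter] at hj
        exact hj.2.le
      have h7 : ∑ j ∈ S, (((prs n Y).filter fun p => D p j).card : ℝ) ≤ ((inc D (prs n Y)).card : ℝ) := by
        exact_mod_cast h2
      have h8 : θ * n * (ε * n) < (S.card : ℝ) * (ε * n) := mul_lt_mul_of_pos_right hD (by positivity)
      linarith
    -- the blocks cover
    have h9 : (inc D (prs n Y)).card ≤ ∑ x ∈ B, (inc D x.2).card := by
      refine (card_le_card ?_).trans card_biUnion_le
      rintro ⟨p, j⟩ hpj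
      obtain ⟨hp, hD'⟩ := mem_inc.1 hpj
      have hp' := (mem_prs hY0).1 hp
      have hp0 : (0 : ℝ) < p := by exact_mod_cast hp'.1.pos
      set y : ℝ := Real.log p / Real.log n with hy
      have hl : 0 < Real.log n := Real.log_pos hn1
      have hpy : (n : ℝ) ^ y = p := by
        rw [Real.rpow_def_of_pos hn0, hy, mul_div_cancel₀ _ hl.ne', Real.exp_log hp0]
      have hy1 : 1 ≤ y := by
        rw [hy, le_div_iff₀ hl, one_mul]
        exact Real.log_le_log hn0 (by exact_mod_cast hp'.2.1)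
      have hy2 : y ≤ 2 - η := by
        rw [hy, div_le_iff₀ hl]
        have := Real.log_le_log hp0 hp'.2.2
        rwa [hY, Real.log_rpow hn0] at this
      set i : ℕ := ⌊(y - 1) / δ⌋₊ with hi
      have hyδ : 0 ≤ (y - 1) / δ := div_nonneg (by linarith) hδ.le
      have hi1 : (i : ℝ) * δ ≤ y - 1 := by
        have := Nat.floor_le hyδ
        rwa [le_div_iff₀ hδ] at this
      have hi2 : y - 1 < (i : ℝ) * δ + δ := by
        have := Nat.lt_floor_add_one ((y - 1) / δ)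
        rw [div_lt_iff₀ hδ] at this
        rw [hi]; linarith
      have him : i < m := by
        rw [hm, Nat.lt_succ_iff, hi]
        exact Nat.floor_le_floor (div_le_div_of_nonneg_right (by linarith) hδ.le)
      have hpR : p ∈ R i := by
        simp only [hR, mem_filter]
        refine ⟨hp, ?_, ?_⟩
        · rw [← hpy]
          exact Real.rpow_le_rpow_of_exponent_le hn1.le (by linarith)
        · rw [← hpy]
          exact Real.rpow_le_rpow_of_exponent_le hn1.le (by linarith)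
      obtain ⟨q, hq, hpq⟩ := hPc i p hpR
      rw [mem_biUnion]
      refine ⟨(i, P i q), ?_, mem_inc.2 ⟨hpq, hD'⟩⟩
      simp only [hB, mem_biUnion, mem_image]
      refine ⟨i, ?_, q, mem_range.2 hq, rfl⟩
      simp only [hI, mem_filter, mem_range]
      exact ⟨him, by linarith⟩
    have h10 : ((inc D (prs n Y)).card : ℝ) ≤ B.card * (θ * ε / (3 * m) * (n : ℝ) ^ (1 + 2 * δ)) := by
      calc ((inc D (prs n Y)).card : ℝ) ≤ ∑ x ∈ B, ((inc D x.2).card : ℝ) := by exact_mod_cast h9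
        _ ≤ ∑ _x ∈ B, θ * ε / (3 * m) * (n : ℝ) ^ (1 + 2 * δ) := sum_le_sum fun x hx => (hcon x hx).le
        _ = _ := by rw [sum_const, nsmul_eq_mul]
    have h11 : (B.card : ℝ) * (θ * ε / (3 * m) * (n : ℝ) ^ (1 + 2 * δ)) ≤ θ * n * (ε * n) := by
      have h12 : (n : ℝ) ^ (1 - 2 * δ) * (n : ℝ) ^ (1 + 2 * δ) = (n : ℝ) ^ 2 := by
        rw [← Real.rpow_add hn0, show (1 - 2 * δ + (1 + 2 * δ) : ℝ) = 2 by ring]
        exact Real.rpow_natCast _ 2
      calc (B.card : ℝ) * (θ * ε / (3 * m) * (n : ℝ) ^ (1 + 2 * δ))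
          ≤ 3 * m * (n : ℝ) ^ (1 - 2 * δ) * (θ * ε / (3 * m) * (n : ℝ) ^ (1 + 2 * δ)) :=
            mul_le_mul_of_nonneg_right hBc (by positivity)
        _ = (3 * m) * (θ * ε / (3 * m)) * ((n : ℝ) ^ (1 - 2 * δ) * (n : ℝ) ^ (1 + 2 * δ)) := by ring
        _ = θ * ε * (n : ℝ) ^ 2 := by
            rw [h12, mul_div_cancel₀ _ (by positivity : (3 * m : ℝ) ≠ 0)]
        _ = _ := by ring
    linarith

end Vale.Agent.P160.Half.Pig327
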