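import Mathlib

/-! # P160, rate 1/2, middle primes: the pigeonhole (0) of note 11260 (helper748) -/

namespace Vale.Agent.P160.Half.Mid.P748

open Finset

/-- a finite set is covered by few blocks of at most `t` elements -/
theorem blocks (R : Finset ℕ) (t : ℕ) (ht : 0 < t) : ∃ 𝓑 : Finset (Finset ℕ),
    (∀ B ∈ 𝓑, B ⊆ R ∧ B.card ≤ t) ∧ 𝓑.card ≤ R.card / t + 1 ∧ ∀ p ∈ R, ∃ B ∈ 𝓑, p ∈ B := by
  classical
  let e := R.equivFin
  let blk : ℕ → Finset ℕ := fun k =>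
    Finset.image (fun p : R => (p : ℕ)) (R.attach.filter (fun p => ((e p : ℕ) / t = k)))
  refine ⟨(range (R.card / t + 1)).image blk, ?_, ?_, ?_⟩
  · intro B hB
    obtain ⟨k, -, rfl⟩ := mem_image.1 hB
    refine ⟨?_, ?_⟩
    · intro p hp
      obtain ⟨q, -, rfl⟩ := mem_image.1 hp
      exact q.2
    · refine card_image_le.trans ?_
      have h1 : (R.attach.filter (fun p => ((e p : ℕ) / t = k))).card ≤ (Finset.Ico (k * t) (k * t + t)).card := by
        refine Finset.card_le_card_of_injOn (fun p => (e p : ℕ)) ?_ ?_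
        · intro p hp
          have h2 := (mem_filter.1 hp).2
          rw [coe_Ico, Set.mem_Ico]
          have h3 := Nat.div_add_mod (e p : ℕ) t
          have h4 := Nat.mod_lt (e p : ℕ) ht
          rw [h2] at h3
          constructor
          · show k * t ≤ (e p : ℕ)
            rw [mul_comm k t]; omega
          · show (e p : ℕ) < k * t + t
            rw [mul_comm k t]; omega
        · intro p _ q _ hpq
          exact e.injective (Fin.ext hpq)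
      rw [Nat.card_Ico, Nat.add_sub_cancel_left] at h1
      exact h1
  · refine card_image_le.trans ?_
    rw [card_range]
  · intro p hp
    refine ⟨blk ((e ⟨p, hp⟩ : ℕ) / t), mem_image_of_mem _ (mem_range.2 ?_), ?_⟩
    · have h5 : (e ⟨p, hp⟩ : ℕ) < R.card := (e ⟨p, hp⟩).2
      have := Nat.div_le_div_right (c := t) h5.le
      omega
    · exact mem_image.2 ⟨⟨p, hp⟩, mem_filter.2 ⟨mem_attach _ _, rfl⟩, rfl⟩

theorem sum_biUnion_le' {α : Type*} [DecidableEq α] (s : Finset α) (f : α → Finset ℕ) (z : ℕ → ℝ)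
    (hz : ∀ p, 0 ≤ z p) : ∑ p ∈ s.biUnion f, z p ≤ ∑ a ∈ s, ∑ p ∈ f a, z p := by
  classical
  induction s using Finset.induction_on with
  | empty => simp
  | insert a s ha ih =>
    rw [biUnion_insert, sum_insert ha]
    have h := sum_union_inter (s₁ := f a) (s₂ := s.biUnion f) (f := z)
    have h2 : 0 ≤ ∑ p ∈ f a ∩ s.biUnion f, z p := sum_nonneg fun p _ => hz p
    linarith

/-- the primes in `[n^b, n^(b+δ))` -/
noncomputable def rg (n : ℕ) (b δ : ℝ) : Finset ℕ :=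
  (range ⌈(n : ℝ) ^ (b + δ)⌉₊).filter fun p => p.Prime ∧ (n : ℝ) ^ b ≤ p

theorem mem_rg {n : ℕ} {b δ : ℝ} {p : ℕ} :
    p ∈ rg n b δ ↔ (p : ℝ) < (n : ℝ) ^ (b + δ) ∧ p.Prime ∧ (n : ℝ) ^ b ≤ p := by
  unfold rg
  rw [mem_filter, mem_range, Nat.lt_ceil]

theorem card_rg (n : ℕ) (b δ : ℝ) : ((rg n b δ).card : ℝ) ≤ (n : ℝ) ^ (b + δ) := by
  have h1 : rg n b δ ⊆ Finset.Ico 1 ⌈(n : ℝ) ^ (b + δ)⌉₊ := by
    intro p hp
    have h2 := mem_filter.1 hp
    exact Finset.mem_Ico.2 ⟨h2.2.1.one_le, mem_range.1 h2.1⟩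
  have h3 := card_le_card h1
  rw [Nat.card_Ico] at h3
  have h4 : (0 : ℝ) ≤ (n : ℝ) ^ (b + δ) := by positivity
  have h5 := Nat.ceil_lt_add_one h4
  by_cases h0 : ⌈(n : ℝ) ^ (b + δ)⌉₊ = 0
  · rw [h0] at h3
    have : (rg n b δ).card = 0 := by omega
    rw [this]; exact_mod_cast h4
  · have h6 : ((rg n b δ).card : ℝ) ≤ ((⌈(n : ℝ) ^ (b + δ)⌉₊ - 1 : ℕ) : ℝ) := by exact_mod_cast h3
    rw [Nat.cast_sub (by omega)] at h6
    push_cast at h6
    linarith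

/-- block size of the range with exponent `b` -/
noncomputable def tt (n : ℕ) (b δ : ℝ) : ℕ := ⌈(n : ℝ) ^ (b - 1 + 3 * δ)⌉₊

/-- number of ranges -/
noncomputable def mm (η δ : ℝ) : ℕ := ⌊(1 - η) / δ⌋₊ + 1

theorem exists_range (n : ℕ) (hn : 2 ≤ n) (η δ : ℝ) (hδ : 0 < δ) (p : ℕ) (hp : p.Prime)
    (h1 : n ≤ p) (h2 : (p : ℝ) < (n : ℝ) ^ (2 - η)) :
    ∃ i < mm η δ, p ∈ rg n (1 + i * δ) δ := by
  have hn0 : (0 : ℝ) < n := by positivity
  have hn1 : (1 : ℝ) < n := by exact_mod_cast hn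
  have hp0 : (0 : ℝ) < p := by exact_mod_cast hp.pos
  set u := Real.logb n p with hu
  have hpu : (p : ℝ) = (n : ℝ) ^ u := (Real.rpow_logb hn0 hn1.ne' hp0).symm
  have hu1 : 1 ≤ u := by
    rw [hu, Real.le_logb_iff_rpow_le hn1 hp0, Real.rpow_one]
    exact_mod_cast h1
  have hu2 : u < 2 - η := by
    rw [hu, Real.logb_lt_iff_lt_rpow hn1 hp0]
    exact h2
  have h3 : 0 ≤ (u - 1) / δ := div_nonneg (by linarith) hδ.le
  refine ⟨⌊(u - 1) / δ⌋₊, ?_, ?_⟩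
  · unfold mm
    have : ⌊(u - 1) / δ⌋₊ ≤ ⌊(1 - η) / δ⌋₊ := by
      apply Nat.floor_le_floor
      apply div_le_div_of_nonneg_right _ hδ.le
      linarith
    omega
  · have h4 := Nat.floor_le h3
    have h5 := Nat.lt_floor_add_one ((u - 1) / δ)
    rw [le_div_iff₀ hδ] at h4
    rw [div_lt_iff₀ hδ] at h5
    rw [mem_rg, hpu]
    refine ⟨?_, hp, ?_⟩
    · apply Real.rpow_lt_rpow_of_exponent_lt hn1
      nlinarith
    · apply Real.rpow_le_rpow_of_exponent_le hn1.le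
      linarith

/-- **Pigeonhole (0)**: a fixed family of blocks; many incidences give a block with many
incidences. -/
theorem mid_pig (ε η δ : ℝ) (hε : 0 < ε) (hδ : 0 < δ) (hδ4 : δ < 1 / 4) :
    ∃ n₀ : ℕ, ∀ n ≥ n₀, ∃ 𝓑 : ℕ → Finset (Finset ℕ),
      (∀ i, ∀ B ∈ 𝓑 i, B ⊆ rg n (1 + i * δ) δ ∧ B.card ≤ tt n (1 + i * δ) δ) ∧
      (∀ i, ((𝓑 i).card : ℝ) ≤ 2 * n) ∧
      ∀ z : ℕ → ℕ, ε * (n : ℝ) ^ 2 ≤
        ∑ p ∈ (range ⌈(n : ℝ) ^ (2 - η)⌉₊).filter (fun p => p.Prime ∧ n ≤ p), (z p : ℝ) →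
      ∃ i < mm η δ, ∃ B ∈ 𝓑 i,
        ε / (2 * mm η δ) * (tt n (1 + i * δ) δ * (n : ℝ) ^ (2 - (1 + i * δ) - δ)) ≤ ∑ p ∈ B, (z p : ℝ) := by
  classical
  have hev : ∀ᶠ n : ℕ in Filter.atTop, (4 : ℝ) ≤ (n : ℝ) ^ (1 - 2 * δ) :=
    (tendsto_rpow_atTop (by linarith : (0 : ℝ) < 1 - 2 * δ)).comp tendsto_natCast_atTop_atTop
      |>.eventually_ge_atTop 4
  obtain ⟨n₁, hn₁⟩ := Filter.eventually_atTop.1 hev
  refine ⟨max n₁ 2, fun n hn => ?_⟩
  have hn2 : 2 ≤ n := (le_max_right _ _).trans hn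
  have h4 := hn₁ n ((le_max_left _ _).trans hn)
  have hn0 : (0 : ℝ) < n := by positivity
  have hn1 : (1 : ℝ) ≤ n := by exact_mod_cast (by omega : 1 ≤ n)
  have htpos : ∀ i : ℕ, 0 < tt n (1 + i * δ) δ := by
    intro i
    unfold tt
    exact Nat.ceil_pos.2 (by positivity)
  choose 𝓑 h𝓑1 h𝓑2 h𝓑3 using fun i : ℕ => blocks (rg n (1 + i * δ) δ) (tt n (1 + i * δ) δ) (htpos i)
  -- size of the block family
  have hcard : ∀ i : ℕ, ((𝓑 i).card : ℝ) * tt n (1 + i * δ) δ ≤ 2 * (n : ℝ) ^ (1 + i * δ + δ) := by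
    intro i
    have ht0 : (0 : ℝ) < tt n (1 + i * δ) δ := by exact_mod_cast htpos i
    have h5 : ((𝓑 i).card : ℝ) ≤ (rg n (1 + i * δ) δ).card / tt n (1 + i * δ) δ + 1 := by
      have h6 : ((𝓑 i).card : ℝ) ≤ (((rg n (1 + i * δ) δ).card / tt n (1 + i * δ) δ : ℕ) : ℝ) + 1 := by
        exact_mod_cast h𝓑2 i
      exact h6.trans (by linarith [Nat.cast_div_le (α := ℝ) (m := (rg n (1 + i * δ) δ).card) (n := tt n (1 + i * δ) δ)])
    have h7 : (tt n (1 + i * δ) δ : ℝ) ≤ (n : ℝ) ^ (1 + i * δ + δ) := by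
      have hx : (1 : ℝ) ≤ (n : ℝ) ^ ((1 + i * δ) - 1 + 3 * δ) := by
        apply Real.one_le_rpow hn1
        have : (0 : ℝ) ≤ i * δ := by positivity
        linarith
      have h8 : (tt n (1 + i * δ) δ : ℝ) ≤ 2 * (n : ℝ) ^ ((1 + i * δ) - 1 + 3 * δ) := by
        unfold tt
        have := Nat.ceil_lt_add_one (a := (n : ℝ) ^ ((1 + i * δ) - 1 + 3 * δ)) (by positivity)
        linarith
      refine h8.trans ?_
      have h9 : (n : ℝ) ^ (1 + i * δ + δ) = (n : ℝ) ^ (1 - 2 * δ) * (n : ℝ) ^ ((1 + i * δ) - 1 + 3 * δ) := by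
        rw [← Real.rpow_add hn0]; congr 1; ring
      rw [h9]
      apply mul_le_mul_of_nonneg_right (by linarith) (by positivity)
    have h10 := card_rg n (1 + i * δ) δ
    calc ((𝓑 i).card : ℝ) * tt n (1 + i * δ) δ ≤
          ((rg n (1 + i * δ) δ).card / tt n (1 + i * δ) δ + 1) * tt n (1 + i * δ) δ :=
          mul_le_mul_of_nonneg_right h5 ht0.le
      _ = (rg n (1 + i * δ) δ).card + tt n (1 + i * δ) δ := by field_simp
      _ ≤ _ := by linarith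
  refine ⟨𝓑, fun i B hB => h𝓑1 i B hB, fun i => ?_, fun z hz => ?_⟩
  · -- at most 2 n blocks
    have ht0 : (0 : ℝ) < tt n (1 + i * δ) δ := by exact_mod_cast htpos i
    have h11 := hcard i
    have h12 : (n : ℝ) ^ ((1 + i * δ) - 1 + 3 * δ) ≤ tt n (1 + i * δ) δ := by
      unfold tt; exact Nat.le_ceil _
    have h13 : (n : ℝ) ^ (1 + i * δ + δ) ≤ n * (n : ℝ) ^ ((1 + i * δ) - 1 + 3 * δ) := by
      have : (n : ℝ) * (n : ℝ) ^ ((1 + i * δ) - 1 + 3 * δ) = (n : ℝ) ^ (1 + ((1 + i * δ) - 1 + 3 * δ)) := by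
        rw [Real.rpow_add hn0 1, Real.rpow_one]
      rw [this]
      apply Real.rpow_le_rpow_of_exponent_le hn1
      linarith
    have h14 : ((𝓑 i).card : ℝ) * tt n (1 + i * δ) δ ≤ (2 * n) * tt n (1 + i * δ) δ := by
      calc _ ≤ 2 * (n : ℝ) ^ (1 + i * δ + δ) := h11
        _ ≤ 2 * (n * (n : ℝ) ^ ((1 + i * δ) - 1 + 3 * δ)) := by linarith
        _ ≤ 2 * (n * tt n (1 + i * δ) δ) := by
            apply mul_le_mul_of_nonneg_left _ (by norm_num)
            exact mul_le_mul_of_nonneg_left h12 hn0.le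
        _ = _ := by ring
    exact le_of_mul_le_mul_right h14 ht0
  · -- the pigeonhole
    set m := mm η δ with hm
    have hm0 : (0 : ℝ) < m := by rw [hm]; unfold mm; positivity
    by_contra hcon
    push Not at hcon
    have hsum : ∑ p ∈ (range ⌈(n : ℝ) ^ (2 - η)⌉₊).filter (fun p => p.Prime ∧ n ≤ p), (z p : ℝ) ≤
        ∑ i ∈ range m, ∑ B ∈ 𝓑 i, ∑ p ∈ B, (z p : ℝ) := by
      have hsub : (range ⌈(n : ℝ) ^ (2 - η)⌉₊).filter (fun p => p.Prime ∧ n ≤ p) ⊆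
          (range m).biUnion fun i => (𝓑 i).biUnion fun B => B := by
        intro p hp
        have hp1 := mem_filter.1 hp
        obtain ⟨i, hi, hpi⟩ := exists_range n hn2 η δ hδ p hp1.2.1 hp1.2.2
          (Nat.lt_ceil.1 (mem_range.1 hp1.1))
        obtain ⟨B, hB, hpB⟩ := h𝓑3 i p hpi
        exact mem_biUnion.2 ⟨i, mem_range.2 hi, mem_biUnion.2 ⟨B, hB, hpB⟩⟩
      refine (sum_le_sum_of_subset_of_nonneg hsub fun _ _ _ => by positivity).trans ?_
      refine (sum_biUnion_le' (range m) (fun i => (𝓑 i).biUnion fun B => B) (fun p => (z p : ℝ))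
        fun p => by positivity).trans ?_
      apply sum_le_sum
      intro i _
      exact sum_biUnion_le' (𝓑 i) (fun B => B) (fun p => (z p : ℝ)) fun p => by positivity
    have hbound : ∀ i ∈ range m, ∑ B ∈ 𝓑 i, ∑ p ∈ B, (z p : ℝ) < ε * (n : ℝ) ^ 2 / m := by
      intro i hi
      have ht0 : (0 : ℝ) < tt n (1 + i * δ) δ := by exact_mod_cast htpos i
      have h15 := hcard i
      have h17 : (n : ℝ) ^ 2 = (n : ℝ) ^ (2 - (1 + i * δ) - δ) * (n : ℝ) ^ (1 + i * δ + δ) := by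
        rw [← Real.rpow_add hn0, ← Real.rpow_natCast]; congr 1; push_cast; ring
      have h18 : (0 : ℝ) < (n : ℝ) ^ (2 - (1 + i * δ) - δ) := by positivity
      by_cases hne : (𝓑 i).Nonempty
      · have h16 : ∑ B ∈ 𝓑 i, ∑ p ∈ B, (z p : ℝ) <
            ∑ B ∈ 𝓑 i, ε / (2 * m) * (tt n (1 + i * δ) δ * (n : ℝ) ^ (2 - (1 + i * δ) - δ)) :=
          sum_lt_sum_of_nonempty hne fun B hB => hcon i (mem_range.1 hi) B hB
        refine h16.trans_le ?_
        rw [sum_const, nsmul_eq_mul]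
        calc ((𝓑 i).card : ℝ) * (ε / (2 * m) * (tt n (1 + i * δ) δ * (n : ℝ) ^ (2 - (1 + i * δ) - δ)))
            = (((𝓑 i).card : ℝ) * tt n (1 + i * δ) δ) * (ε / (2 * m) * (n : ℝ) ^ (2 - (1 + i * δ) - δ)) := by ring
          _ ≤ (2 * (n : ℝ) ^ (1 + i * δ + δ)) * (ε / (2 * m) * (n : ℝ) ^ (2 - (1 + i * δ) - δ)) :=
              mul_le_mul_of_nonneg_right h15 (by positivity)
          _ = ε * (n : ℝ) ^ 2 / m := by rw [h17]; field_simp
      · rw [not_nonempty_iff_eq_empty.1 hne, sum_empty]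
        positivity
    have hmpos : 0 < m := by rw [hm]; unfold mm; omega
    have h19 : ∑ i ∈ range m, ∑ B ∈ 𝓑 i, ∑ p ∈ B, (z p : ℝ) < ∑ i ∈ range m, ε * (n : ℝ) ^ 2 / m :=
      sum_lt_sum_of_nonempty ⟨0, mem_range.2 hmpos⟩ hbound
    rw [sum_const, card_range, nsmul_eq_mul, mul_div_cancel₀ _ hm0.ne'] at h19
    linarith

end Vale.Agent.P160.Half.Mid.P748
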