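import Vale.Agent.P160.Half.Mid.MidStmt
import Vale.Agent.P160.Half.Mid.Pig767

/-! # P160, rate 1/2, MID: the choice of a block of primes (`StmtPig`), from `Pig767.pigeon` -/


namespace Vale.Agent.P160.Half.Mid.Pig673

open Finset Filter Vale.Agent.P160.Half.Mid Vale.Agent.P160.Half.Mid.Pig767

theorem stmtPig : StmtPig := by
  classical
  intro ε θ η hε hθ hη hη1
  set δ : ℝ := η / 6 with hδd
  have hδ : 0 < δ := by positivity
  have hδ1 : δ < 1 / 6 := by rw [hδd]; linarith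
  obtain ⟨m, n₁, hm, hpig⟩ := pigeon ε θ η hε hθ hη hη1.le
  -- large n: n^δ is large compared with 8 log2 n
  have hlog : ∀ᶠ n : ℕ in atTop, 8 * Real.logb 2 n ≤ (n : ℝ) ^ δ := by
    have h1 : (fun x : ℝ => Real.log x) =o[atTop] fun x => x ^ δ := isLittleO_log_rpow_atTop hδ
    have h2 := (h1.comp_tendsto tendsto_natCast_atTop_atTop).bound
      (show (0 : ℝ) < Real.log 2 / 8 by positivity)
    filter_upwards [h2, eventually_ge_atTop 1] with n hn hn1
    have hn0 : (1 : ℝ) ≤ n := by exact_mod_cast hn1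
    simp only [Function.comp_apply, Real.norm_eq_abs] at hn
    rw [abs_of_nonneg (Real.log_nonneg hn0), abs_of_nonneg (by positivity)] at hn
    rw [Real.logb]
    have hl2 : 0 < Real.log 2 := Real.log_pos one_lt_two
    rw [← mul_div_assoc, div_le_iff₀ hl2]
    linarith
  have hlog2 : ∀ᶠ n : ℕ in atTop, (8 : ℝ) ≤ (n : ℝ) ^ δ :=
    ((tendsto_rpow_atTop hδ).comp tendsto_natCast_atTop_atTop).eventually_ge_atTop _
  obtain ⟨n₂, hn₂⟩ := eventually_atTop.1 (hlog.and hlog2)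
  refine ⟨δ / 4, by positivity, by linarith, max (max n₁ n₂) 2, fun n hn => ?_⟩
  have hnn1 : n₁ ≤ n := (le_max_left _ _).trans ((le_max_left _ _).trans hn)
  have hnn2 : n₂ ≤ n := (le_max_right _ _).trans ((le_max_left _ _).trans hn)
  have hnn3 : 2 ≤ n := (le_max_right _ _).trans hn
  have hn1 : (1 : ℝ) < n := by exact_mod_cast (by omega : 1 < n)
  have hn0 : (0 : ℝ) < n := by linarith
  obtain ⟨hL, h8⟩ := hn₂ n hnn2
  obtain ⟨BB, hBB, hB, hZ⟩ := hpig n hnn1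
  have hexp : ∀ {a b : ℝ}, a ≤ b → (n : ℝ) ^ a ≤ (n : ℝ) ^ b := fun h =>
    Real.rpow_le_rpow_of_exponent_le hn1.le h
  -- card bound of a block
  have hcard : ∀ x ∈ BB, (x.2.card : ℝ) ≤ 2 * (n : ℝ) ^ (be δ x.1 - 1 + 3 * δ) := by
    intro x hx
    have h1 := (hB x hx).2.2
    have h2 : (1 : ℝ) ≤ (n : ℝ) ^ (be δ x.1 - 1 + 3 * δ) := by
      refine Real.one_le_rpow hn1.le ?_
      have := (hm x.1 (hB x hx).1).1
      linarith
    linarith
  refine ⟨BB.image Prod.snd, ?_, ?_, ?_⟩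
  · have h1 : (BB.image Prod.snd).card ≤ n ^ 2 := card_image_le.trans hBB
    have h2 : n ^ 2 ≤ n ^ 4 := Nat.pow_le_pow_right (by omega) (by norm_num)
    exact_mod_cast h1.trans h2
  · intro P hP
    obtain ⟨x, hx, rfl⟩ := mem_image.1 hP
    have hxm := hm x.1 (hB x hx).1
    have hq : ∀ q ∈ x.2, q.Prime ∧ n ≤ q ∧ q ≤ n ^ 2 := by
      intro q hq
      obtain ⟨h1, h2, h3⟩ := (hB x hx).2.1 q hq
      refine ⟨h1, ?_, ?_⟩
      · have h4 : (n : ℝ) ^ (1 : ℝ) ≤ (n : ℝ) ^ be δ x.1 := hexp hxm.1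
        rw [Real.rpow_one] at h4
        exact_mod_cast h4.trans h2
      · have h4 : (n : ℝ) ^ (be δ x.1 + δ) ≤ (n : ℝ) ^ (2 : ℝ) := hexp (by linarith [hxm.2])
        have h5 : (q : ℝ) ≤ (n : ℝ) ^ (2 : ℝ) := h3.le.trans h4
        rw [show (2 : ℝ) = ((2 : ℕ) : ℝ) by norm_num, Real.rpow_natCast] at h5
        exact_mod_cast h5
    refine ⟨hq, ?_⟩
    -- product bound
    have h1 : ((∏ q ∈ x.2, q : ℕ) : ℝ) ≤ ((n : ℝ) ^ 2) ^ x.2.card := by
      push_cast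
      calc ∏ q ∈ x.2, (q : ℝ) ≤ ∏ _q ∈ x.2, (n : ℝ) ^ 2 :=
            prod_le_prod (fun _ _ => Nat.cast_nonneg _) fun q hq' => by exact_mod_cast (hq q hq').2.2
        _ = ((n : ℝ) ^ 2) ^ x.2.card := by rw [prod_const]
    refine h1.trans ?_
    have h2 : ((n : ℝ) ^ 2) ^ x.2.card = (2 : ℝ) ^ (Real.logb 2 n * (2 * x.2.card)) := by
      rw [Real.rpow_mul (by norm_num), Real.rpow_logb (by norm_num) (by norm_num) hn0, ← pow_mul]
      rw [show (2 * (x.2.card : ℝ)) = ((2 * x.2.card : ℕ) : ℝ) by push_cast; ring, Real.rpow_natCast]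
    rw [h2]
    refine Real.rpow_le_rpow_of_exponent_le one_le_two ?_
    have h3 := hcard x hx
    have hL0 : 0 ≤ Real.logb 2 n := Real.logb_nonneg one_lt_two hn1.le
    have h4 : (n : ℝ) ^ (be δ x.1 - 1 + 3 * δ) ≤ (n : ℝ) ^ (1 - 2 * δ) := hexp (by linarith [hxm.2])
    calc Real.logb 2 n * (2 * x.2.card) ≤ Real.logb 2 n * (2 * (2 * (n : ℝ) ^ (1 - 2 * δ))) := by
          refine mul_le_mul_of_nonneg_left ?_ hL0
          linarith
      _ ≤ (n : ℝ) ^ δ * (n : ℝ) ^ (1 - 2 * δ) := by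
          have h5 : (0 : ℝ) ≤ (n : ℝ) ^ (1 - 2 * δ) := by positivity
          nlinarith
      _ = (n : ℝ) ^ (1 - δ) := by
          rw [← Real.rpow_add hn0]
          congr 1
          ring
      _ ≤ (n : ℝ) ^ (1 - 2 * (δ / 4)) := hexp (by linarith)
  · intro Z hZ'
    obtain ⟨x, hx, hsum⟩ := hZ Z hZ'
    have hxm := hm x.1 (hB x hx).1
    refine ⟨x.2, mem_image.2 ⟨x, hx, rfl⟩, ?_, ?_⟩
    · have h1 : (n : ℝ) ^ (1 + 2 * (δ / 4)) ≤ (n : ℝ) ^ (1 + δ) := hexp (by linarith)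
      have h2 := h1.trans hsum
      push_cast at h2 ⊢
      exact h2
    · intro q hq
      obtain ⟨h1, h2, h3⟩ := (hB x hx).2.1 q hq
      have h4 := hcard x hx
      have h5 : (n : ℝ) ^ (1 + δ) ≤ ∑ r ∈ x.2, ((Z r).card : ℝ) := by
        push_cast at hsum
        exact hsum
      calc (n : ℝ) ^ (2 * (δ / 4)) * (n * x.2.card)
          ≤ (n : ℝ) ^ (2 * (δ / 4)) * (n * (2 * (n : ℝ) ^ (be δ x.1 - 1 + 3 * δ))) := by gcongr
        _ = 2 * ((n : ℝ) ^ (2 * (δ / 4)) * (n : ℝ) ^ (1 : ℝ) * (n : ℝ) ^ (be δ x.1 - 1 + 3 * δ)) := by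
            rw [Real.rpow_one]; ring
        _ = 2 * (n : ℝ) ^ (be δ x.1 + (7 / 2) * δ) := by
            rw [← Real.rpow_add hn0, ← Real.rpow_add hn0]
            congr 2
            ring
        _ ≤ (n : ℝ) ^ δ * (n : ℝ) ^ (be δ x.1 + (7 / 2) * δ) := by
            refine mul_le_mul_of_nonneg_right (by linarith) (by positivity)
        _ = (n : ℝ) ^ (be δ x.1 + (9 / 2) * δ) := by
            rw [← Real.rpow_add hn0]
            congr 1
            ring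
        _ ≤ (n : ℝ) ^ (1 + δ + be δ x.1) := hexp (by linarith)
        _ = (n : ℝ) ^ (1 + δ) * (n : ℝ) ^ be δ x.1 := by rw [← Real.rpow_add hn0]
        _ ≤ (∑ r ∈ x.2, ((Z r).card : ℝ)) * q := by
            refine mul_le_mul h5 h2 (by positivity) ?_
            exact sum_nonneg fun r _ => Nat.cast_nonneg _

end Vale.Agent.P160.Half.Mid.Pig673
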