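import Vale.Agent.P160.Sparse
import Vale.Agent.P160.Half.Corank

set_option linter.unusedSectionVars false

/-! # P160, half rate, MID (1): sparse kernel vectors modulo the primes of a finite set (helper446) -/

open Finset Matrix

namespace Vale.Agent.P160.Half.Mid446

open Vale.Agent.P160

variable {α : Type*} [Fintype α] [DecidableEq α]

theorem matZ_mulVec {R : Type*} [CommRing R] (b : Sym2 α → Bool) (u : α → R) :
    (matZ b).map (Int.cast : ℤ → R) *ᵥ u = smul2 b u := by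
  funext i
  simp only [Matrix.mulVec, dotProduct, Matrix.map_apply, smul2]
  refine Finset.sum_congr rfl fun j _ => ?_
  have h : matZ b i j = if b s(i, j) then 1 else 0 := rfl
  rw [h]
  split_ifs <;> simp

/-- a fixed nonzero kernel vector -/
theorem card_ker_fixed {R : Type*} [CommRing R] [DecidableEq R] (u : α → R) (hu : u ≠ 0) :
    (univ.filter fun b : Sym2 α → Bool => smul2 b u = 0).card * 2 ^ Fintype.card α ≤ 2 ^ Fintype.card (Sym2 α) := by
  obtain ⟨i₁, hi⟩ := Function.ne_iff.1 hu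
  have h1 : (univ.filter fun b : Sym2 α → Bool => smul2 b u = 0).card ≤
      (univ : Finset ({e : Sym2 α // i₁ ∉ e} → Bool)).card := by
    refine Finset.card_le_card_of_injOn (fun b e => b e.1) (fun _ _ => Finset.mem_coe.2 (mem_univ _)) ?_
    intro b hb b' hb' hbb
    rw [Finset.mem_coe, mem_filter] at hb hb'
    exact smul2_injOn u i₁ hi b b' (hb.2.trans hb'.2.symm) (fun e he => congrFun hbb ⟨e, he⟩)
  rw [card_univ, Fintype.card_fun, Fintype.card_bool] at h1
  calc _ ≤ 2 ^ Fintype.card {e : Sym2 α // i₁ ∉ e} * 2 ^ Fintype.card α := Nat.mul_le_mul_right _ h1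
    _ = 2 ^ (Fintype.card {e : Sym2 α // i₁ ∉ e} + Fintype.card α) := by rw [pow_add]
    _ ≤ _ := Nat.pow_le_pow_right (by norm_num) (card_sym2_split i₁)

/-- number of sparse vectors -/
theorem card_sparse_vec (p : ℕ) [NeZero p] (s : ℕ) (hs : s ≤ Fintype.card α) :
    (univ.filter fun u : α → ZMod p => (univ.filter fun i => u i ≠ 0).card ≤ s).card ≤
      (Fintype.card α).choose s * p ^ s := by
  classical
  have hsub : (univ.filter fun u : α → ZMod p => (univ.filter fun i => u i ≠ 0).card ≤ s) ⊆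
      ((univ : Finset α).powersetCard s).biUnion fun T =>
        Fintype.piFinset fun i => if i ∈ T then (univ : Finset (ZMod p)) else {0} := by
    intro u hu
    have h1 := (mem_filter.1 hu).2
    obtain ⟨T, hT1, hT2, hT3⟩ := Finset.exists_subsuperset_card_eq (Finset.subset_univ (univ.filter fun i => u i ≠ 0)) h1
      (by rwa [card_univ])
    rw [mem_biUnion]
    refine ⟨T, mem_powersetCard.2 ⟨subset_univ _, hT3⟩, ?_⟩
    rw [Fintype.mem_piFinset]
    intro i
    split_ifs with hi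
    · exact mem_univ _
    · rw [mem_singleton]
      by_contra hne
      exact hi (hT1 (mem_filter.2 ⟨mem_univ _, hne⟩))
  refine (card_le_card hsub).trans (card_biUnion_le.trans ?_)
  calc _ ≤ ∑ _T ∈ (univ : Finset α).powersetCard s, p ^ s := by
        refine Finset.sum_le_sum fun T hT => ?_
        rw [Fintype.card_piFinset]
        have : ∀ i, (if i ∈ T then (univ : Finset (ZMod p)) else {0}).card = if i ∈ T then p else 1 := by
          intro i
          split_ifs
          · rw [card_univ, ZMod.card]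
          · rw [card_singleton]
        simp only [this]
        rw [Finset.prod_ite_mem, Finset.univ_inter, Finset.prod_const, (mem_powersetCard.1 hT).2]
    _ = _ := by rw [Finset.sum_const, card_powersetCard, card_univ, smul_eq_mul]

/-- the sparse event for one prime -/
def SpE (s : ℕ) (p : ℕ) (b : Sym2 α → Bool) : Prop :=
  ∃ u : α → ZMod p, u ≠ 0 ∧ (univ.filter fun i => u i ≠ 0).card ≤ s ∧ (matZ b).map (Int.cast : ℤ → ZMod p) *ᵥ u = 0

theorem card_SpE (p : ℕ) (hp : p.Prime) (s : ℕ) (hs : s ≤ Fintype.card α) :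
    Nat.card {b : Sym2 α → Bool // SpE s p b} * 2 ^ Fintype.card α ≤
      ((Fintype.card α).choose s * p ^ s) * 2 ^ Fintype.card (Sym2 α) := by
  classical
  have : NeZero p := ⟨hp.ne_zero⟩
  rw [Nat.card_eq_fintype_card, Fintype.card_subtype]
  set A : Finset (α → ZMod p) := univ.filter fun u : α → ZMod p => (univ.filter fun i => u i ≠ 0).card ≤ s with hA
  set f : (α → ZMod p) → Finset (Sym2 α → Bool) := fun u => univ.filter fun b : Sym2 α → Bool => smul2 b u = 0 with hf
  have h1 : (univ.filter fun b : Sym2 α → Bool => SpE s p b) ⊆ (A.filter fun u => u ≠ 0).biUnion f := by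
    intro b hb
    obtain ⟨u, hu, hus, h⟩ := (mem_filter.1 hb).2
    rw [mem_biUnion]
    refine ⟨u, mem_filter.2 ⟨mem_filter.2 ⟨mem_univ _, hus⟩, hu⟩, mem_filter.2 ⟨mem_univ _, ?_⟩⟩
    rw [← matZ_mulVec]
    exact h
  have h2 : (univ.filter fun b : Sym2 α → Bool => SpE s p b).card ≤ ∑ u ∈ A.filter fun u => u ≠ 0, (f u).card :=
    (card_le_card h1).trans card_biUnion_le
  have h3 : (∑ u ∈ A.filter fun u => u ≠ 0, (f u).card) * 2 ^ Fintype.card α ≤
      (A.filter fun u => u ≠ 0).card * 2 ^ Fintype.card (Sym2 α) := by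
    rw [Finset.sum_mul, ← smul_eq_mul, ← Finset.sum_const]
    exact Finset.sum_le_sum fun u hu => card_ker_fixed u (mem_filter.1 hu).2
  have h4 : (A.filter fun u => u ≠ 0).card ≤ (Fintype.card α).choose s * p ^ s :=
    (card_le_card (filter_subset _ _)).trans (card_sparse_vec p s hs)
  calc _ ≤ (∑ u ∈ A.filter fun u => u ≠ 0, (f u).card) * 2 ^ Fintype.card α := Nat.mul_le_mul_right _ h2
    _ ≤ _ := h3
    _ ≤ _ := Nat.mul_le_mul_right _ h4

/-- **sparse event** -/
theorem sparse_event (P : Finset ℕ) (hP : ∀ p ∈ P, p.Prime) (Y s : ℕ) (hY : ∀ p ∈ P, p ≤ Y) (hs : s ≤ Fintype.card α) :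
    Nat.card {b : Sym2 α → Bool // ∃ p ∈ P, SpE s p b} * 2 ^ Fintype.card α ≤
      P.card * ((Fintype.card α).choose s * Y ^ s) * 2 ^ Fintype.card (Sym2 α) := by
  classical
  rw [Nat.card_eq_fintype_card, Fintype.card_subtype]
  set f : ℕ → Finset (Sym2 α → Bool) := fun p => univ.filter fun b : Sym2 α → Bool => SpE s p b with hf
  have hsub : (univ.filter fun b : Sym2 α → Bool => ∃ p ∈ P, SpE s p b) ⊆ P.biUnion f := by
    intro b hb
    obtain ⟨p, hp, h⟩ := (mem_filter.1 hb).2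
    exact mem_biUnion.2 ⟨p, hp, mem_filter.2 ⟨mem_univ _, h⟩⟩
  have h2 : (univ.filter fun b : Sym2 α → Bool => ∃ p ∈ P, SpE s p b).card ≤ ∑ p ∈ P, (f p).card :=
    (card_le_card hsub).trans card_biUnion_le
  have h3 : (∑ p ∈ P, (f p).card) * 2 ^ Fintype.card α ≤
      ∑ _p ∈ P, ((Fintype.card α).choose s * Y ^ s) * 2 ^ Fintype.card (Sym2 α) := by
    rw [Finset.sum_mul]
    refine Finset.sum_le_sum fun p hp => ?_
    have h := card_SpE (α := α) p (hP p hp) s hs
    rw [Nat.card_eq_fintype_card, Fintype.card_subtype] at h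
    refine h.trans (Nat.mul_le_mul_right _ (Nat.mul_le_mul_left _ (Nat.pow_le_pow_left (hY p hp) s)))
  rw [Finset.sum_const, smul_eq_mul] at h3
  calc _ ≤ (∑ p ∈ P, (f p).card) * 2 ^ Fintype.card α := Nat.mul_le_mul_right _ h2
    _ ≤ _ := h3
    _ = _ := by ring

/-- the growth fact -/
theorem growth (C : ℕ) {ε δ : ℝ} (hε : 0 < ε) (hδ : 0 < δ) : ∀ᶠ n : ℕ in Filter.atTop,
    ((n : ℝ) ^ C + 1) * ((n : ℝ) ^ ((C + 1) * ⌊(n : ℝ) ^ (1 - δ)⌋₊)) ≤ (2 : ℝ) ^ (ε * n) := by
  have h1 : ∀ᶠ x : ℝ in Filter.atTop, Real.log x ≤ (ε * Real.log 2 / (2 * (C + 1))) * x ^ δ := by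
    have h := (isLittleO_log_rpow_atTop hδ).def (c := ε * Real.log 2 / (2 * (C + 1))) (by
      have := Real.log_pos (by norm_num : (1 : ℝ) < 2)
      positivity)
    filter_upwards [h, Filter.eventually_ge_atTop (1 : ℝ)] with x hx hx1
    rw [Real.norm_of_nonneg (Real.log_nonneg hx1), Real.norm_of_nonneg (by positivity)] at hx
    exact hx
  have h2 : ∀ᶠ x : ℝ in Filter.atTop, Real.log x ≤ (ε * Real.log 2 / (4 * (C + 1))) * x := by
    have h := (Real.isLittleO_log_id_atTop).def (c := ε * Real.log 2 / (4 * (C + 1))) (by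
      have := Real.log_pos (by norm_num : (1 : ℝ) < 2)
      positivity)
    filter_upwards [h, Filter.eventually_ge_atTop (1 : ℝ)] with x hx hx1
    rw [Real.norm_of_nonneg (Real.log_nonneg hx1), Real.norm_of_nonneg (by simp only [id]; linarith)] at hx
    exact hx
  have h3 : ∀ᶠ x : ℝ in Filter.atTop, (4 : ℝ) / ε ≤ x := Filter.eventually_ge_atTop _
  filter_upwards [tendsto_natCast_atTop_atTop.eventually h1, tendsto_natCast_atTop_atTop.eventually h2,
    tendsto_natCast_atTop_atTop.eventually h3, Filter.eventually_ge_atTop 1] with n a1 a2 a3 a4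
  have hn : (1 : ℝ) ≤ n := by exact_mod_cast a4
  have hn0 : (0 : ℝ) < n := by linarith
  have hl2 := Real.log_pos (by norm_num : (1 : ℝ) < 2)
  have hln : 0 ≤ Real.log (n : ℝ) := Real.log_nonneg hn
  set s := ⌊(n : ℝ) ^ (1 - δ)⌋₊ with hs
  have hsle : (s : ℝ) ≤ (n : ℝ) ^ (1 - δ) := Nat.floor_le (by positivity)
  have hA : ((n : ℝ) ^ C + 1) ≤ 2 * (n : ℝ) ^ C := by
    have := one_le_pow₀ hn (n := C)
    linarith
  have hlog : Real.log (2 * (n : ℝ) ^ C * (n : ℝ) ^ ((C + 1) * s)) ≤ Real.log ((2 : ℝ) ^ (ε * n)) := by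
    rw [Real.log_mul (by positivity) (by positivity), Real.log_mul (by norm_num) (by positivity), Real.log_pow,
      Real.log_pow, Real.log_rpow (by norm_num)]
    push_cast
    have e1 : (C : ℝ) * Real.log n ≤ ε * Real.log 2 / 4 * n := by
      calc (C : ℝ) * Real.log n ≤ (C + 1) * Real.log n := by nlinarith
        _ ≤ (C + 1) * ((ε * Real.log 2 / (4 * (C + 1))) * n) := mul_le_mul_of_nonneg_left a2 (by positivity)
        _ = _ := by field_simp
    have e2 : ((C : ℝ) + 1) * s * Real.log n ≤ ε * Real.log 2 / 2 * n := by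
      calc ((C : ℝ) + 1) * s * Real.log n ≤ ((C : ℝ) + 1) * (n : ℝ) ^ (1 - δ) * ((ε * Real.log 2 / (2 * (C + 1))) * (n : ℝ) ^ δ) := by
            gcongr
        _ = ε * Real.log 2 / 2 * ((n : ℝ) ^ (1 - δ) * (n : ℝ) ^ δ) := by field_simp
        _ = _ := by
            rw [← Real.rpow_add hn0]
            norm_num
    have e3 : Real.log 2 ≤ ε * Real.log 2 / 4 * n := by
      have : 1 ≤ ε / 4 * n := by
        rw [div_le_iff₀ hε] at a3
        linarith
      nlinarith
    linarith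
  have hfin := (Real.log_le_log_iff (by positivity) (by positivity)).1 hlog
  refine le_trans (mul_le_mul_of_nonneg_right hA (by positivity)) hfin

/-- **sparse event, asymptotic form** -/
theorem sparse_small (C : ℕ) {ε δ : ℝ} (hε : 0 < ε) (hδ : 0 < δ) : ∃ n₀ : ℕ, ∀ n ≥ n₀,
    (Nat.card {b : Sym2 (Fin n) → Bool // ∃ p, p.Prime ∧ p ≤ n ^ C ∧ SpE ⌊(n : ℝ) ^ (1 - δ)⌋₊ p b} : ℝ) ≤
      (2 : ℝ) ^ (-((1 - ε) * n)) * 2 ^ Fintype.card (Sym2 (Fin n)) := by
  obtain ⟨n₀, h₀⟩ := Filter.eventually_atTop.1 ((growth C hε hδ).and (Filter.eventually_ge_atTop 1))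
  refine ⟨n₀, fun n hn => ?_⟩
  obtain ⟨hg, hn1⟩ := h₀ n hn
  have hn1' : (1 : ℝ) ≤ n := by exact_mod_cast hn1
  set s := ⌊(n : ℝ) ^ (1 - δ)⌋₊ with hs
  have hsn : s ≤ n := by
    refine Nat.floor_le_of_le ?_
    calc (n : ℝ) ^ (1 - δ) ≤ (n : ℝ) ^ (1 : ℝ) := Real.rpow_le_rpow_of_exponent_le hn1' (by linarith)
      _ = n := Real.rpow_one _
  set P := (range (n ^ C + 1)).filter Nat.Prime with hP
  have h := sparse_event (α := Fin n) P (fun p hp => (mem_filter.1 hp).2) (n ^ C) s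
    (fun p hp => by have := mem_range.1 (mem_filter.1 hp).1; omega) (by rwa [Fintype.card_fin])
  rw [Fintype.card_fin] at h
  have hPc : P.card ≤ n ^ C + 1 := (card_filter_le _ _).trans_eq (card_range _)
  have hcard : Nat.card {b : Sym2 (Fin n) → Bool // ∃ p, p.Prime ∧ p ≤ n ^ C ∧ SpE s p b} =
      Nat.card {b : Sym2 (Fin n) → Bool // ∃ p ∈ P, SpE s p b} := by
    refine Nat.card_congr (Equiv.subtypeEquivRight fun b => ?_)
    constructor
    · rintro ⟨p, h1, h2, h3⟩
      exact ⟨p, mem_filter.2 ⟨mem_range.2 (by omega), h1⟩, h3⟩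
    · rintro ⟨p, h1, h3⟩
      have := mem_range.1 (mem_filter.1 h1).1
      exact ⟨p, (mem_filter.1 h1).2, by omega, h3⟩
  rw [hcard]
  set N := Nat.card {b : Sym2 (Fin n) → Bool // ∃ p ∈ P, SpE s p b} with hN
  have h1 : (N : ℝ) * 2 ^ n ≤ (((n : ℝ) ^ C + 1) * ((n : ℝ) ^ ((C + 1) * s))) * 2 ^ Fintype.card (Sym2 (Fin n)) := by
    have h2 : N * 2 ^ n ≤ ((n ^ C + 1) * (n ^ s * (n ^ C) ^ s)) * 2 ^ Fintype.card (Sym2 (Fin n)) :=
      h.trans (Nat.mul_le_mul_right _ (Nat.mul_le_mul hPc (Nat.mul_le_mul_right _ (Nat.choose_le_pow n s))))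
    have h3 : n ^ s * (n ^ C) ^ s = n ^ ((C + 1) * s) := by
      rw [← mul_pow, ← pow_succ', ← pow_mul]
    rw [h3] at h2
    exact_mod_cast h2
  have h4 : (N : ℝ) * 2 ^ n ≤ (2 : ℝ) ^ (ε * n) * 2 ^ Fintype.card (Sym2 (Fin n)) :=
    h1.trans (mul_le_mul_of_nonneg_right hg (by positivity))
  have h5 : (2 : ℝ) ^ (-((1 - ε) * n)) = (2 : ℝ) ^ (ε * n) / 2 ^ n := by
    rw [← Real.rpow_natCast 2 n, ← Real.rpow_sub (by norm_num)]
    congr 1
    ring
  rw [h5, div_mul_eq_mul_div, le_div_iff₀ (by positivity)]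
  exact h4

end Vale.Agent.P160.Half.Mid446
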