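import Vale.Agent.P160.Half.Corank

/-! # P160, half rate, MID L1 (helper216): no sparse kernel vector modulo small primes -/

open Finset Matrix

namespace Vale.Agent.P160.Half.Mid216

variable {α : Type*} [Fintype α] [DecidableEq α]

/-- a fixed vector with support `T`: the bits of one column outside `T` are determined -/
theorem card_fixed {p : ℕ} [Fact p.Prime] (u : α → ZMod p) (T : Finset α)
    (hT : ∀ i, u i ≠ 0 ↔ i ∈ T) (j0 : α) (hj0 : j0 ∈ T) :
    (univ.filter fun b : Sym2 α → Bool => (matZ b).map (Int.cast : ℤ → ZMod p) *ᵥ u = 0).card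
      * 2 ^ (Fintype.card α - T.card) ≤ 2 ^ Fintype.card (Sym2 α) := by
  classical
  have hu0 : u j0 ≠ 0 := (hT j0).2 hj0
  -- the determined coordinates
  set J : Finset (Sym2 α) := (univ \ T).image fun i => s(i, j0) with hJ
  have hJc : J.card = Fintype.card α - T.card := by
    rw [hJ, card_image_of_injOn, card_sdiff_of_subset (subset_univ T), card_univ]
    intro i hi i' hi' h
    have h' : s(i, j0) = s(i', j0) := h
    rcases Sym2.eq_iff.1 h' with ⟨h1, _⟩ | ⟨h1, h2⟩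
    · exact h1
    · exfalso
      rw [mem_coe, mem_sdiff] at hi
      exact hi.2 (h1 ▸ hj0)
  -- restriction to the other coordinates is injective
  set W := (univ.filter fun b : Sym2 α → Bool =>
    (matZ b).map (Int.cast : ℤ → ZMod p) *ᵥ u = 0) with hW
  have hinj : Set.InjOn (fun (b : Sym2 α → Bool) (x : {x : Sym2 α // x ∉ J}) => b x) W := by
    intro b hb b' hb' h
    have hb2 : (matZ b).map (Int.cast : ℤ → ZMod p) *ᵥ u = 0 := by
      rw [mem_coe, hW, mem_filter] at hb; exact hb.2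
    have hb2' : (matZ b').map (Int.cast : ℤ → ZMod p) *ᵥ u = 0 := by
      rw [mem_coe, hW, mem_filter] at hb'; exact hb'.2
    have hoff : ∀ x, x ∉ J → b x = b' x := fun x hx => congrFun h ⟨x, hx⟩
    funext x
    by_cases hx : x ∈ J
    · rw [hJ, mem_image] at hx
      obtain ⟨i, hi, rfl⟩ := hx
      rw [mem_sdiff] at hi
      have e1 := congrFun hb2 i
      have e2 := congrFun hb2' i
      simp only [Matrix.mulVec, dotProduct, Matrix.map_apply, Pi.zero_apply] at e1 e2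
      rw [← Finset.add_sum_erase _ _ (mem_univ j0)] at e1 e2
      have e3 : ∑ x ∈ univ.erase j0, ((matZ b i x : ℤ) : ZMod p) * u x =
          ∑ x ∈ univ.erase j0, ((matZ b' i x : ℤ) : ZMod p) * u x := by
        refine sum_congr rfl fun x hx => ?_
        rw [mem_erase] at hx
        by_cases hxT : x ∈ T
        · have : s(i, x) ∉ J := by
            rw [hJ, mem_image]
            rintro ⟨i', hi', h'⟩
            rw [mem_sdiff] at hi'
            rcases Sym2.eq_iff.1 h' with ⟨_, h2⟩ | ⟨h1, _⟩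
            · exact hx.1 h2.symm
            · exact hi'.2 (h1 ▸ hxT)
          rw [matZ, matZ, hoff _ this]
        · have : u x = 0 := by
            by_contra hne
            exact hxT ((hT x).1 hne)
          rw [this, mul_zero, mul_zero]
      rw [e3] at e1
      have e4 : ((matZ b i j0 : ℤ) : ZMod p) * u j0 = ((matZ b' i j0 : ℤ) : ZMod p) * u j0 :=
        add_right_cancel (e1.trans e2.symm)
      have e5 := mul_right_cancel₀ hu0 e4
      rw [matZ, matZ] at e5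
      cases hbb : b s(i, j0) <;> cases hbb' : b' s(i, j0) <;> simp [hbb, hbb'] at e5 ⊢
    · exact hoff x hx
  have hcard : W.card ≤ 2 ^ (Fintype.card (Sym2 α) - J.card) := by
    have h1 := card_le_card_of_injOn (t := (univ : Finset ({x : Sym2 α // x ∉ J} → Bool))) _
      (fun _ _ => mem_coe.2 (mem_univ _)) hinj
    rw [card_univ, Fintype.card_fun, Fintype.card_bool] at h1
    have h2 : Fintype.card {x : Sym2 α // x ∉ J} = Fintype.card (Sym2 α) - J.card := by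
      rw [Fintype.card_subtype_compl (fun x => x ∈ J), Fintype.card_coe]
    rwa [h2] at h1
  calc W.card * 2 ^ (Fintype.card α - T.card)
      ≤ 2 ^ (Fintype.card (Sym2 α) - J.card) * 2 ^ J.card := by
        rw [hJc] at hcard ⊢; exact Nat.mul_le_mul_right _ hcard
    _ = 2 ^ Fintype.card (Sym2 α) := by
        rw [← pow_add, Nat.sub_add_cancel (card_le_univ J)]

/-- the number of sets of at most `s` elements -/
theorem card_small_le (s : ℕ) :
    (univ.filter fun T : Finset α => T.card ≤ s).card ≤ (Fintype.card α + 1) ^ s := by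
  classical
  have : (univ.filter fun T : Finset α => T.card ≤ s) ⊆
      (univ : Finset (Fin s → Option α)).image
        (fun f => univ.filter fun a : α => ∃ k, f k = some a) := by
    intro T hT
    rw [mem_filter] at hT
    rw [mem_image]
    have e := T.equivFin
    refine ⟨fun k => if h : (k : ℕ) < T.card then some (e.symm ⟨k, h⟩ : α) else none,
      mem_univ _, ?_⟩
    ext a
    simp only [mem_filter, mem_univ, true_and]
    constructor
    · rintro ⟨k, hk⟩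
      split_ifs at hk with h
      · rw [← Option.some.inj hk]; exact (e.symm ⟨k, h⟩).2
    · intro ha
      have hlt : ((e ⟨a, ha⟩ : Fin T.card) : ℕ) < s := lt_of_lt_of_le (e ⟨a, ha⟩).2 hT.2
      refine ⟨⟨(e ⟨a, ha⟩ : Fin T.card), hlt⟩, ?_⟩
      have h1 : ((⟨((e ⟨a, ha⟩ : Fin T.card) : ℕ), hlt⟩ : Fin s) : ℕ) < T.card :=
        (e ⟨a, ha⟩).2
      rw [dif_pos h1]
      congr 1
      have : (⟨((⟨((e ⟨a, ha⟩ : Fin T.card) : ℕ), hlt⟩ : Fin s) : ℕ), h1⟩ : Fin T.card)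
          = e ⟨a, ha⟩ := Fin.ext rfl
      rw [this, Equiv.symm_apply_apply]
  refine (card_le_card this).trans (card_image_le.trans ?_)
  rw [card_univ, Fintype.card_fun, Fintype.card_option, Fintype.card_fin]

open Classical in
/-- the matrices with a kernel vector modulo `p` of support `T` -/
noncomputable def Bad (α : Type*) [Fintype α] [DecidableEq α] (p : ℕ) (T : Finset α) :
    Finset (Sym2 α → Bool) :=
  univ.filter fun b => p.Prime ∧ ∃ u : α → ZMod p, u ≠ 0 ∧ (∀ i, u i ≠ 0 ↔ i ∈ T) ∧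
    (matZ b).map (Int.cast : ℤ → ZMod p) *ᵥ u = 0

theorem mem_bad (p : ℕ) (T : Finset α) (b : Sym2 α → Bool) : b ∈ Bad α p T ↔ p.Prime ∧
    ∃ u : α → ZMod p, u ≠ 0 ∧ (∀ i, u i ≠ 0 ↔ i ∈ T) ∧
      (matZ b).map (Int.cast : ℤ → ZMod p) *ᵥ u = 0 := by
  simp only [Bad, mem_filter, mem_univ, true_and]

theorem card_bad (p X s : ℕ) (hp : p ≤ X) (hX1 : 1 ≤ X) (T : Finset α) (hTs : T.card ≤ s) :
    (Bad α p T).card * 2 ^ (Fintype.card α - s) ≤ X ^ s * 2 ^ Fintype.card (Sym2 α) := by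
  classical
  by_cases hpp : p.Prime
  · have : Fact p.Prime := ⟨hpp⟩
    have : NeZero p := ⟨hpp.ne_zero⟩
    set UU : Finset (α → ZMod p) := univ.filter fun u => u ≠ 0 ∧ ∀ i, u i ≠ 0 ↔ i ∈ T with hUU
    have hUc : UU.card ≤ X ^ s := by
      have hinj : Set.InjOn (fun (u : α → ZMod p) (i : T) => u i) UU := by
        intro u hu u' hu' h
        rw [mem_coe, hUU, mem_filter] at hu hu'
        funext i
        by_cases hi : i ∈ T
        · exact congrFun h ⟨i, hi⟩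
        · have h1 : u i = 0 := by
            by_contra hne; exact hi ((hu.2.2 i).1 hne)
          have h2 : u' i = 0 := by
            by_contra hne; exact hi ((hu'.2.2 i).1 hne)
          rw [h1, h2]
      have h1 := card_le_card_of_injOn (t := (univ : Finset (T → ZMod p))) _
        (fun _ _ => mem_coe.2 (mem_univ _)) hinj
      rw [card_univ, Fintype.card_fun, ZMod.card, Fintype.card_coe] at h1
      exact h1.trans ((Nat.pow_le_pow_left hp _).trans (Nat.pow_le_pow_right hX1 hTs))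
    set Z : (α → ZMod p) → Finset (Sym2 α → Bool) := fun u =>
      univ.filter fun b : Sym2 α → Bool => (matZ b).map (Int.cast : ℤ → ZMod p) *ᵥ u = 0 with hZ
    have hsub : Bad α p T ⊆ UU.biUnion Z := by
      intro b hb
      obtain ⟨-, u, h1, h2, h3⟩ := (mem_bad p T b).1 hb
      rw [mem_biUnion]
      exact ⟨u, mem_filter.2 ⟨mem_univ _, h1, h2⟩, mem_filter.2 ⟨mem_univ _, h3⟩⟩
    have hone : ∀ u ∈ UU, (Z u).card * 2 ^ (Fintype.card α - s) ≤
        2 ^ Fintype.card (Sym2 α) := by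
      intro u hu
      rw [hUU, mem_filter] at hu
      obtain ⟨j0, hj0⟩ := Function.ne_iff.1 hu.2.1
      have h1 := card_fixed u T hu.2.2 j0 ((hu.2.2 j0).1 hj0)
      exact le_trans (Nat.mul_le_mul_left _
        (Nat.pow_le_pow_right (by norm_num) (Nat.sub_le_sub_left hTs _))) h1
    have h1 : (Bad α p T).card ≤ ∑ u ∈ UU, (Z u).card :=
      (card_le_card hsub).trans card_biUnion_le
    have h2 : (∑ u ∈ UU, (Z u).card) * 2 ^ (Fintype.card α - s) ≤
        UU.card * 2 ^ Fintype.card (Sym2 α) := by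
      rw [sum_mul, ← smul_eq_mul, ← sum_const]
      exact sum_le_sum hone
    exact (Nat.mul_le_mul_right _ h1).trans (h2.trans (Nat.mul_le_mul_right _ hUc))
  · have : Bad α p T = ∅ := by
      refine eq_empty_of_forall_notMem fun b hb => ?_
      exact hpp ((mem_bad p T b).1 hb).1
    rw [this, card_empty, zero_mul]
    exact Nat.zero_le _

open Classical in
/-- the matrices with a sparse kernel vector modulo a prime of `PP` -/
noncomputable def SparseEv (α : Type*) [Fintype α] [DecidableEq α] (PP : Finset ℕ) (s : ℕ) :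
    Finset (Sym2 α → Bool) :=
  univ.filter fun b => ∃ p ∈ PP, p.Prime ∧ ∃ u : α → ZMod p, u ≠ 0 ∧
    (univ.filter fun i => u i ≠ 0).card ≤ s ∧
    (matZ b).map (Int.cast : ℤ → ZMod p) *ᵥ u = 0

theorem mem_sparse (PP : Finset ℕ) (s : ℕ) (b : Sym2 α → Bool) : b ∈ SparseEv α PP s ↔
    ∃ p ∈ PP, p.Prime ∧ ∃ u : α → ZMod p, u ≠ 0 ∧
      (univ.filter fun i => u i ≠ 0).card ≤ s ∧
      (matZ b).map (Int.cast : ℤ → ZMod p) *ᵥ u = 0 := by
  simp only [SparseEv, mem_filter, mem_univ, true_and]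

/-- **L1, finite form**: sparse kernel vectors modulo the primes of `PP` -/
theorem sparse_card (PP : Finset ℕ) (X s : ℕ) (hX : ∀ p ∈ PP, p ≤ X) (hX1 : 1 ≤ X) :
    (SparseEv α PP s).card * 2 ^ (Fintype.card α - s) ≤
      PP.card * (Fintype.card α + 1) ^ s * (X ^ s * 2 ^ Fintype.card (Sym2 α)) := by
  classical
  set SS : Finset (Finset α) := univ.filter fun T : Finset α => T.card ≤ s with hSS
  have hsub : SparseEv α PP s ⊆ (PP ×ˢ SS).biUnion fun q => Bad α q.1 q.2 := by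
    intro b hb
    obtain ⟨p, hp, hpp, u, h1, h2, h3⟩ := (mem_sparse PP s b).1 hb
    rw [mem_biUnion]
    refine ⟨(p, univ.filter fun i => u i ≠ 0), mem_product.2 ⟨hp, mem_filter.2 ⟨mem_univ _, ?_⟩⟩,
      (mem_bad _ _ _).2 ⟨hpp, u, h1, fun i => ?_, h3⟩⟩
    · refine le_trans (card_le_card fun i hi => ?_) h2
      rw [mem_filter] at hi ⊢
      exact hi
    · rw [mem_filter]
      simp
  have h1 : (SparseEv α PP s).card ≤ ∑ q ∈ PP ×ˢ SS, (Bad α q.1 q.2).card :=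
    (card_le_card hsub).trans card_biUnion_le
  have h2 : (∑ q ∈ PP ×ˢ SS, (Bad α q.1 q.2).card) * 2 ^ (Fintype.card α - s) ≤
      (PP ×ˢ SS).card * (X ^ s * 2 ^ Fintype.card (Sym2 α)) := by
    rw [sum_mul, ← smul_eq_mul (a := (PP ×ˢ SS).card), ← sum_const]
    refine sum_le_sum fun q hq => ?_
    rw [mem_product] at hq
    exact card_bad q.1 X s (hX _ hq.1) hX1 q.2 (mem_filter.1 hq.2).2
  rw [card_product] at h2
  exact (Nat.mul_le_mul_right _ h1).trans (h2.trans (Nat.mul_le_mul_right _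
    (Nat.mul_le_mul_left _ (card_small_le s))))

/-- `(n+1)^(4 s + 2) ≤ 2^(ε n)` for `s ≤ n^(1-δ)` and large `n` -/
theorem pow_small (ε δ : ℝ) (hε : 0 < ε) (hδ : 0 < δ) : ∃ n0 : ℕ, ∀ n : ℕ, n0 ≤ n → ∀ s : ℕ,
    (s : ℝ) ≤ (n : ℝ) ^ (1 - δ) → ((n : ℝ) + 1) ^ (4 * s + 2) ≤ (2 : ℝ) ^ (ε * n) := by
  set d : ℝ := min δ 1 with hd
  have hd0 : 0 < d := lt_min hδ one_pos
  have hd1 : d ≤ 1 := min_le_right _ _
  set a : ℝ := d / 2 with ha
  have ha0 : 0 < a := by positivity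
  set K : ℝ := 6 * (2 ^ a / a) / (ε * Real.log 2) with hK
  have hl2 : 0 < Real.log 2 := Real.log_pos (by norm_num)
  have ht : Filter.Tendsto (fun n : ℕ => (n : ℝ) ^ a) Filter.atTop Filter.atTop :=
    (tendsto_rpow_atTop ha0).comp tendsto_natCast_atTop_atTop
  obtain ⟨n0, hn0⟩ := Filter.eventually_atTop.1
    ((ht.eventually_ge_atTop K).and (Filter.eventually_ge_atTop 1))
  refine ⟨n0, fun n hn s hs => ?_⟩
  obtain ⟨h1, h2⟩ := hn0 n hn
  have hn1 : (1 : ℝ) ≤ n := by exact_mod_cast h2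
  have hnpos : (0 : ℝ) < n := by linarith
  have hs' : (s : ℝ) ≤ (n : ℝ) ^ (1 - d) :=
    hs.trans (Real.rpow_le_rpow_of_exponent_le hn1 (by linarith [min_le_left δ 1]))
  have h1d : (1 : ℝ) ≤ (n : ℝ) ^ (1 - d) := Real.one_le_rpow hn1 (by linarith)
  have hlog : Real.log ((n : ℝ) + 1) ≤ (2 ^ a / a) * (n : ℝ) ^ a := by
    have e1 := Real.log_le_rpow_div (x := (n : ℝ) + 1) (by positivity) ha0
    have e2 : ((n : ℝ) + 1) ^ a ≤ (2 * n) ^ a :=
      Real.rpow_le_rpow (by positivity) (by linarith) ha0.le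
    rw [Real.mul_rpow (by norm_num) hnpos.le] at e2
    calc Real.log ((n : ℝ) + 1) ≤ ((n : ℝ) + 1) ^ a / a := e1
      _ ≤ (2 ^ a * (n : ℝ) ^ a) / a := by gcongr
      _ = _ := by ring
  have hlog0 : 0 ≤ Real.log ((n : ℝ) + 1) := Real.log_nonneg (by linarith)
  have hmain : ((4 * s + 2 : ℕ) : ℝ) * Real.log ((n : ℝ) + 1) ≤ ε * n * Real.log 2 := by
    have e1 : ((4 * s + 2 : ℕ) : ℝ) ≤ 6 * (n : ℝ) ^ (1 - d) := by
      push_cast; linarith
    have e3 : (n : ℝ) ^ (1 - d) * (n : ℝ) ^ a * (n : ℝ) ^ a = n := by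
      rw [← Real.rpow_add hnpos, ← Real.rpow_add hnpos]
      rw [show 1 - d + a + a = 1 by rw [ha]; ring, Real.rpow_one]
    have hna : 0 < (n : ℝ) ^ a := Real.rpow_pos_of_pos hnpos a
    have e4 : 6 * (2 ^ a / a) ≤ ε * Real.log 2 * (n : ℝ) ^ a := by
      have : K * (ε * Real.log 2) = 6 * (2 ^ a / a) := by
        rw [hK]; field_simp
      nlinarith [mul_le_mul_of_nonneg_right h1 (show 0 ≤ ε * Real.log 2 by positivity)]
    calc ((4 * s + 2 : ℕ) : ℝ) * Real.log ((n : ℝ) + 1)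
        ≤ (6 * (n : ℝ) ^ (1 - d)) * ((2 ^ a / a) * (n : ℝ) ^ a) :=
          mul_le_mul e1 hlog hlog0 (by positivity)
      _ = (6 * (2 ^ a / a)) * ((n : ℝ) ^ (1 - d) * (n : ℝ) ^ a) := by ring
      _ ≤ (ε * Real.log 2 * (n : ℝ) ^ a) * ((n : ℝ) ^ (1 - d) * (n : ℝ) ^ a) :=
          mul_le_mul_of_nonneg_right e4 (by positivity)
      _ = ε * Real.log 2 * ((n : ℝ) ^ (1 - d) * (n : ℝ) ^ a * (n : ℝ) ^ a) := by ring
      _ = ε * n * Real.log 2 := by rw [e3]; ring
  have hb : (0 : ℝ) < (n : ℝ) + 1 := by linarith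
  have h5 : ((n : ℝ) + 1) ^ (4 * s + 2) = Real.exp (((4 * s + 2 : ℕ) : ℝ) * Real.log ((n : ℝ) + 1)) := by
    rw [← Real.rpow_natCast, Real.rpow_def_of_pos hb, mul_comm]
  have h6 : (2 : ℝ) ^ (ε * n) = Real.exp (ε * n * Real.log 2) := by
    rw [Real.rpow_def_of_pos (by norm_num), mul_comm]
  rw [h5, h6]
  exact Real.exp_le_exp.2 hmain

/-- **L1**: outside density `2^(-(1-ε) n)` there is no kernel vector of support `≤ n^(1-δ)` modulo
a prime `≤ n^2`. -/
theorem sparse_small (ε δ : ℝ) (hε : 0 < ε) (hδ : 0 < δ) : ∃ n0 : ℕ, ∀ n : ℕ, n0 ≤ n →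
    ∀ PP : Finset ℕ, (∀ p ∈ PP, p ≤ n ^ 2) → ∀ s : ℕ, (s : ℝ) ≤ (n : ℝ) ^ (1 - δ) →
      ((SparseEv (Fin n) PP s).card : ℝ) ≤
        (2 : ℝ) ^ (-(1 - ε) * n) * 2 ^ Fintype.card (Sym2 (Fin n)) := by
  obtain ⟨n0, hn0⟩ := pow_small ε δ hε hδ
  refine ⟨max n0 1, fun n hn PP hPP s hs => ?_⟩
  have hn1 : 1 ≤ n := (le_max_right _ _).trans hn
  have hnR : (1 : ℝ) ≤ n := by exact_mod_cast hn1
  have h1 := sparse_card (α := Fin n) PP (n ^ 2) s hPP (Nat.one_le_pow _ _ hn1)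
  rw [Fintype.card_fin] at h1
  have h2 : PP.card ≤ n ^ 2 + 1 := by
    have : PP ⊆ range (n ^ 2 + 1) := fun p hp => mem_range.2 (Nat.lt_succ_of_le (hPP p hp))
    simpa using card_le_card this
  have h3 := hn0 n ((le_max_left _ _).trans hn) s hs
  set N := Fintype.card (Sym2 (Fin n))
  set c := (SparseEv (Fin n) PP s).card
  have hc : (c : ℝ) * 2 ^ (n - s) ≤ ((n : ℝ) ^ 2 + 1) * ((n : ℝ) + 1) ^ s * (((n : ℝ) ^ 2) ^ s * 2 ^ N) := by
    have : ((c * 2 ^ (n - s) : ℕ) : ℝ) ≤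
        (((n ^ 2 + 1) * (n + 1) ^ s * ((n ^ 2) ^ s * 2 ^ N) : ℕ) : ℝ) := by
      exact_mod_cast h1.trans (Nat.mul_le_mul_right _ (Nat.mul_le_mul_right _ h2))
    push_cast at this
    exact this
  have hsn : (2 : ℝ) ^ n ≤ 2 ^ (n - s) * 2 ^ s := by
    rw [← pow_add]
    exact pow_le_pow_right₀ (by norm_num) (by omega)
  have h4 : ((n : ℝ) ^ 2 + 1) * ((n : ℝ) + 1) ^ s * ((n : ℝ) ^ 2) ^ s * 2 ^ s ≤
      ((n : ℝ) + 1) ^ (4 * s + 2) := by
    have e1 : ((n : ℝ) ^ 2 + 1) ≤ ((n : ℝ) + 1) ^ 2 := by nlinarith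
    have e2 : ((n : ℝ) ^ 2) ^ s ≤ (((n : ℝ) + 1) ^ 2) ^ s :=
      pow_le_pow_left₀ (by positivity) (by nlinarith) s
    have e3 : (2 : ℝ) ^ s ≤ ((n : ℝ) + 1) ^ s := pow_le_pow_left₀ (by norm_num) (by linarith) s
    calc ((n : ℝ) ^ 2 + 1) * ((n : ℝ) + 1) ^ s * ((n : ℝ) ^ 2) ^ s * 2 ^ s
        ≤ ((n : ℝ) + 1) ^ 2 * ((n : ℝ) + 1) ^ s * (((n : ℝ) + 1) ^ 2) ^ s * ((n : ℝ) + 1) ^ s := by
          gcongr
      _ = ((n : ℝ) + 1) ^ (4 * s + 2) := by rw [← pow_mul]; ring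
  have h5 : (c : ℝ) * 2 ^ n ≤ (2 : ℝ) ^ (ε * n) * 2 ^ N := by
    calc (c : ℝ) * 2 ^ n ≤ c * (2 ^ (n - s) * 2 ^ s) := by gcongr
      _ = c * 2 ^ (n - s) * 2 ^ s := by ring
      _ ≤ ((n : ℝ) ^ 2 + 1) * ((n : ℝ) + 1) ^ s * (((n : ℝ) ^ 2) ^ s * 2 ^ N) * 2 ^ s := by gcongr
      _ = (((n : ℝ) ^ 2 + 1) * ((n : ℝ) + 1) ^ s * ((n : ℝ) ^ 2) ^ s * 2 ^ s) * 2 ^ N := by ring
      _ ≤ ((n : ℝ) + 1) ^ (4 * s + 2) * 2 ^ N := by gcongr
      _ ≤ _ := by gcongr
  have h6 : (2 : ℝ) ^ (-(1 - ε) * n) = (2 : ℝ) ^ (ε * n) / 2 ^ n := by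
    rw [show -(1 - ε) * (n : ℝ) = ε * n - n by ring, Real.rpow_sub (by norm_num), Real.rpow_natCast]
  rw [h6, div_mul_eq_mul_div, le_div_iff₀ (by positivity)]
  exact h5

end Vale.Agent.P160.Half.Mid216
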