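import Mathlib
import Vale.Agent.P160.Half.Corank

/-! # P160, MID leaf L1: the sparse event

A uniform symmetric 0/1 matrix of size `n` has a nonzero kernel vector with at most `s` nonzero
coordinates modulo some prime `p ≤ B` with probability at most
`(B + 1) * choose n s * B ^ s * 2 ^ (-(n - s))`. -/

namespace Vale.Agent.P160.Half.Sp622

open Finset Matrix

/-- a set of bit arrays which are determined by their values off `F` -/
theorem card_det {E : Type*} [Fintype E] [DecidableEq E] (F : Finset E)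
    (S : Finset (E → Bool))
    (h : ∀ b ∈ S, ∀ b' ∈ S, (∀ e, e ∉ F → b e = b' e) → b = b') :
    S.card * 2 ^ F.card ≤ 2 ^ Fintype.card E := by
  classical
  have h1 : S.card ≤ Fintype.card ({e // e ∉ F} → Bool) := by
    rw [← Finset.card_univ]
    refine Finset.card_le_card_of_injOn (fun b e => b e.1) (fun _ _ => Finset.mem_univ _) ?_
    intro b hb b' hb' hbb
    exact h b hb b' hb' fun e he => congrFun hbb ⟨e, he⟩
  have h2 : Fintype.card ({e // e ∉ F} → Bool) = 2 ^ (Fintype.card E - F.card) := by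
    rw [Fintype.card_fun, Fintype.card_bool]
    congr 1
    rw [Fintype.card_subtype_compl]
    simp
  rw [h2] at h1
  calc S.card * 2 ^ F.card ≤ 2 ^ (Fintype.card E - F.card) * 2 ^ F.card :=
        Nat.mul_le_mul_right _ h1
    _ = 2 ^ Fintype.card E := by
        rw [← pow_add, Nat.sub_add_cancel (Finset.card_le_univ F)]

variable {α : Type*} [Fintype α] [DecidableEq α]

/-- one vector -/
theorem card_one {p : ℕ} [Fact p.Prime] (T : Finset α) (u : α → ZMod p) (j0 : α)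
    (hj0 : u j0 ≠ 0) (hT : ∀ j, u j ≠ 0 → j ∈ T) :
    (univ.filter fun b : Sym2 α → Bool =>
      (matZ b).map (Int.cast : ℤ → ZMod p) *ᵥ u = 0).card * 2 ^ (Fintype.card α - T.card) ≤
      2 ^ Fintype.card (Sym2 α) := by
  classical
  have hj0T : j0 ∈ T := hT j0 hj0
  set F : Finset (Sym2 α) := (Tᶜ).image (fun i => s(i, j0)) with hF
  have hFc : F.card = Fintype.card α - T.card := by
    rw [hF, Finset.card_image_of_injOn, Finset.card_compl]
    intro i hi i' hi' hii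
    have hi1 : i ∉ T := by simpa using hi
    have hii' : s(i, j0) = s(i', j0) := hii
    rcases Sym2.eq_iff.1 hii' with ⟨h1, -⟩ | ⟨h1, -⟩
    · exact h1
    · exact absurd (h1 ▸ hj0T) hi1
  rw [← hFc]
  apply card_det
  intro b hb b' hb' hbb
  have hb1 := (Finset.mem_filter.1 hb).2
  have hb2 := (Finset.mem_filter.1 hb').2
  funext e
  by_cases he : e ∈ F
  · obtain ⟨i, hi, rfl⟩ := Finset.mem_image.1 he
    have hiT : i ∉ T := by simpa using hi
    have e1 := congrFun hb1 i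
    have e2 := congrFun hb2 i
    simp only [Matrix.mulVec, dotProduct, Matrix.map_apply, Pi.zero_apply] at e1 e2
    rw [← Finset.add_sum_erase _ _ (Finset.mem_univ j0)] at e1 e2
    have e3 : ∑ x ∈ univ.erase j0, ((matZ b i x : ℤ) : ZMod p) * u x =
        ∑ x ∈ univ.erase j0, ((matZ b' i x : ℤ) : ZMod p) * u x := by
      apply Finset.sum_congr rfl
      intro x hx
      have hx0 : x ≠ j0 := (Finset.mem_erase.1 hx).1
      by_cases hux : u x = 0
      · rw [hux]; simp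
      · have hxT := hT x hux
        have : s(i, x) ∉ F := by
          intro hmem
          obtain ⟨i', hi', hii'⟩ := Finset.mem_image.1 hmem
          have hi'T : i' ∉ T := by simpa using hi'
          rcases Sym2.eq_iff.1 hii' with ⟨-, h1⟩ | ⟨h1, -⟩
          · exact hx0 h1.symm
          · exact hi'T (h1 ▸ hxT)
        have h4 := hbb _ this
        simp only [matZ, h4]
    rw [e3] at e1
    have e4 : ((matZ b i j0 : ℤ) : ZMod p) * u j0 = ((matZ b' i j0 : ℤ) : ZMod p) * u j0 := by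
      have := e1.trans e2.symm
      exact add_right_cancel this
    have e5 := mul_right_cancel₀ hj0 e4
    unfold matZ at e5
    by_cases h1 : b s(i, j0) <;> by_cases h2 : b' s(i, j0) <;> simp_all
  · exact hbb e he

/-- one prime -/
theorem card_prime {p : ℕ} [Fact p.Prime] (s : ℕ) (hs : s ≤ Fintype.card α) :
    (univ.filter fun b : Sym2 α → Bool => ∃ u : α → ZMod p, u ≠ 0 ∧
      (univ.filter fun i => u i ≠ 0).card ≤ s ∧
      (matZ b).map (Int.cast : ℤ → ZMod p) *ᵥ u = 0).card * 2 ^ (Fintype.card α - s) ≤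
      (Fintype.card α).choose s * p ^ s * 2 ^ Fintype.card (Sym2 α) := by
  classical
  have : NeZero p := ⟨(Fact.out : p.Prime).ne_zero⟩
  let ext : (T : Finset α) → (T → ZMod p) → α → ZMod p :=
    fun T w i => if h : i ∈ T then w ⟨i, h⟩ else 0
  let A : (T : Finset α) → (T → ZMod p) → Finset (Sym2 α → Bool) := fun T w =>
    univ.filter fun b : Sym2 α → Bool => ext T w ≠ 0 ∧
      (matZ b).map (Int.cast : ℤ → ZMod p) *ᵥ (ext T w) = 0
  have hsub : (univ.filter fun b : Sym2 α → Bool => ∃ u : α → ZMod p, u ≠ 0 ∧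
      (univ.filter fun i => u i ≠ 0).card ≤ s ∧
      (matZ b).map (Int.cast : ℤ → ZMod p) *ᵥ u = 0) ⊆
      (Finset.powersetCard s (univ : Finset α)).biUnion fun T => univ.biUnion fun w => A T w := by
    intro b hb
    obtain ⟨u, hu, hsu, hub⟩ := (Finset.mem_filter.1 hb).2
    obtain ⟨T, hT1, -, hT3⟩ := Finset.exists_subsuperset_card_eq
      (Finset.subset_univ (univ.filter fun i => u i ≠ 0)) hsu (by simpa using hs)
    have hext : ext T (fun i => u i) = u := by
      funext i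
      simp only [ext]
      split_ifs with h
      · rfl
      · by_contra h1
        exact h (hT1 (by simpa using fun h2 => h1 h2.symm))
    refine Finset.mem_biUnion.2 ⟨T, Finset.mem_powersetCard.2 ⟨Finset.subset_univ _, hT3⟩,
      Finset.mem_biUnion.2 ⟨fun i => u i, Finset.mem_univ _, Finset.mem_filter.2
        ⟨Finset.mem_univ _, ?_, ?_⟩⟩⟩
    · rw [hext]; exact hu
    · rw [hext]; exact hub
  have hA : ∀ T ∈ Finset.powersetCard s (univ : Finset α), ∀ w, (A T w).card *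
      2 ^ (Fintype.card α - s) ≤ 2 ^ Fintype.card (Sym2 α) := by
    intro T hT w
    have hTs : T.card = s := (Finset.mem_powersetCard.1 hT).2
    by_cases hw : ext T w = 0
    · have : A T w = ∅ := by
        apply Finset.filter_eq_empty_iff.2
        intro b _ h
        exact h.1 hw
      rw [this]; simp
    · obtain ⟨j0, hj0⟩ := Function.ne_iff.1 hw
      have h1 := card_one T (ext T w) j0 hj0 (by
        intro j hj
        by_contra h
        exact hj (by simp [ext, h]))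
      rw [hTs] at h1
      refine le_trans (Nat.mul_le_mul_right _ (Finset.card_le_card ?_)) h1
      intro b hb
      exact Finset.mem_filter.2 ⟨Finset.mem_univ _, (Finset.mem_filter.1 hb).2.2⟩
  calc _ ≤ (∑ T ∈ Finset.powersetCard s (univ : Finset α), ∑ w : T → ZMod p, (A T w).card) *
        2 ^ (Fintype.card α - s) := by
        apply Nat.mul_le_mul_right
        refine (Finset.card_le_card hsub).trans (Finset.card_biUnion_le.trans ?_)
        exact Finset.sum_le_sum fun T _ => Finset.card_biUnion_le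
    _ = ∑ T ∈ Finset.powersetCard s (univ : Finset α), ∑ w : T → ZMod p, (A T w).card *
        2 ^ (Fintype.card α - s) := by
        rw [Finset.sum_mul]
        exact Finset.sum_congr rfl fun T _ => Finset.sum_mul _ _ _
    _ ≤ ∑ T ∈ Finset.powersetCard s (univ : Finset α), ∑ w : T → ZMod p,
        2 ^ Fintype.card (Sym2 α) :=
        Finset.sum_le_sum fun T hT => Finset.sum_le_sum fun w _ => hA T hT w
    _ = (Fintype.card α).choose s * p ^ s * 2 ^ Fintype.card (Sym2 α) := by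
        have : ∀ T ∈ Finset.powersetCard s (univ : Finset α),
            (∑ w : T → ZMod p, 2 ^ Fintype.card (Sym2 α)) =
              p ^ s * 2 ^ Fintype.card (Sym2 α) := by
          intro T hT
          have hTs : T.card = s := (Finset.mem_powersetCard.1 hT).2
          rw [Finset.sum_const, Finset.card_univ, Fintype.card_fun, ZMod.card,
            Fintype.card_coe, hTs, smul_eq_mul]
        rw [Finset.sum_congr rfl this, Finset.sum_const, Finset.card_powersetCard,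
          Finset.card_univ, smul_eq_mul]
        ring

open scoped Classical in
/-- all primes up to `B` -/
theorem card_all (B s : ℕ) (hs : s ≤ Fintype.card α) :
    (univ.filter fun b : Sym2 α → Bool => ∃ p, p.Prime ∧ p ≤ B ∧ ∃ u : α → ZMod p, u ≠ 0 ∧
      (univ.filter fun i => u i ≠ 0).card ≤ s ∧
      (matZ b).map (Int.cast : ℤ → ZMod p) *ᵥ u = 0).card * 2 ^ (Fintype.card α - s) ≤
      (B + 1) * ((Fintype.card α).choose s * B ^ s * 2 ^ Fintype.card (Sym2 α)) := by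
  let D : ℕ → Finset (Sym2 α → Bool) := fun p => univ.filter fun b : Sym2 α → Bool =>
    p.Prime ∧ ∃ u : α → ZMod p, u ≠ 0 ∧ (univ.filter fun i => u i ≠ 0).card ≤ s ∧
      (matZ b).map (Int.cast : ℤ → ZMod p) *ᵥ u = 0
  have hsub : (univ.filter fun b : Sym2 α → Bool => ∃ p, p.Prime ∧ p ≤ B ∧
      ∃ u : α → ZMod p, u ≠ 0 ∧ (univ.filter fun i => u i ≠ 0).card ≤ s ∧
      (matZ b).map (Int.cast : ℤ → ZMod p) *ᵥ u = 0) ⊆ (Finset.range (B + 1)).biUnion D := by
    intro b hb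
    obtain ⟨p, hp, hpB, h⟩ := (Finset.mem_filter.1 hb).2
    exact Finset.mem_biUnion.2 ⟨p, Finset.mem_range.2 (by omega),
      Finset.mem_filter.2 ⟨Finset.mem_univ _, hp, h⟩⟩
  have hD : ∀ p ∈ Finset.range (B + 1), (D p).card * 2 ^ (Fintype.card α - s) ≤
      (Fintype.card α).choose s * B ^ s * 2 ^ Fintype.card (Sym2 α) := by
    intro p hp
    by_cases hpp : p.Prime
    · have : Fact p.Prime := ⟨hpp⟩
      have h1 := card_prime (α := α) (p := p) s hs
      have h2 : (D p).card * 2 ^ (Fintype.card α - s) ≤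
          (Fintype.card α).choose s * p ^ s * 2 ^ Fintype.card (Sym2 α) := by
        refine le_trans (Nat.mul_le_mul_right _ (Finset.card_le_card ?_)) h1
        intro b hb
        simp only [D, Finset.mem_filter, Finset.mem_univ, true_and] at hb
        simp only [Finset.mem_filter, Finset.mem_univ, true_and]
        exact hb.2
      have h3 : p ≤ B := by have := Finset.mem_range.1 hp; omega
      exact h2.trans (Nat.mul_le_mul_right _ (Nat.mul_le_mul_left _ (Nat.pow_le_pow_left h3 _)))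
    · have : D p = ∅ := by
        apply Finset.eq_empty_of_forall_notMem
        intro b h
        exact hpp (Finset.mem_filter.1 h).2.1
      rw [this]; simp
  calc _ ≤ (∑ p ∈ Finset.range (B + 1), (D p).card) * 2 ^ (Fintype.card α - s) :=
        Nat.mul_le_mul_right _ ((Finset.card_le_card hsub).trans Finset.card_biUnion_le)
    _ = ∑ p ∈ Finset.range (B + 1), (D p).card * 2 ^ (Fintype.card α - s) := Finset.sum_mul _ _ _
    _ ≤ ∑ p ∈ Finset.range (B + 1),
        (Fintype.card α).choose s * B ^ s * 2 ^ Fintype.card (Sym2 α) := Finset.sum_le_sum hD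
    _ = _ := by rw [Finset.sum_const, Finset.card_range, smul_eq_mul]

theorem asym (d e : ℝ) (hd : 0 < d) (hd1 : d ≤ 1 / 2) (he : 0 < e) :
    ∃ n0 : ℕ, 1 ≤ n0 ∧ ∀ n : ℕ, n0 ≤ n → ∀ s : ℕ, (s : ℝ) ≤ (n : ℝ) ^ (1 - d) →
      ((n : ℝ) ^ 2 + 1) * ((n : ℝ) ^ s * ((n : ℝ) ^ 2) ^ s) * 2 ^ s ≤ (2 : ℝ) ^ (e * n) := by
  have hlog2 : 0 < Real.log 2 := Real.log_pos (by norm_num)
  set c : ℝ := e * Real.log 2 / 12 with hc
  have hc0 : 0 < c := by positivity
  have h1 := (isLittleO_log_rpow_atTop (show (0 : ℝ) < d / 2 by positivity)).bound hc0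
  obtain ⟨x0, hx0⟩ := Filter.eventually_atTop.1 h1
  refine ⟨max 1 ⌈x0⌉₊, le_max_left _ _, fun n hn s hs => ?_⟩
  have hn1 : 1 ≤ n := (le_max_left _ _).trans hn
  have hn1' : (1 : ℝ) ≤ n := by exact_mod_cast hn1
  have hnx : x0 ≤ 2 * (n : ℝ) := by
    have : x0 ≤ (n : ℝ) := (Nat.le_ceil x0).trans (by exact_mod_cast (le_max_right _ _).trans hn)
    linarith
  have h2 := hx0 _ hnx
  have hlogn : 0 ≤ Real.log (2 * n) := Real.log_nonneg (by linarith)
  rw [Real.norm_of_nonneg hlogn, Real.norm_of_nonneg (by positivity),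
    Real.mul_rpow (by norm_num) (by linarith)] at h2
  have h3 : (2 : ℝ) ^ (d / 2) ≤ 2 := by
    calc (2 : ℝ) ^ (d / 2) ≤ (2 : ℝ) ^ (1 : ℝ) :=
          Real.rpow_le_rpow_of_exponent_le (by norm_num) (by linarith)
      _ = 2 := by norm_num
  have hnd : 0 ≤ (n : ℝ) ^ (d / 2) := by positivity
  have h4 : Real.log (2 * n) ≤ 2 * c * (n : ℝ) ^ (d / 2) := by
    calc Real.log (2 * n) ≤ c * (2 ^ (d / 2) * (n : ℝ) ^ (d / 2)) := h2
      _ ≤ c * (2 * (n : ℝ) ^ (d / 2)) := by gcongr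
      _ = 2 * c * (n : ℝ) ^ (d / 2) := by ring
  have h5 : (1 : ℝ) ≤ (n : ℝ) ^ (1 - d) := Real.one_le_rpow hn1' (by linarith)
  have h6 : (3 * (s : ℝ) + 3) ≤ 6 * (n : ℝ) ^ (1 - d) := by linarith
  have h7 : (3 * (s : ℝ) + 3) * Real.log (2 * n) ≤ e * n * Real.log 2 := by
    calc (3 * (s : ℝ) + 3) * Real.log (2 * n) ≤
        (6 * (n : ℝ) ^ (1 - d)) * (2 * c * (n : ℝ) ^ (d / 2)) := by gcongr
      _ = 12 * c * ((n : ℝ) ^ (1 - d) * (n : ℝ) ^ (d / 2)) := by ring
      _ = 12 * c * (n : ℝ) ^ (1 - d + d / 2) := by rw [Real.rpow_add (by linarith)]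
      _ ≤ 12 * c * (n : ℝ) ^ (1 : ℝ) := by
          gcongr
          linarith
      _ = e * n * Real.log 2 := by rw [Real.rpow_one, hc]; ring
  have h8 : ((n : ℝ) ^ 2 + 1) * ((n : ℝ) ^ s * ((n : ℝ) ^ 2) ^ s) * 2 ^ s ≤
      (2 * (n : ℝ)) ^ (3 * s + 3) := by
    have e1 : (n : ℝ) ^ 2 + 1 ≤ (2 * (n : ℝ)) ^ 3 := by
      have : (1 : ℝ) ≤ (n : ℝ) ^ 2 := one_le_pow₀ hn1'
      have h9 : (n : ℝ) ^ 2 ≤ (n : ℝ) ^ 3 := pow_le_pow_right₀ hn1' (by norm_num)
      nlinarith
    have e2 : ((n : ℝ) ^ s * ((n : ℝ) ^ 2) ^ s) * 2 ^ s ≤ (2 * (n : ℝ)) ^ (3 * s) := by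
      have e3 : ((n : ℝ) ^ s * ((n : ℝ) ^ 2) ^ s) * 2 ^ s = (2 * (n : ℝ) ^ 3) ^ s := by
        rw [← mul_pow, ← mul_pow]; congr 1; ring
      rw [e3, pow_mul]
      apply pow_le_pow_left₀ (by positivity)
      have : (0 : ℝ) ≤ (n : ℝ) ^ 3 := by positivity
      nlinarith
    calc ((n : ℝ) ^ 2 + 1) * ((n : ℝ) ^ s * ((n : ℝ) ^ 2) ^ s) * 2 ^ s =
        ((n : ℝ) ^ 2 + 1) * (((n : ℝ) ^ s * ((n : ℝ) ^ 2) ^ s) * 2 ^ s) := by ring
      _ ≤ (2 * (n : ℝ)) ^ 3 * (2 * (n : ℝ)) ^ (3 * s) := by gcongr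
      _ = _ := by rw [← pow_add]; congr 1; ring
  refine h8.trans ?_
  rw [← Real.rpow_natCast, Real.rpow_def_of_pos (by linarith),
    Real.rpow_def_of_pos (by norm_num : (0 : ℝ) < 2)]
  apply Real.exp_le_exp.2
  push_cast
  linarith

/-- **MID L1, the sparse event.** -/
theorem sparse_event (d e : ℝ) (hd : 0 < d) (he : 0 < e) : ∃ n0 : ℕ, ∀ n : ℕ, n0 ≤ n →
    (Nat.card {b : Sym2 (Fin n) → Bool // ∃ p, p.Prime ∧ p ≤ n ^ 2 ∧ ∃ u : Fin n → ZMod p, u ≠ 0 ∧
      ((univ.filter fun i => u i ≠ 0).card : ℝ) ≤ (n : ℝ) ^ (1 - d) ∧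
      (matZ b).map (Int.cast : ℤ → ZMod p) *ᵥ u = 0} : ℝ) ≤
      (2 : ℝ) ^ (-(1 - e) * n) * 2 ^ Fintype.card (Sym2 (Fin n)) := by
  classical
  set d' : ℝ := min d (1 / 2) with hd'
  have hd'0 : 0 < d' := lt_min hd (by norm_num)
  have hd'd : d' ≤ d := min_le_left _ _
  obtain ⟨n0, h1, h2⟩ := asym d' e hd'0 (min_le_right _ _) he
  refine ⟨n0, fun n hn => ?_⟩
  have hn1 : 1 ≤ n := h1.trans hn
  have hn1' : (1 : ℝ) ≤ n := by exact_mod_cast hn1
  set s : ℕ := ⌊(n : ℝ) ^ (1 - d')⌋₊ with hs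
  have hs1 : (s : ℝ) ≤ (n : ℝ) ^ (1 - d') := Nat.floor_le (by positivity)
  have hsn : s ≤ n := by
    have : (s : ℝ) ≤ n := hs1.trans (by
      calc (n : ℝ) ^ (1 - d') ≤ (n : ℝ) ^ (1 : ℝ) :=
            Real.rpow_le_rpow_of_exponent_le hn1' (by linarith)
        _ = n := Real.rpow_one _)
    exact_mod_cast this
  have h3 := card_all (α := Fin n) (n ^ 2) s (by simpa using hsn)
  have h4 := h2 n hn s hs1
  have h5 : Nat.card {b : Sym2 (Fin n) → Bool // ∃ p, p.Prime ∧ p ≤ n ^ 2 ∧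
      ∃ u : Fin n → ZMod p, u ≠ 0 ∧
      ((univ.filter fun i => u i ≠ 0).card : ℝ) ≤ (n : ℝ) ^ (1 - d) ∧
      (matZ b).map (Int.cast : ℤ → ZMod p) *ᵥ u = 0} ≤
      (univ.filter fun b : Sym2 (Fin n) → Bool => ∃ p, p.Prime ∧ p ≤ n ^ 2 ∧
      ∃ u : Fin n → ZMod p, u ≠ 0 ∧ (univ.filter fun i => u i ≠ 0).card ≤ s ∧
      (matZ b).map (Int.cast : ℤ → ZMod p) *ᵥ u = 0).card := by
    rw [Nat.card_eq_fintype_card, Fintype.card_subtype]
    apply Finset.card_le_card
    intro b hb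
    obtain ⟨p, hp, hpn, u, hu, hus, hub⟩ := (Finset.mem_filter.1 hb).2
    refine Finset.mem_filter.2 ⟨Finset.mem_univ _, p, hp, hpn, u, hu, ?_, hub⟩
    apply Nat.le_floor
    calc (((univ.filter fun i => u i ≠ 0).card : ℕ) : ℝ) ≤ (n : ℝ) ^ (1 - d) := by
          convert hus
      _ ≤ (n : ℝ) ^ (1 - d') := Real.rpow_le_rpow_of_exponent_le hn1' (by linarith)
  set X : ℕ := (univ.filter fun b : Sym2 (Fin n) → Bool => ∃ p, p.Prime ∧ p ≤ n ^ 2 ∧
      ∃ u : Fin n → ZMod p, u ≠ 0 ∧ (univ.filter fun i => u i ≠ 0).card ≤ s ∧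
      (matZ b).map (Int.cast : ℤ → ZMod p) *ᵥ u = 0).card with hX
  have h6 : (X : ℝ) * 2 ^ (n - s) ≤ ((n : ℝ) ^ 2 + 1) * (((n : ℝ) ^ s * ((n : ℝ) ^ 2) ^ s) *
      2 ^ Fintype.card (Sym2 (Fin n))) := by
    have h7 : (X : ℝ) * 2 ^ (n - s) ≤ ((n : ℝ) ^ 2 + 1) * (((n.choose s : ℕ) : ℝ) *
        ((n : ℝ) ^ 2) ^ s * 2 ^ Fintype.card (Sym2 (Fin n))) := by
      have := h3
      rw [Fintype.card_fin] at this
      exact_mod_cast this
    refine h7.trans ?_
    gcongr
    exact_mod_cast Nat.choose_le_pow n s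
  have h8 : (X : ℝ) * 2 ^ n ≤ (2 : ℝ) ^ (e * n) * 2 ^ Fintype.card (Sym2 (Fin n)) := by
    have h9 : (2 : ℝ) ^ n = 2 ^ (n - s) * 2 ^ s := by rw [← pow_add, Nat.sub_add_cancel hsn]
    calc (X : ℝ) * 2 ^ n = (X : ℝ) * 2 ^ (n - s) * 2 ^ s := by rw [h9]; ring
      _ ≤ ((n : ℝ) ^ 2 + 1) * (((n : ℝ) ^ s * ((n : ℝ) ^ 2) ^ s) *
          2 ^ Fintype.card (Sym2 (Fin n))) * 2 ^ s := by gcongr
      _ = (((n : ℝ) ^ 2 + 1) * ((n : ℝ) ^ s * ((n : ℝ) ^ 2) ^ s) * 2 ^ s) *
          2 ^ Fintype.card (Sym2 (Fin n)) := by ring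
      _ ≤ _ := by gcongr
  have h10 : (2 : ℝ) ^ (-(1 - e) * n) = (2 : ℝ) ^ (e * n) / 2 ^ n := by
    rw [show -(1 - e) * (n : ℝ) = e * n - n by ring, Real.rpow_sub (by norm_num),
      Real.rpow_natCast]
  calc _ ≤ (X : ℝ) := by exact_mod_cast h5
    _ ≤ (2 : ℝ) ^ (e * n) * 2 ^ Fintype.card (Sym2 (Fin n)) / 2 ^ n := by
        rw [le_div_iff₀ (by positivity)]; exact h8
    _ = _ := by rw [h10]; ring

end Vale.Agent.P160.Half.Sp622
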