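import Mathlib

/-! # P160, rate 1/2, middle primes: counting zero patterns (helper748) -/

namespace Vale.Agent.P160.Half.Mid.Z748

open Finset

theorem card_fixed {ι : Type*} [Fintype ι] [DecidableEq ι] (p : ι → ℕ) [∀ i, NeZero (p i)]
    (Z : Finset ι) :
    ((univ : Finset (∀ i, ZMod (p i))).filter fun w => ∀ i ∈ Z, w i = 0).card * ∏ i ∈ Z, p i =
      ∏ i, p i := by
  classical
  have h1 : ((univ : Finset (∀ i, ZMod (p i))).filter fun w => ∀ i ∈ Z, w i = 0) =
      Fintype.piFinset (fun i => if i ∈ Z then ({0} : Finset (ZMod (p i))) else univ) := by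
    ext w
    simp only [mem_filter, mem_univ, true_and, Fintype.mem_piFinset]
    constructor
    · intro h i
      by_cases hi : i ∈ Z
      · rw [if_pos hi, mem_singleton]; exact h i hi
      · rw [if_neg hi]; exact mem_univ _
    · intro h i hi
      have := h i
      rw [if_pos hi, mem_singleton] at this
      exact this
  rw [h1, Fintype.card_piFinset]
  have h2 : ∀ i, (if i ∈ Z then ({0} : Finset (ZMod (p i))) else univ).card = if i ∈ Z then 1 else p i := by
    intro i
    split_ifs
    · exact card_singleton _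
    · rw [card_univ, ZMod.card]
  rw [prod_congr rfl fun i _ => h2 i, prod_ite, prod_const_one, one_mul]
  have h3 : ∏ i, p i = (∏ i ∈ univ.filter (fun i => i ∈ Z), p i) * ∏ i ∈ univ.filter (fun i => i ∉ Z), p i :=
    (prod_filter_mul_prod_filter_not univ (fun i => i ∈ Z) p).symm
  rw [h3, mul_comm]
  congr 1
  apply prod_congr _ fun _ _ => rfl
  ext i; simp

/-- **Zero patterns**: the number of vectors with at least `I` zero coordinates. -/
theorem card_zeros {ι : Type*} [Fintype ι] [DecidableEq ι] (p : ι → ℕ) [∀ i, NeZero (p i)]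
    (y : ℕ) (hy : ∀ i, y ≤ p i) (I : ℕ) :
    ((univ : Finset (∀ i, ZMod (p i))).filter fun w =>
      I ≤ ((univ : Finset ι).filter fun i => w i = 0).card).card * y ^ I ≤
      (Fintype.card ι).choose I * ∏ i, p i := by
  classical
  have hsub : ((univ : Finset (∀ i, ZMod (p i))).filter fun w =>
      I ≤ ((univ : Finset ι).filter fun i => w i = 0).card) ⊆
      (powersetCard I (univ : Finset ι)).biUnion fun Z =>
        (univ : Finset (∀ i, ZMod (p i))).filter fun w => ∀ i ∈ Z, w i = 0 := by
    intro w hw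
    obtain ⟨Z, hZ, hZc⟩ := Finset.exists_subset_card_eq (mem_filter.1 hw).2
    refine mem_biUnion.2 ⟨Z, mem_powersetCard.2 ⟨subset_univ _, hZc⟩, mem_filter.2 ⟨mem_univ _, ?_⟩⟩
    intro i hi
    exact (mem_filter.1 (hZ hi)).2
  have hone : ∀ Z ∈ powersetCard I (univ : Finset ι),
      ((univ : Finset (∀ i, ZMod (p i))).filter fun w => ∀ i ∈ Z, w i = 0).card * y ^ I ≤ ∏ i, p i := by
    intro Z hZ
    rw [← card_fixed p Z]
    apply Nat.mul_le_mul_left
    rw [← (mem_powersetCard.1 hZ).2]
    exact Finset.pow_card_le_prod _ _ _ fun i _ => hy i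
  calc _ ≤ (∑ Z ∈ powersetCard I (univ : Finset ι),
        ((univ : Finset (∀ i, ZMod (p i))).filter fun w => ∀ i ∈ Z, w i = 0).card) * y ^ I :=
        Nat.mul_le_mul_right _ ((card_le_card hsub).trans card_biUnion_le)
    _ = ∑ Z ∈ powersetCard I (univ : Finset ι),
        ((univ : Finset (∀ i, ZMod (p i))).filter fun w => ∀ i ∈ Z, w i = 0).card * y ^ I := by
        rw [sum_mul]
    _ ≤ ∑ Z ∈ powersetCard I (univ : Finset ι), ∏ i, p i := sum_le_sum hone
    _ = _ := by rw [sum_const, card_powersetCard, card_univ, smul_eq_mul]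

/-- the same for `k` coordinates in `∏ p`, pairs `(i, p)` -/
theorem card_zeros_pairs {P : Type*} [Fintype P] [DecidableEq P] (p : P → ℕ) [∀ i, NeZero (p i)]
    (k y : ℕ) (hy : ∀ i, y ≤ p i) (I : ℕ) :
    ((univ : Finset (Fin k → ∀ i, ZMod (p i))).filter fun w =>
      I ≤ ((univ : Finset (Fin k × P)).filter fun x => w x.1 x.2 = 0).card).card * y ^ I ≤
      (k * Fintype.card P).choose I * (∏ i, p i) ^ k := by
  classical
  have h := card_zeros (ι := Fin k × P) (fun x => p x.2) y (fun x => hy x.2) I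
  rw [Fintype.card_prod, Fintype.card_fin] at h
  have h1 : ∏ x : Fin k × P, p x.2 = (∏ i, p i) ^ k := by
    rw [Fintype.prod_prod_type]
    simp
  rw [h1] at h
  refine le_trans (Nat.mul_le_mul_right _ ?_) h
  refine Finset.card_le_card_of_injOn (fun w x => w x.1 x.2) ?_ ?_
  · intro w hw
    simp only [coe_filter, mem_univ, true_and, Set.mem_ofPred_eq] at hw ⊢
    exact hw
  · intro w _ w' _ hww
    funext a b
    exact congrFun hww (a, b)

/-- CRT form: `N = ∏ p`, `w : Fin k → ZMod N`; zero pairs `(i, p)` with `w i = 0 mod p` -/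
theorem card_zeros_zmod {P : Type*} [Fintype P] [DecidableEq P] (p : P → ℕ) [∀ i, NeZero (p i)]
    (hp : Pairwise (Function.onFun Nat.Coprime p)) [NeZero (∏ i, p i)]
    (k y : ℕ) (hy : ∀ i, y ≤ p i) (I : ℕ) :
    ((univ : Finset (Fin k → ZMod (∏ i, p i))).filter fun w =>
      I ≤ ((univ : Finset (Fin k × P)).filter fun x => ((w x.1).cast : ZMod (p x.2)) = 0).card).card *
        y ^ I ≤
      (k * Fintype.card P).choose I * (∏ i, p i) ^ k := by
  classical
  refine le_trans (Nat.mul_le_mul_right _ ?_) (card_zeros_pairs p k y hy I)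
  let e := ZMod.prodEquivPi p hp
  have he : ∀ (a : ZMod (∏ i, p i)) (i : P), e a i = (a.cast : ZMod (p i)) := by
    intro a i
    have h1 : ZMod.castHom (Finset.dvd_prod_of_mem p (mem_univ i)) (ZMod (p i)) a = a.cast := rfl
    have h2 : (Pi.evalRingHom (fun i => ZMod (p i)) i).comp e.toRingHom =
        ZMod.castHom (Finset.dvd_prod_of_mem p (mem_univ i)) (ZMod (p i)) := RingHom.ext_zmod _ _
    rw [← h1, ← h2]
    rfl
  refine Finset.card_le_card_of_injOn (fun w a => e (w a)) ?_ ?_
  · intro w hw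
    simp only [coe_filter, mem_univ, true_and, Set.mem_ofPred_eq] at hw ⊢
    refine hw.trans (card_le_card ?_)
    intro x hx
    rw [mem_filter] at hx ⊢
    exact ⟨mem_univ _, by rw [he]; exact hx.2⟩
  · intro w _ w' _ hww
    funext a
    exact e.injective (congrFun hww a)

end Vale.Agent.P160.Half.Mid.Z748
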